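import Vale.Agent.P073.H236.Fam

/-!
# P073, H228, K3C, **[S-SIG]**: the second staircase

`F : BFam n ι Λ` is a family of staircases with the targets `bnd N al be e k`. The second staircase
`sg` maps these bands onto `bnd N al be (ς e) k`, with the slope `ς` on the gaps.
-/

open Set Metric Topology Filter

namespace P073.H228

open P073 P073.H236

section one

variable {N : ℕ} {al be e ς : ℝ}

/-- lower end of the band `k` -/
noncomputable def bl (N : ℕ) (al be e : ℝ) (k : ℕ) : ℝ := al + k * stp N al be + e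

/-- upper end of the band `k` -/
noncomputable def bh (N : ℕ) (al be e : ℝ) (k : ℕ) : ℝ := al + (k + 1) * stp N al be - e

theorem bnd_eq (k : ℕ) : bnd N al be e k = Icc (bl N al be e k) (bh N al be e k) := rfl

theorem mul_stp (hN : 0 < N) : (N : ℝ) * stp N al be = be - al := by
  have hN' : (N : ℝ) ≠ 0 := by positivity
  unfold stp
  rw [mul_div_cancel₀ _ hN']

theorem pred_cast (hN : 0 < N) : (((N - 1 : ℕ)) : ℝ) + 1 = N := by
  have : N - 1 + 1 = N := by omega
  exact_mod_cast this

theorem bh_last (hN : 0 < N) : bh N al be e (N - 1) = be - e := by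
  unfold bh
  rw [pred_cast hN, mul_stp hN]; ring

theorem arr_bl (hN : 0 < N) (he : 0 < e) (heo : 2 * e < stp N al be) :
    Arr N al be (bl N al be e) (bh N al be e) where
  pos := hN
  first := by unfold bl; push_cast; linarith
  lt := fun k _ => by unfold bl bh; linarith
  gap := fun k _ => by unfold bl bh; push_cast; linarith
  last := by rw [bh_last hN]; linarith

/-- the slope on the bands -/
noncomputable def slA (N : ℕ) (al be e ς : ℝ) : ℝ := (stp N al be - 2 * (ς * e)) / (stp N al be - 2 * e)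

theorem one_le_slA (he : 0 < e) (heo : 2 * e < stp N al be) (h1 : ς ≤ 1) :
    1 ≤ slA N al be e ς := by
  unfold slA
  rw [one_le_div (by linarith)]
  nlinarith

theorem slA_le (he : 0 < e) (h0 : 0 < ς) {μ : ℝ} (hμ : 0 < μ)
    (h : 2 * e * (1 + μ) ≤ μ * stp N al be) : slA N al be e ς ≤ 1 + μ := by
  have h1 : 0 < stp N al be - 2 * e := by
    have h2 : μ * (2 * e) < μ * stp N al be := by nlinarith
    have := lt_of_mul_lt_mul_left h2 hμ.le
    linarith
  unfold slA
  rw [div_le_iff₀ h1]
  have h3 : 0 < ς * e := mul_pos h0 he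
  nlinarith

/-- **the second staircase** -/
noncomputable def sg (N : ℕ) (al be e ς : ℝ) : ℝ → ℝ :=
  stair N al be (bl N al be e) (bh N al be e) (bl N al be (ς * e)) (bh N al be (ς * e))

/-- its inverse -/
noncomputable def sgi (N : ℕ) (al be e ς : ℝ) : ℝ → ℝ :=
  stair N al be (bl N al be (ς * e)) (bh N al be (ς * e)) (bl N al be e) (bh N al be e)

/-- the hypotheses on the numbers -/
structure SgOk (N : ℕ) (al be e ς : ℝ) : Prop where
  pos : 0 < N
  e0 : 0 < e
  eo : 2 * e < stp N al be
  s0 : 0 < ς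
  s1 : ς ≤ 1

namespace SgOk

variable (H : SgOk N al be e ς)

include H

theorem se0 : 0 < ς * e := mul_pos H.s0 H.e0

theorem se_le : ς * e ≤ e := mul_le_of_le_one_left H.e0.le H.s1

theorem arr : Arr N al be (bl N al be e) (bh N al be e) := arr_bl H.pos H.e0 H.eo

theorem arr' : Arr N al be (bl N al be (ς * e)) (bh N al be (ς * e)) :=
  arr_bl H.pos H.se0 (by linarith [H.se_le, H.eo])

theorem al_lt_be : al < be := by
  have h1 := H.arr.first
  have h2 := H.arr.last
  have h3 := mul_stp (al := al) (be := be) H.pos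
  have h4 : 0 < stp N al be := by linarith [H.e0, H.eo]
  have h5 : 0 < (N : ℝ) := by exact_mod_cast H.pos
  have := mul_pos h5 h4
  linarith

theorem strictMono : StrictMono (sg N al be e ς) := stair_strictMono H.arr H.arr'

theorem strictMono' : StrictMono (sgi N al be e ς) := stair_strictMono H.arr' H.arr

theorem sgi_sg (t : ℝ) : sgi N al be e ς (sg N al be e ς t) = t := stair_stair H.arr H.arr' t

theorem sg_sgi (t : ℝ) : sg N al be e ς (sgi N al be e ς t) = t := stair_stair H.arr' H.arr t

theorem out {t : ℝ} (ht : t ≤ al ∨ be ≤ t) : sg N al be e ς t = t := by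
  rcases ht with h | h
  · exact stair_of_le H.arr h
  · exact stair_of_ge H.arr h

theorem out' {t : ℝ} (ht : t ≤ al ∨ be ≤ t) : sgi N al be e ς t = t := by
  rcases ht with h | h
  · exact stair_of_le H.arr' h
  · exact stair_of_ge H.arr' h

theorem win {t : ℝ} (ht : t ∈ Icc al be) : sg N al be e ς t ∈ Icc al be := by
  have h1 := H.strictMono.monotone ht.1
  have h2 := H.strictMono.monotone ht.2
  rw [H.out (Or.inl le_rfl)] at h1
  rw [H.out (Or.inr le_rfl)] at h2
  exact ⟨h1, h2⟩

theorem win' {t : ℝ} (ht : t ∈ Icc al be) : sgi N al be e ς t ∈ Icc al be := by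
  have h1 := H.strictMono'.monotone ht.1
  have h2 := H.strictMono'.monotone ht.2
  rw [H.out' (Or.inl le_rfl)] at h1
  rw [H.out' (Or.inr le_rfl)] at h2
  exact ⟨h1, h2⟩

/-- displacement -/
theorem abs_sub_self_le (t : ℝ) : |sg N al be e ς t - t| ≤ (1 - ς) * e := by
  have h0 : 0 ≤ (1 - ς) * e := mul_nonneg (by linarith [H.s1]) H.e0.le
  refine abs_stair_sub_self_le H.arr h0 (fun k _ => ?_) (fun k _ => ?_) t
  · have : bl N al be (ς * e) k - bl N al be e k = -((1 - ς) * e) := by unfold bl; ring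
    rw [this, abs_neg, abs_of_nonneg h0]
  · have : bh N al be (ς * e) k - bh N al be e k = (1 - ς) * e := by unfold bh; ring
    rw [this, abs_of_nonneg h0]

theorem abs_sub_self_le' (t : ℝ) : |sgi N al be e ς t - t| ≤ (1 - ς) * e := by
  have h1 := H.abs_sub_self_le (sgi N al be e ς t)
  rwa [H.sg_sgi, abs_sub_comm] at h1

omit H in
/-- the slopes -/
theorem slp_o {k : ℕ} (hk : k < N) :
    slp (bp N al be (bl N al be e) (bh N al be e))
      (bp N al be (bl N al be (ς * e)) (bh N al be (ς * e))) (2 * k + 1) = slA N al be e ς := by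
  rw [slp_odd hk]
  unfold slA bl bh
  congr 1 <;> ring

theorem slp_e : ∀ j < 2 * N + 1, j % 2 = 0 →
    slp (bp N al be (bl N al be e) (bh N al be e))
      (bp N al be (bl N al be (ς * e)) (bh N al be (ς * e))) j = ς := by
  have he := H.e0.ne'
  refine piece_cases (P := fun j => j % 2 = 0 →
    slp (bp N al be (bl N al be e) (bh N al be e))
      (bp N al be (bl N al be (ς * e)) (bh N al be (ς * e))) j = ς) H.pos ?_ ?_ ?_ ?_
  · intro _
    rw [slp_first H.pos]
    unfold bl
    rw [Nat.cast_zero, zero_mul, add_zero, add_sub_cancel_left, add_sub_cancel_left,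
      mul_div_cancel_right₀ _ he]
  · intro k _ h; omega
  · intro k hk _
    rw [slp_even hk]
    unfold bl bh
    push_cast
    have e1 : al + ((k : ℝ) + 1) * stp N al be + ς * e - (al + ((k : ℝ) + 1) * stp N al be - ς * e) =
        ς * (2 * e) := by ring
    have e2 : al + ((k : ℝ) + 1) * stp N al be + e - (al + ((k : ℝ) + 1) * stp N al be - e) =
        2 * e := by ring
    rw [e1, e2, mul_div_cancel_right₀ _ (by linarith [H.e0])]
  · intro _
    rw [slp_last H.pos, bh_last H.pos, bh_last H.pos]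
    have e1 : be - (be - ς * e) = ς * e := by ring
    have e2 : be - (be - e) = e := by ring
    rw [e1, e2, mul_div_cancel_right₀ _ he]

omit H in
theorem sum_split (f : ℕ → ℝ) : ∀ N : ℕ, ∑ j ∈ Finset.range (2 * N + 1), f j =
    ∑ k ∈ Finset.range N, f (2 * k + 1) + ∑ k ∈ Finset.range (N + 1), f (2 * k)
  | 0 => by simp
  | N + 1 => by
    have e1 : 2 * (N + 1) + 1 = 2 * N + 1 + 1 + 1 := by ring
    rw [e1, Finset.sum_range_succ, Finset.sum_range_succ, sum_split f N,
      Finset.sum_range_succ (fun k => f (2 * k + 1)) N,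
      Finset.sum_range_succ (fun k => f (2 * k)) (N + 1)]
    have e2 : 2 * N + 1 + 1 = 2 * (N + 1) := by ring
    rw [e2]
    ring

/-- **the difference of two values in the window** -/
theorem sub_eq {s t : ℝ} (hs : s ∈ Icc al be) (ht : t ∈ Icc al be) :
    sg N al be e ς t - sg N al be e ς s =
      slA N al be e ς * ∑ k ∈ Finset.range N, (clam (bl N al be e k) (bh N al be e k) t -
        clam (bl N al be e k) (bh N al be e k) s) +
      ς * ((t - s) - ∑ k ∈ Finset.range N, (clam (bl N al be e k) (bh N al be e k) t -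
        clam (bl N al be e k) (bh N al be e k) s)) := by
  have hx0 : bp N al be (bl N al be e) (bh N al be e) 0 = al := bp_zero
  have hxn : bp N al be (bl N al be e) (bh N al be e) (2 * N + 1) = be := bp_last
  have h1 := pl_sub (2 * N + 1) (bp N al be (bl N al be e) (bh N al be e))
    (bp N al be (bl N al be (ς * e)) (bh N al be (ς * e))) s t
  have h2 := sub_eq_pl H.arr.inc s t
  rw [hx0, hxn] at h1 h2
  rw [min_eq_left (by linarith [ht.1]), min_eq_left (by linarith [hs.1]),
    max_eq_left (by linarith [ht.2]), max_eq_left (by linarith [hs.2])] at h1 h2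
  rw [sum_split] at h1 h2
  have e1 : ∑ k ∈ Finset.range N, slp (bp N al be (bl N al be e) (bh N al be e))
      (bp N al be (bl N al be (ς * e)) (bh N al be (ς * e))) (2 * k + 1) *
      (clam (bp N al be (bl N al be e) (bh N al be e) (2 * k + 1))
        (bp N al be (bl N al be e) (bh N al be e) (2 * k + 1 + 1)) t -
      clam (bp N al be (bl N al be e) (bh N al be e) (2 * k + 1))
        (bp N al be (bl N al be e) (bh N al be e) (2 * k + 1 + 1)) s) =
      slA N al be e ς * ∑ k ∈ Finset.range N, (clam (bl N al be e k) (bh N al be e k) t -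
        clam (bl N al be e k) (bh N al be e k) s) := by
    rw [Finset.mul_sum]
    refine Finset.sum_congr rfl fun k hk => ?_
    rw [Finset.mem_range] at hk
    have e2 : 2 * k + 1 + 1 = 2 * k + 2 := by ring
    rw [slp_o hk, e2, bp_odd hk, bp_even hk]
  have e3 : ∑ k ∈ Finset.range N,
      (clam (bp N al be (bl N al be e) (bh N al be e) (2 * k + 1))
        (bp N al be (bl N al be e) (bh N al be e) (2 * k + 1 + 1)) t -
      clam (bp N al be (bl N al be e) (bh N al be e) (2 * k + 1))
        (bp N al be (bl N al be e) (bh N al be e) (2 * k + 1 + 1)) s) =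
      ∑ k ∈ Finset.range N, (clam (bl N al be e k) (bh N al be e k) t -
        clam (bl N al be e k) (bh N al be e k) s) := by
    refine Finset.sum_congr rfl fun k hk => ?_
    rw [Finset.mem_range] at hk
    have e2 : 2 * k + 1 + 1 = 2 * k + 2 := by ring
    rw [e2, bp_odd hk, bp_even hk]
  have e4 : ∑ k ∈ Finset.range (N + 1), slp (bp N al be (bl N al be e) (bh N al be e))
      (bp N al be (bl N al be (ς * e)) (bh N al be (ς * e))) (2 * k) *
      (clam (bp N al be (bl N al be e) (bh N al be e) (2 * k))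
        (bp N al be (bl N al be e) (bh N al be e) (2 * k + 1)) t -
      clam (bp N al be (bl N al be e) (bh N al be e) (2 * k))
        (bp N al be (bl N al be e) (bh N al be e) (2 * k + 1)) s) =
      ς * ∑ k ∈ Finset.range (N + 1),
      (clam (bp N al be (bl N al be e) (bh N al be e) (2 * k))
        (bp N al be (bl N al be e) (bh N al be e) (2 * k + 1)) t -
      clam (bp N al be (bl N al be e) (bh N al be e) (2 * k))
        (bp N al be (bl N al be e) (bh N al be e) (2 * k + 1)) s) := by
    rw [Finset.mul_sum]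
    refine Finset.sum_congr rfl fun k hk => ?_
    rw [Finset.mem_range] at hk
    rw [H.slp_e _ (by omega) (by omega)]
  rw [e1, e4] at h1
  rw [e3] at h2
  show pl (2 * N + 1) (bp N al be (bl N al be e) (bh N al be e))
    (bp N al be (bl N al be (ς * e)) (bh N al be (ς * e))) t -
    pl (2 * N + 1) (bp N al be (bl N al be e) (bh N al be e))
    (bp N al be (bl N al be (ς * e)) (bh N al be (ς * e))) s = _
  rw [h1]
  linear_combination (-ς) * h2

/-- the sum of the bands below `t` is increasing and `1`-Lipschitz in the window -/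
theorem sum_le {s t : ℝ} (hs : s ∈ Icc al be) (ht : t ∈ Icc al be) (hst : s ≤ t) :
    0 ≤ ∑ k ∈ Finset.range N, (clam (bl N al be e k) (bh N al be e k) t -
        clam (bl N al be e k) (bh N al be e k) s) ∧
      ∑ k ∈ Finset.range N, (clam (bl N al be e k) (bh N al be e k) t -
        clam (bl N al be e k) (bh N al be e k) s) ≤ t - s := by
  have hnn : ∀ k, 0 ≤ clam (bl N al be e k) (bh N al be e k) t -
        clam (bl N al be e k) (bh N al be e k) s := fun k => sub_nonneg.2 (clam_mono _ _ hst)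
  refine ⟨Finset.sum_nonneg fun k _ => hnn k, ?_⟩
  have hx0 : bp N al be (bl N al be e) (bh N al be e) 0 = al := bp_zero
  have hxn : bp N al be (bl N al be e) (bh N al be e) (2 * N + 1) = be := bp_last
  have h2 := sub_eq_pl H.arr.inc s t
  rw [hx0, hxn] at h2
  rw [min_eq_left (by linarith [ht.1]), min_eq_left (by linarith [hs.1]),
    max_eq_left (by linarith [ht.2]), max_eq_left (by linarith [hs.2])] at h2
  rw [sum_split] at h2
  have e3 : ∑ k ∈ Finset.range N,
      (clam (bp N al be (bl N al be e) (bh N al be e) (2 * k + 1))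
        (bp N al be (bl N al be e) (bh N al be e) (2 * k + 1 + 1)) t -
      clam (bp N al be (bl N al be e) (bh N al be e) (2 * k + 1))
        (bp N al be (bl N al be e) (bh N al be e) (2 * k + 1 + 1)) s) =
      ∑ k ∈ Finset.range N, (clam (bl N al be e k) (bh N al be e k) t -
        clam (bl N al be e k) (bh N al be e k) s) := by
    refine Finset.sum_congr rfl fun k hk => ?_
    rw [Finset.mem_range] at hk
    have e2 : 2 * k + 1 + 1 = 2 * k + 2 := by ring
    rw [e2, bp_odd hk, bp_even hk]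
  have e5 : 0 ≤ ∑ k ∈ Finset.range (N + 1),
      (clam (bp N al be (bl N al be e) (bh N al be e) (2 * k))
        (bp N al be (bl N al be e) (bh N al be e) (2 * k + 1)) t -
      clam (bp N al be (bl N al be e) (bh N al be e) (2 * k))
        (bp N al be (bl N al be e) (bh N al be e) (2 * k + 1)) s) :=
    Finset.sum_nonneg fun k _ => sub_nonneg.2 (clam_mono _ _ hst)
  rw [e3] at h2
  linarith

/-- **the estimate in the window, one-sided** -/
theorem sub_le {s t : ℝ} (hs : s ∈ Icc al be) (ht : t ∈ Icc al be) (hst : s ≤ t) :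
    sg N al be e ς t - sg N al be e ς s ≤
      slA N al be e ς * ∑ k ∈ Finset.range N, (clam (bl N al be e k) (bh N al be e k) t -
        clam (bl N al be e k) (bh N al be e k) s) + ς * (t - s) := by
  have h1 := (H.sum_le hs ht hst).1
  rw [H.sub_eq hs ht]
  have := mul_nonneg H.s0.le h1
  linarith

/-- **the estimate in the window** -/
theorem abs_sub_le {s t : ℝ} (hs : s ∈ Icc al be) (ht : t ∈ Icc al be) :
    |sg N al be e ς s - sg N al be e ς t| ≤
      slA N al be e ς * ∑ k ∈ Finset.range N, |clam (bl N al be e k) (bh N al be e k) s -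
        clam (bl N al be e k) (bh N al be e k) t| + ς * |s - t| := by
  wlog hst : s ≤ t generalizing s t
  · have := this ht hs (le_of_not_ge hst)
    rw [abs_sub_comm, abs_sub_comm s t]
    simp only [abs_sub_comm (clam _ _ s)]
    exact this
  have h1 := H.strictMono.monotone hst
  have h2 := H.sub_le hs ht hst
  have h3 : ∑ k ∈ Finset.range N, |clam (bl N al be e k) (bh N al be e k) s -
        clam (bl N al be e k) (bh N al be e k) t| =
      ∑ k ∈ Finset.range N, (clam (bl N al be e k) (bh N al be e k) t -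
        clam (bl N al be e k) (bh N al be e k) s) := by
    refine Finset.sum_congr rfl fun k _ => ?_
    rw [abs_sub_comm, abs_of_nonneg (sub_nonneg.2 (clam_mono _ _ hst))]
  rw [h3, abs_sub_comm, abs_of_nonneg (by linarith), abs_sub_comm s t,
    abs_of_nonneg (by linarith : 0 ≤ t - s)]
  exact h2

theorem slp_all : ∀ j < 2 * N + 1, ς ≤ slp (bp N al be (bl N al be e) (bh N al be e))
      (bp N al be (bl N al be (ς * e)) (bh N al be (ς * e))) j ∧
    slp (bp N al be (bl N al be e) (bh N al be e))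
      (bp N al be (bl N al be (ς * e)) (bh N al be (ς * e))) j ≤ slA N al be e ς := by
  have h1 := one_le_slA H.e0 H.eo H.s1
  have h2 := H.s1
  intro j hj
  rcases Nat.even_or_odd' j with ⟨k, rfl | rfl⟩
  · rw [H.slp_e _ hj (by omega)]
    exact ⟨le_rfl, by linarith⟩
  · rw [slp_o (by omega)]
    exact ⟨by linarith, le_rfl⟩

/-- Lipschitz bound everywhere -/
theorem lip (s t : ℝ) : |sg N al be e ς s - sg N al be e ς t| ≤ slA N al be e ς * |s - t| :=
  abs_pl_sub_le H.arr.inc (fun j hj => (H.arr'.inc j hj).le) (one_le_slA H.e0 H.eo H.s1)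
    (fun j hj => (H.slp_all j hj).2) s t

/-- lower bound everywhere -/
theorem le_sub {s t : ℝ} (hst : s ≤ t) : ς * (t - s) ≤ sg N al be e ς t - sg N al be e ς s :=
  le_pl_sub H.arr.inc H.s1 (fun j hj => (H.slp_all j hj).1) hst

/-- the bands -/
theorem mem_bnd {k : ℕ} (hk : k < N) {t : ℝ} :
    sg N al be e ς t ∈ bnd N al be (ς * e) k ↔ t ∈ bnd N al be e k := by
  have hm := H.strictMono
  have e1 : sg N al be e ς (bl N al be e k) = bl N al be (ς * e) k := by
    have h1 := stair_flat (T := bl N al be (ς * e)) (T' := bh N al be (ς * e)) H.arr hk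
      (t := bl N al be e k) ⟨le_rfl, (H.arr.lt k hk).le⟩
    rw [sub_self, mul_zero, add_zero] at h1
    exact h1
  have e2 : sg N al be e ς (bh N al be e k) = bh N al be (ς * e) k := by
    have h1 := stair_flat (T := bl N al be (ς * e)) (T' := bh N al be (ς * e)) H.arr hk
      (t := bh N al be e k) ⟨(H.arr.lt k hk).le, le_rfl⟩
    have h2 : bh N al be e k - bl N al be e k ≠ 0 := (sub_pos.2 (H.arr.lt k hk)).ne'
    rw [div_mul_cancel₀ _ h2, add_sub_cancel] at h1
    exact h1
  rw [bnd_eq, bnd_eq, mem_Icc, mem_Icc, ← e1, ← e2, hm.le_iff_le, hm.le_iff_le]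

/-- on a band -/
theorem eq_bnd {k : ℕ} (hk : k < N) {t : ℝ} (ht : t ∈ bnd N al be e k) :
    sg N al be e ς t = bl N al be (ς * e) k + slA N al be e ς * (t - bl N al be e k) := by
  have h1 := stair_flat (T := bl N al be (ς * e)) (T' := bh N al be (ς * e)) H.arr hk ht
  have e1 : (bh N al be (ς * e) k - bl N al be (ς * e) k) / (bh N al be e k - bl N al be e k) =
      slA N al be e ς := by
    unfold slA bl bh
    congr 1 <;> ring
  rw [e1] at h1
  exact h1

/-- on a gap -/
theorem eq_gap {k : ℕ} {s t : ℝ} (hs : s ∈ Icc al be) (ht : t ∈ Icc al be)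
    (hs1 : |s - (al + k * stp N al be)| ≤ e) (ht1 : |t - (al + k * stp N al be)| ≤ e) :
    sg N al be e ς t - sg N al be e ς s = ς * (t - s) := by
  have hst : 0 < stp N al be := by linarith [H.e0, H.eo]
  obtain ⟨s1, s2⟩ := abs_le.1 hs1
  obtain ⟨t1, t2⟩ := abs_le.1 ht1
  have h0 : ∀ l < N, clam (bl N al be e l) (bh N al be e l) t -
      clam (bl N al be e l) (bh N al be e l) s = 0 := by
    intro l hl
    have hlt := (H.arr.lt l hl).le
    rcases Nat.lt_or_ge l k with h1 | h1
    · have h2 : ((l : ℝ) + 1) * stp N al be ≤ k * stp N al be :=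
        mul_le_mul_of_nonneg_right (by exact_mod_cast h1) hst.le
      have h3 : bh N al be e l ≤ al + k * stp N al be - e := by unfold bh; linarith
      rw [clam_of_ge hlt (by linarith), clam_of_ge hlt (by linarith), sub_self]
    · have h2 : (k : ℝ) * stp N al be ≤ l * stp N al be :=
        mul_le_mul_of_nonneg_right (by exact_mod_cast h1) hst.le
      have h3 : al + k * stp N al be + e ≤ bl N al be e l := by unfold bl; linarith
      rw [clam_of_le (by linarith), clam_of_le (by linarith), sub_self]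
  rw [H.sub_eq hs ht, Finset.sum_eq_zero fun l hl => h0 l (Finset.mem_range.1 hl), mul_zero,
    zero_add, sub_zero]

end SgOk

end one

/-! ### the box -/

section box

variable {n : ℕ}

/-- the second staircase of a box -/
noncomputable def gB (B : BX n) (e ς : ℝ) : (Fin n → ℝ) → Fin n → ℝ :=
  vc B.j (sg B.N B.al B.be e ς) (bmp B.j B.lo B.hi B.r e)

/-- its inverse -/
noncomputable def gBi (B : BX n) (e ς : ℝ) : (Fin n → ℝ) → Fin n → ℝ :=
  vc B.j (sgi B.N B.al B.be e ς) (bmp B.j B.lo B.hi B.r e)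

variable {B : BX n} {e ς : ℝ}

theorem vdG (H : SgOk B.N B.al B.be e ς) :
    VD B.j (sg B.N B.al B.be e ς) (bmp B.j B.lo B.hi B.r e) :=
  vd_bmp H.e0.le stair_continuous stair_conicalOn H.strictMono.monotone

theorem vdG' (H : SgOk B.N B.al B.be e ς) :
    VD B.j (sgi B.N B.al B.be e ς) (bmp B.j B.lo B.hi B.r e) :=
  vd_bmp H.e0.le stair_continuous stair_conicalOn H.strictMono'.monotone

/-- the homeomorphism of a box -/
noncomputable def hB (H : SgOk B.N B.al B.be e ς) :
    ConHomeo (univ : Set (Fin n → ℝ)) (univ : Set (Fin n → ℝ)) :=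
  (vdG H).homeo (vdG' H) H.strictMono H.strictMono' H.sgi_sg H.sg_sgi isOpen_univ
    (fun _ _ _ _ => mem_univ _)

theorem hB_toFun (H : SgOk B.N B.al B.be e ς) : (hB H).toFun = gB B e ς := rfl

theorem hB_invFun (H : SgOk B.N B.al B.be e ς) : (hB H).invFun = gBi B e ς := rfl

theorem suppG (H : SgOk B.N B.al B.be e ς) : Supp (gB B e ς) B.K :=
  supp_vc H.e0.le B.hr stair_continuous stair_conicalOn H.strictMono.monotone
    (fun _ ht => H.out ht) B.al_lt_be.le

theorem suppG' (H : SgOk B.N B.al B.be e ς) : Supp (gBi B e ς) B.K :=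
  supp_vc H.e0.le B.hr stair_continuous stair_conicalOn H.strictMono'.monotone
    (fun _ ht => H.out' ht) B.al_lt_be.le

theorem gB_full (H : SgOk B.N B.al B.be e ς) {y : Fin n → ℝ} (hy : B.Full y) :
    gB B e ς y = Function.update y B.j (sg B.N B.al B.be e ς (y B.j)) := by
  refine VD.eq_full ?_
  rw [bmp_full B.hr hy]
  refine (H.abs_sub_self_le _).trans ?_
  nlinarith [H.e0, H.s0]

theorem gB_ne {i : Fin n} (hi : i ≠ B.j) (y : Fin n → ℝ) : gB B e ς y i = y i := vc_ne hi y

theorem norm_gB_sub_le (H : SgOk B.N B.al B.be e ς) (y : Fin n → ℝ) : ‖gB B e ς y - y‖ ≤ e :=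
  ((vdG H).norm_sub_le y).trans (bmp_le H.e0.le y)

/-- Lipschitz bound everywhere, the fade-out costs `e d / ρ` -/
theorem abs_gB_sub_le (H : SgOk B.N B.al B.be e ς) {ρ d : ℝ} (hρ : 0 < ρ) (hr : ∀ i, ρ ≤ B.r i)
    {y y' : Fin n → ℝ} (hd : ∀ i, i ≠ B.j → |y i - y' i| ≤ d) (hd0 : 0 ≤ d) :
    |gB B e ς y B.j - gB B e ς y' B.j| ≤ slA B.N B.al B.be e ς * |y B.j - y' B.j| + e * (d / ρ) := by
  refine (VD.abs_vc_sub_vc_le (one_le_slA H.e0 H.eo H.s1) (H.lip _ _)).trans ?_
  exact add_le_add_right (abs_bmp_sub_le H.e0.le hρ hr hd hd0) _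

/-- monotone in the own coordinate -/
theorem gB_mono (H : SgOk B.N B.al B.be e ς) {y : Fin n → ℝ} {t : ℝ} (ht : y B.j ≤ t) :
    gB B e ς y B.j ≤ gB B e ς (Function.update y B.j t) B.j := by
  show vc _ _ _ _ _ ≤ vc _ _ _ _ _
  rw [vc_same, vc_same, (vdG H).mj, Function.update_self]
  exact cl_mono H.strictMono.monotone _ ht

end box

/-! ### the family -/

section fam

variable {n : ℕ} {ι : Type*} {Λ : Set (Fin n → ℝ)}

/-- the numbers of the box `b` -/
theorem sgOk (F : BFam n ι Λ) {ς : ι → ℝ} (h0 : ∀ b, 0 < ς b) (h1 : ∀ b, ς b ≤ 1) (b : ι) :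
    SgOk (F.B b).N (F.B b).al (F.B b).be (F.e b) (ς b) :=
  ⟨(F.B b).lvs.pos, F.he b, F.heo b, h0 b, h1 b⟩

/-- **the second staircase map of the family `F`** -/
structure IsSg (F : BFam n ι Λ) (ς : ι → ℝ) (S : ConHomeo Λ Λ) : Prop where
  s0 : ∀ b, 0 < ς b
  s1 : ∀ b, ς b ≤ 1
  on : ∀ b, ∀ y ∈ (F.B b).K, S.toFun y = gB (F.B b) (F.e b) (ς b) y
  off : ∀ y, (∀ b, y ∉ (F.B b).K) → S.toFun y = y
  on' : ∀ b, ∀ y ∈ (F.B b).K, S.invFun y = gBi (F.B b) (F.e b) (ς b) y
  off' : ∀ y, (∀ b, y ∉ (F.B b).K) → S.invFun y = y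

theorem exists_isSg (hΛ : IsOpen Λ) (F : BFam n ι Λ) {ς : ι → ℝ} (h0 : ∀ b, 0 < ς b)
    (h1 : ∀ b, ς b ≤ 1) : ∃ S, IsSg F ς S := by
  obtain ⟨S, h2, h3, h4, h5⟩ := exists_glue_homeo hΛ (fun b => hB (sgOk F h0 h1 b))
    (fun b => (F.B b).K) (fun b => suppG (sgOk F h0 h1 b)) F.sub F.lf
    (fun b b' hbb x hx hx' => (suppG (sgOk F h0 h1 b)).bdry fun hi =>
      Set.disjoint_left.1 (F.dis b b' hbb) hi hx')
  exact ⟨S, h0, h1, h2, h3, h4, h5⟩

namespace IsSg

variable {F : BFam n ι Λ} {ς : ι → ℝ} {S : ConHomeo Λ Λ} (hS : IsSg F ς S) {b : ι}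
  {y y' : Fin n → ℝ}

include hS

theorem ok (b : ι) : SgOk (F.B b).N (F.B b).al (F.B b).be (F.e b) (ς b) := sgOk F hS.s0 hS.s1 b

theorem full (h : F.FullK b y) : S.toFun y = Function.update y (F.B b).j
    (sg (F.B b).N (F.B b).al (F.B b).be (F.e b) (ς b) (y (F.B b).j)) := by
  rw [hS.on b y h.mem]
  exact gB_full (hS.ok b) h.2

theorem full' (h : F.FullK b y) : S.invFun y = Function.update y (F.B b).j
    (sgi (F.B b).N (F.B b).al (F.B b).be (F.e b) (ς b) (y (F.B b).j)) := by
  have h1 := h.update ((hS.ok b).win' h.1)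
  have h2 := hS.full h1
  rw [Function.update_self, (hS.ok b).sg_sgi, Function.update_idem,
    Function.update_eq_self] at h2
  have h3 := S.left_inv (F.sub b h1.mem)
  rwa [h2] at h3

/-- the full zone is invariant -/
theorem fullK_iff (hy : y ∈ Λ) : F.FullK b (S.toFun y) ↔ F.FullK b y := by
  constructor
  · intro h
    have h1 := hS.full' h
    rw [S.left_inv hy] at h1
    rw [h1]
    exact h.update ((hS.ok b).win' h.1)
  · intro h
    rw [hS.full h]
    exact h.update ((hS.ok b).win h.1)

/-- displacement -/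
theorem norm_sub_le (hy : y ∈ (F.B b).K) : ‖S.toFun y - y‖ ≤ F.e b := by
  rw [hS.on b y hy]
  exact norm_gB_sub_le (hS.ok b) y

/-- only the coordinate `j` of the box moves -/
theorem ne (hy : y ∈ (F.B b).K) {i : Fin n} (hi : i ≠ (F.B b).j) : S.toFun y i = y i := by
  rw [hS.on b y hy]
  exact gB_ne hi y

theorem mem (hy : y ∈ (F.B b).K) : S.toFun y ∈ (F.B b).K := by
  rw [hS.on b y hy]; exact (suppG (hS.ok b)).maps hy

theorem mem' (hy : y ∈ (F.B b).K) : S.invFun y ∈ (F.B b).K := by
  rw [hS.on' b y hy]; exact (suppG' (hS.ok b)).maps hy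

theorem mem_iff (hy : y ∈ Λ) : S.toFun y ∈ (F.B b).K ↔ y ∈ (F.B b).K := by
  refine ⟨fun h => ?_, hS.mem⟩
  have := hS.mem' h
  rwa [S.left_inv hy] at this

/-- the bands in the full zone -/
theorem mem_bnd (h : F.FullK b y) {k : ℕ} (hk : k < (F.B b).N) :
    S.toFun y (F.B b).j ∈ bnd (F.B b).N (F.B b).al (F.B b).be (ς b * F.e b) k ↔
      y (F.B b).j ∈ bnd (F.B b).N (F.B b).al (F.B b).be (F.e b) k := by
  rw [hS.full h, Function.update_self]
  exact (hS.ok b).mem_bnd hk

/-- the position in the band `k`, for the first staircase -/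
noncomputable def _root_.P073.H228.flK (F : BFam n ι Λ) (b : ι) (k : ℕ) (t : ℝ) : ℝ :=
  clam (bl (F.B b).N (F.B b).al (F.B b).be (F.e b) k) (bh (F.B b).N (F.B b).al (F.B b).be (F.e b) k) t

/-- the slope on the bands -/
noncomputable def _root_.P073.H228.slAK (F : BFam n ι Λ) (ς : ι → ℝ) (b : ι) : ℝ :=
  slA (F.B b).N (F.B b).al (F.B b).be (F.e b) (ς b)

/-- **the estimate in the full zone, one-sided** -/
theorem sub_le (h : F.FullK b y) (h' : F.FullK b y') (hle : y (F.B b).j ≤ y' (F.B b).j) :
    S.toFun y' (F.B b).j - S.toFun y (F.B b).j ≤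
      slAK F ς b * ∑ k ∈ Finset.range (F.B b).N,
        (flK F b k (y' (F.B b).j) - flK F b k (y (F.B b).j)) +
      ς b * (y' (F.B b).j - y (F.B b).j) := by
  rw [hS.full h, hS.full h', Function.update_self, Function.update_self]
  exact (hS.ok b).sub_le h.1 h'.1 hle

theorem sub_nonneg (h : F.FullK b y) (h' : F.FullK b y') (hle : y (F.B b).j ≤ y' (F.B b).j) :
    0 ≤ S.toFun y' (F.B b).j - S.toFun y (F.B b).j := by
  rw [hS.full h, hS.full h', Function.update_self, Function.update_self]
  exact _root_.sub_nonneg.2 ((hS.ok b).strictMono.monotone hle)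

/-- **the estimate in the full zone** -/
theorem abs_sub_le (h : F.FullK b y) (h' : F.FullK b y') :
    |S.toFun y (F.B b).j - S.toFun y' (F.B b).j| ≤
      slAK F ς b * ∑ k ∈ Finset.range (F.B b).N,
        |flK F b k (y (F.B b).j) - flK F b k (y' (F.B b).j)| +
      ς b * |y (F.B b).j - y' (F.B b).j| := by
  rw [hS.full h, hS.full h', Function.update_self, Function.update_self]
  exact (hS.ok b).abs_sub_le h.1 h'.1

/-- Lipschitz bound on the support -/
theorem lip (h : y ∈ (F.B b).K) (h' : y' ∈ (F.B b).K) {ρ d : ℝ} (hρ : 0 < ρ)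
    (hr : ∀ i, ρ ≤ (F.B b).r i) (hd : ∀ i, i ≠ (F.B b).j → |y i - y' i| ≤ d) (hd0 : 0 ≤ d) :
    |S.toFun y (F.B b).j - S.toFun y' (F.B b).j| ≤
      slAK F ς b * |y (F.B b).j - y' (F.B b).j| + F.e b * (d / ρ) := by
  rw [hS.on b y h, hS.on b y' h']
  exact abs_gB_sub_le (hS.ok b) hρ hr hd hd0

/-- the composition with the first staircase on a flat of the first staircase -/
theorem comp_flat {T : ConHomeo Λ Λ} (hT : F.IsS T) (h : F.FullK b y) {k : ℕ}
    (hk : k < (F.B b).N) :
    S.toFun (T.toFun y) (F.B b).j ∈ bnd (F.B b).N (F.B b).al (F.B b).be (ς b * F.e b) k ↔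
      |y (F.B b).j - (F.B b).a k| ≤ (F.B b).c := by
  have hy : y ∈ Λ := F.sub b h.mem
  rw [hS.mem_bnd ((hT.fullK_iff hy).2 h) hk, hT.full h, Function.update_self]
  exact sm_bnd (F.B b).lvs (F.he b) (F.heo b) hk

end IsSg

end fam

end P073.H228
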