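import Vale.Agent.P073.H228.EdgeP1

/-!
# P073, block H228, [EDGE-P], part 2: the second staircases of ROUND P, all zones

`lip_w`: in the box of the hook, through the windows.  `map_sub_le`, `map_sub_le_w`: everywhere near
the plate `s` (fade zone included).
-/

open Set Metric Topology Filter
open scoped ENNReal

set_option linter.unusedSectionVars false

namespace P073.H880.RP.Sg3

open _root_.P073 _root_.P073.Net _root_.P073.PA691 _root_.P073.H236 _root_.P073.H579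
  _root_.P073.H345 _root_.P073.H880 _root_.P073.H142 _root_.P073.H228 _root_.P073.H228.EP
open Vale.Agent.P073.St (V)
open Vale.Agent.P073.H471 Vale.Agent.P073.H267 Vale.Agent.P073.H267.Geo
open P073.H919 (PI bc bw pcen pwid)
open Vale.Agent.P073.H190.Tvp (wP)
open Vale.Agent.P073.H190.Tvp.PSS (Only)

variable {Ω Λ : Set V} {v : V} {K : BoxCx Λ v} {S : Rad K} {W : Wid K S} {B : Boxes W}
  {G : Geo B} {L : PLev G} {S₀ : Set K.S} {F : Bool → BFam 3 S₀ Λ} {ς : Bool → S₀ → ℝ}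
  {T : Bool → ConHomeo Λ Λ} {s : S₀} {β : Bool} {y y' : V}

theorem al_eq (P : Sg3 L S₀ F ς T) (β : Bool) (s : S₀) :
    ((F β).B s).al = K.slo s.1 (tg s.1 β) + G.a s.1 := (P.B β s).al

theorem be_eq (P : Sg3 L S₀ F ς T) (β : Bool) (s : S₀) :
    ((F β).B s).be = K.shi s.1 (tg s.1 β) - G.a s.1 := (P.B β s).be

theorem win_le (P : Sg3 L S₀ F ς T) (β : Bool) (s : S₀) :
    K.slo s.1 (tg s.1 β) + G.a s.1 ≤ K.shi s.1 (tg s.1 β) - G.a s.1 := by
  have := ((F β).B s).al_lt_be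
  rw [P.al_eq, P.be_eq] at this
  exact this.le

theorem wP_mem (P : Sg3 L S₀ F ς T) (β : Bool) (s : S₀) (t : ℝ) :
    wP G s.1 β t ∈ pwin G s.1 (tg s.1 β) := clamp_mem (P.win_le β s)

theorem wP_eq (P : Sg3 L S₀ F ς T) {t : ℝ} (ht : t ∈ pwin G s.1 (tg s.1 β)) :
    wP G s.1 β t = t := clamp_eq ht

/-- a map of one variable which preserves the window, and its clip, commute with the clamp -/
theorem clamp_cl {k : ℝ → ℝ} {al be m : ℝ} (hab : al ≤ be) (hin : ∀ t ∈ Icc al be, k t ∈ Icc al be)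
    (hout : ∀ t, t ≤ al ∨ be ≤ t → k t = t) (hm : 0 ≤ m) (t : ℝ) :
    Vale.Agent.P073.H581.clamp al be (H236.cl k m t) =
      H236.cl k m (Vale.Agent.P073.H581.clamp al be t) := by
  by_cases ht : t ∈ Icc al be
  · rw [clamp_eq ht]
    refine clamp_eq ?_
    have h1 := cl_mem_uIcc (k := k) (t := t) hm
    exact (uIcc_subset_Icc ht (hin t ht)) h1
  · have h1 : t ≤ al ∨ be ≤ t := by
      by_contra hcon
      push Not at hcon
      exact ht ⟨hcon.1.le, hcon.2.le⟩
    rw [cl_fix hm (hout t h1)]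
    rcases h1 with h1 | h1
    · rw [clamp_le hab h1, cl_fix hm (hout al (Or.inl le_rfl))]
    · rw [clamp_ge hab h1, cl_fix hm (hout be (Or.inr le_rfl))]

theorem wP_fn (P : Sg3 L S₀ F ς T) (t : ℝ) :
    wP G s.1 β (fn F ς β s t) = fn F ς β s (wP G s.1 β t) := by
  have hok := (P.isS β).ok s
  by_cases ht : t ∈ pwin G s.1 (tg s.1 β)
  · rw [P.wP_eq ht, P.wP_eq (P.fn_win ht)]
  · have hab := P.win_le β s
    rw [P.fn_out ht]
    have h1 : t ≤ K.slo s.1 (tg s.1 β) + G.a s.1 ∨ K.shi s.1 (tg s.1 β) - G.a s.1 ≤ t := by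
      by_contra hcon
      push Not at hcon
      exact ht ⟨hcon.1.le, hcon.2.le⟩
    unfold wP fn
    rcases h1 with h1 | h1
    · rw [clamp_le hab h1, hok.out (Or.inl (by rw [P.al_eq]))]
    · rw [clamp_ge hab h1, hok.out (Or.inr (by rw [P.be_eq]))]

/-- the bands of the hook are in the windows -/
theorem band_win (P : Sg3 L S₀ F ς T) {e : Bool → ℝ} (he0 : ∀ β, 0 ≤ e β) {r : ℝ} (hr1 : r ≤ 1)
    (hw : ∀ β, 0 < bw (L.N s.1 β) (K.slo s.1 (tg s.1 β) + G.a s.1)
      (K.shi s.1 (tg s.1 β) - G.a s.1) (e β)) (i : PI L s.1) :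
    K.slo s.1 (tg s.1 i.1) + G.a s.1 ≤ pcen L s.1 i - r * pwid L e s.1 i ∧
      pcen L s.1 i + r * pwid L e s.1 i ≤ K.shi s.1 (tg s.1 i.1) - G.a s.1 := by
  obtain ⟨β, k⟩ := i
  have hN : 0 < L.N s.1 β := (Nat.zero_le _).trans_lt k.2
  have h0 := he0 β
  have h1 : r * pwid L e s.1 ⟨β, k⟩ ≤ pwid L e s.1 ⟨β, k⟩ :=
    mul_le_of_le_one_left (hw β).le hr1
  have h2 : pwid L e s.1 ⟨β, k⟩ = stp (L.N s.1 β) (K.slo s.1 (tg s.1 β) + G.a s.1)
      (K.shi s.1 (tg s.1 β) - G.a s.1) / 2 - e β := rfl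
  have h3 : pcen L s.1 ⟨β, k⟩ = K.slo s.1 (tg s.1 β) + G.a s.1 + (k + 1 / 2) *
      stp (L.N s.1 β) (K.slo s.1 (tg s.1 β) + G.a s.1) (K.shi s.1 (tg s.1 β) - G.a s.1) := rfl
  have h4 := _root_.P073.H228.mul_stp (al := K.slo s.1 (tg s.1 β) + G.a s.1)
    (be := K.shi s.1 (tg s.1 β) - G.a s.1) hN
  set st := stp (L.N s.1 β) (K.slo s.1 (tg s.1 β) + G.a s.1) (K.shi s.1 (tg s.1 β) - G.a s.1)
    with hst
  have hw2 := hw β
  have hw3 : bw (L.N s.1 β) (K.slo s.1 (tg s.1 β) + G.a s.1) (K.shi s.1 (tg s.1 β) - G.a s.1) (e β) =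
    st / 2 - e β := rfl
  have hst0 : 0 < st := by rw [hw3] at hw2; linarith
  have hk0 : (0:ℝ) ≤ (k : ℕ) := Nat.cast_nonneg _
  have hk1 : ((k : ℕ) : ℝ) + 1 ≤ L.N s.1 β := by exact_mod_cast k.2
  have h5 : ((k : ℕ) : ℝ) * st + st ≤ (L.N s.1 β : ℝ) * st := by nlinarith
  have h6 : 0 ≤ ((k : ℕ) : ℝ) * st := by positivity
  rw [h2] at h1
  show _ ≤ pcen L s.1 ⟨β, k⟩ - r * pwid L e s.1 ⟨β, k⟩ ∧ pcen L s.1 ⟨β, k⟩ +
    r * pwid L e s.1 ⟨β, k⟩ ≤ _
  rw [h2, h3]
  constructor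
  · show K.slo s.1 (tg s.1 β) + G.a s.1 ≤ _
    nlinarith
  · show _ ≤ K.shi s.1 (tg s.1 β) - G.a s.1
    nlinarith

/-- **the local estimate in the plate, through the windows** -/
theorem lip_w (P : Sg3 L S₀ F ς T) {g : V → V} {x x' : V} (hx : g x ∈ G.PB (7 / 8) s.1)
    (hx' : g x' ∈ G.PB (7 / 8) s.1) {e : Bool → ℝ} (he0 : ∀ β, 0 ≤ e β) {r : ℝ} (hr : 0 ≤ r)
    (hr1 : r ≤ 1)
    (hw : ∀ β, 0 < bw (L.N s.1 β) (K.slo s.1 (tg s.1 β) + G.a s.1)
      (K.shi s.1 (tg s.1 β) - G.a s.1) (e β))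
    (he : ∀ β, (F β).e s = stp (L.N s.1 β) (K.slo s.1 (tg s.1 β) + G.a s.1)
      (K.shi s.1 (tg s.1 β) - G.a s.1) / 2 - r * bw (L.N s.1 β)
        (K.slo s.1 (tg s.1 β) + G.a s.1) (K.shi s.1 (tg s.1 β) - G.a s.1) (e β))
    {A : ℝ} (hA : ∀ β, slAK (F β) (ς β) s * bw (L.N s.1 β) (K.slo s.1 (tg s.1 β) + G.a s.1)
      (K.shi s.1 (tg s.1 β) - G.a s.1) (e β) ≤ A) (β : Bool) :
    |wP G s.1 β (PS.map T (g x') (tg s.1 β)) - wP G s.1 β (PS.map T (g x) (tg s.1 β))| ≤
      A * dsum (wlev (ι := PI L s.1) Sigma.fst (tg s.1) r (pcen L s.1) (pwid L e s.1) g) x x' +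
        ς β s * |wP G s.1 β (g x' (tg s.1 β)) - wP G s.1 β (g x (tg s.1 β))| := by
  have hp := G.p_pos s.1
  have hpa := G.p_a s.1
  set g' : V → V := fun x => Function.update (g x) (tg s.1 β) (wP G s.1 β (g x (tg s.1 β)))
    with hg'
  have hval : ∀ z, g' z (tg s.1 β) = wP G s.1 β (g z (tg s.1 β)) := fun z => by
    simp only [hg', Function.update_self]
  have hmem : ∀ {z : V}, g z ∈ G.PB (7 / 8) s.1 → g' z ∈ G.PB (7 / 8) s.1 := by
    intro z hz
    obtain ⟨h1, h2⟩ := Geo.mem_PB.1 hz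
    refine Geo.mem_PB.2 ⟨fun k hk => ?_, ?_⟩
    · by_cases hkβ : k = tg s.1 β
      · subst hkβ
        rw [hval]
        obtain ⟨a1, a2⟩ := P.wP_mem β s (g z (tg s.1 β))
        constructor <;> linarith
      · simp only [hg', Function.update_of_ne hkβ]
        exact h1 k hk
    · simp only [hg', Function.update_of_ne (tg_ne s.1 β).symm]
      exact h2
  have hmap : ∀ {z : V}, g z ∈ G.PB (7 / 8) s.1 → PS.map T (g' z) (tg s.1 β) =
      wP G s.1 β (PS.map T (g z) (tg s.1 β)) := by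
    intro z hz
    rw [P.apply (hmem hz), P.apply hz, hval, P.wP_fn]
  have h1 := P.lip (g := g') (hmem hx) (hmem hx') hr hw he hA (j := tg s.1 β) (tg_ne s.1 β)
    (by rw [hval]; exact P.wP_mem β s _) (by rw [hval]; exact P.wP_mem β s _)
  rw [hmap hx, hmap hx', hval, hval, bt_tg] at h1
  refine h1.trans (add_le_add (le_of_eq ?_) le_rfl)
  congr 1
  unfold dsum
  have key : ∀ (i : PI L s.1) (z : V), wlev (ι := PI L s.1) Sigma.fst (tg s.1) r (pcen L s.1)
      (pwid L e s.1) g' i z = wlev (ι := PI L s.1) Sigma.fst (tg s.1) r (pcen L s.1)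
      (pwid L e s.1) g i z := by
    intro i z
    unfold wlev cl
    by_cases hi : i.1 = β
    · have hi' : tg s.1 i.1 = tg s.1 β := by rw [hi]
      have h2 := P.band_win he0 hr1 hw i
      rw [hi'] at h2 ⊢
      rw [hval]
      exact clp_clamp (hw i.1) hr h2.1 h2.2
    · have hi' : tg s.1 i.1 ≠ tg s.1 β := fun h => by
        rcases Bool.eq_false_or_eq_true i.1 with h1 | h1 <;>
          rcases Bool.eq_false_or_eq_true β with h2 | h2
        · exact hi (h1.trans h2.symm)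
        · rw [h1, h2] at h
          exact tg_ne_not s.1 false h.symm
        · rw [h1, h2] at h
          exact tg_ne_not s.1 false h
        · exact hi (h1.trans h2.symm)
      simp only [hg', Function.update_of_ne hi']
  refine Finset.sum_congr rfl fun i _ => ?_
  rw [key, key]

/-! ### near the plate, also in the fade zone -/

theorem one_eq (P : Sg3 L S₀ F ς T) (hy : Only G S₀ s y) (β : Bool) :
    (T β).toFun y = gB ((F β).B s) ((F β).e s) (ς β s) y := by
  by_cases h : y ∈ ((F β).B s).K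
  · exact (P.isS β).on s y h
  · have h1 : ∀ s', y ∉ ((F β).B s').K := by
      intro s' hs'
      by_cases hss : s' = s
      · rw [hss] at hs'; exact h hs'
      · exact hy s' hss (P.mem_K hs')
    rw [(P.isS β).off y h1, (suppG ((P.isS β).ok s)).id y h]

theorem only_T (P : Sg3 L S₀ F ς T) (hy : Only G S₀ s y) (β : Bool) :
    Only G S₀ s ((T β).toFun y) := by
  intro s' hss hs'
  by_cases h : ∃ s'', y ∈ ((F β).B s'').K
  · obtain ⟨s'', h1⟩ := h
    have h5 : s' = s'' := Subtype.ext (PK_unique hs' (P.mem_K ((P.isS β).mem h1)))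
    rw [← h5] at h1
    exact hy s' hss (P.mem_K h1)
  · push Not at h
    rw [(P.isS β).off y h] at hs'
    exact hy s' hss hs'

theorem r_le (P : Sg3 L S₀ F ς T) (β : Bool) (s : S₀) (i : Fin 3) :
    B.τ s.1 / 4 ≤ ((F β).B s).r i := by
  have hτ := B.τ_pos s.1
  have hp := G.τ_p s.1
  refine le_trans ?_ ((P.B β s).r2 i)
  show _ ≤ (if i = K.nrm s.1 then B.τ s.1 / 2 else G.p s.1 / 8) / 2
  split_ifs
  · linarith
  · linarith

theorem j_eq (P : Sg3 L S₀ F ς T) (β : Bool) (s : S₀) : ((F β).B s).j = tg s.1 β := (P.B β s).j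

theorem one_ne (P : Sg3 L S₀ F ς T) (hy : Only G S₀ s y) {i : Fin 3} (hi : i ≠ tg s.1 β) :
    (T β).toFun y i = y i := by
  rw [P.one_eq hy]
  exact gB_ne (by rw [P.j_eq]; exact hi) y

variable {m q : ℝ}

/-- one family -/
theorem one_sub_le (P : Sg3 L S₀ F ς T) (hy : Only G S₀ s y) (hy' : Only G S₀ s y')
    (hm : slAK (F β) (ς β) s ≤ m) (hq : 4 * (F β).e s / B.τ s.1 ≤ q) :
    |(T β).toFun y (tg s.1 β) - (T β).toFun y' (tg s.1 β)| ≤
      m * |y (tg s.1 β) - y' (tg s.1 β)| + q * ‖y - y'‖ := by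
  have hτ := B.τ_pos s.1
  rw [P.one_eq hy, P.one_eq hy', ← P.j_eq β s]
  refine (abs_gB_sub_le ((P.isS β).ok s) (ρ := B.τ s.1 / 4) (by linarith) (P.r_le β s)
    (d := ‖y - y'‖) (fun i _ => ?_) (norm_nonneg _)).trans (add_le_add ?_ ?_)
  · rw [← Pi.sub_apply, ← Real.norm_eq_abs]
    exact norm_le_pi_norm _ i
  · exact mul_le_mul_of_nonneg_right hm (abs_nonneg _)
  · refine le_trans (le_of_eq ?_) (mul_le_mul_of_nonneg_right hq (norm_nonneg _))
    field_simp

/-- one family, through the window -/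
theorem one_sub_le_w (P : Sg3 L S₀ F ς T) (hy : Only G S₀ s y) (hy' : Only G S₀ s y')
    (hm : slAK (F β) (ς β) s ≤ m) (hq : 4 * (F β).e s / B.τ s.1 ≤ q) :
    |wP G s.1 β ((T β).toFun y (tg s.1 β)) - wP G s.1 β ((T β).toFun y' (tg s.1 β))| ≤
      m * |wP G s.1 β (y (tg s.1 β)) - wP G s.1 β (y' (tg s.1 β))| + q * ‖y - y'‖ := by
  have hτ := B.τ_pos s.1
  have hok := (P.isS β).ok s
  have hj := P.j_eq β s
  have ea : ((F β).B s).al = K.slo s.1 ((F β).B s).j + G.a s.1 := by rw [P.al_eq, hj]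
  have eb : ((F β).B s).be = K.shi s.1 ((F β).B s).j - G.a s.1 := by rw [P.be_eq, hj]
  set u : V → V := fun y => Function.update y ((F β).B s).j (wP G s.1 β (y ((F β).B s).j)) with hu
  have key : ∀ {z : V}, Only G S₀ s z → wP G s.1 β ((T β).toFun z (tg s.1 β)) =
      gB ((F β).B s) ((F β).e s) (ς β s) (u z) ((F β).B s).j := by
    intro z hz
    rw [P.one_eq hz, ← hj]
    unfold gB
    rw [vc_same, vc_same]
    simp only [hu, (vdG hok).mj, Function.update_self]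
    unfold wP
    rw [← hj, clamp_cl]
    · have := P.win_le β s
      rwa [← hj] at this
    · intro t ht
      rw [← ea, ← eb] at ht ⊢
      exact hok.win ht
    · intro t ht
      rw [← ea, ← eb] at ht
      exact hok.out ht
    · exact (vdG hok).m0 _
  rw [key hy, key hy']
  refine (abs_gB_sub_le hok (ρ := B.τ s.1 / 4) (by linarith) (P.r_le β s)
    (d := ‖y - y'‖) (fun i hi => ?_) (norm_nonneg _)).trans (add_le_add ?_ ?_)
  · simp only [hu, Function.update_of_ne hi]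
    rw [← Pi.sub_apply, ← Real.norm_eq_abs]
    exact norm_le_pi_norm _ i
  · simp only [hu, Function.update_self, hj]
    exact mul_le_mul_of_nonneg_right hm (abs_nonneg _)
  · refine le_trans (le_of_eq ?_) (mul_le_mul_of_nonneg_right hq (norm_nonneg _))
    field_simp

/-- all coordinates after the first family -/
theorem one_norm_le (P : Sg3 L S₀ F ς T) (hy : Only G S₀ s y) (hy' : Only G S₀ s y')
    (hm1 : 1 ≤ m) (hq0 : 0 ≤ q) (hm : slAK (F β) (ς β) s ≤ m)
    (hq : 4 * (F β).e s / B.τ s.1 ≤ q) :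
    ‖(T β).toFun y - (T β).toFun y'‖ ≤ (m + q) * ‖y - y'‖ := by
  have h0 := norm_nonneg (y - y')
  rw [pi_norm_le_iff_of_nonneg (by positivity)]
  intro i
  have hi : |y i - y' i| ≤ ‖y - y'‖ := by
    rw [← Pi.sub_apply, ← Real.norm_eq_abs]
    exact norm_le_pi_norm _ i
  rw [Pi.sub_apply, Real.norm_eq_abs]
  by_cases h : i = tg s.1 β
  · subst h
    refine (P.one_sub_le hy hy' hm hq).trans ?_
    rw [add_mul]
    exact add_le_add (mul_le_mul_of_nonneg_left hi (by linarith)) le_rfl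
  · rw [P.one_ne hy h, P.one_ne hy' h]
    nlinarith

/-- **near the plate**, all coordinates -/
theorem map_sub_le (P : Sg3 L S₀ F ς T) (hy : Only G S₀ s y) (hy' : Only G S₀ s y')
    (hm1 : 1 ≤ m) (hq0 : 0 ≤ q) (hm : ∀ β, slAK (F β) (ς β) s ≤ m)
    (hq : ∀ β, 4 * (F β).e s / B.τ s.1 ≤ q) (l : Fin 3) :
    |PS.map T y l - PS.map T y' l| ≤ m * |y l - y' l| + q * (m + q) * ‖y - y'‖ := by
  have h0 := norm_nonneg (y - y')
  have o1 := P.only_T hy false
  have o2 := P.only_T hy' false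
  have hn := P.one_norm_le (β := false) hy hy' hm1 hq0 (hm false) (hq false)
  unfold PS.map
  by_cases hl : l = tg s.1 true
  · subst hl
    have hne : tg s.1 true ≠ tg s.1 false := (tg_ne_not s.1 false).symm
    refine (P.one_sub_le o1 o2 (hm true) (hq true)).trans ?_
    rw [P.one_ne hy hne, P.one_ne hy' hne, mul_assoc]
    exact add_le_add le_rfl (mul_le_mul_of_nonneg_left hn hq0)
  · rw [P.one_ne o1 hl, P.one_ne o2 hl]
    by_cases hl' : l = tg s.1 false
    · subst hl'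
      refine (P.one_sub_le hy hy' (hm false) (hq false)).trans (add_le_add le_rfl ?_)
      refine mul_le_mul_of_nonneg_right ?_ h0
      nlinarith
    · rw [P.one_ne hy hl', P.one_ne hy' hl']
      have h1 := abs_nonneg (y l - y' l)
      have h2 : 0 ≤ q * (m + q) * ‖y - y'‖ := by positivity
      nlinarith

/-- **near the plate**, through the windows -/
theorem map_sub_le_w (P : Sg3 L S₀ F ς T) (hy : Only G S₀ s y) (hy' : Only G S₀ s y')
    (hm1 : 1 ≤ m) (hq0 : 0 ≤ q) (hm : ∀ β, slAK (F β) (ς β) s ≤ m)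
    (hq : ∀ β, 4 * (F β).e s / B.τ s.1 ≤ q) (β : Bool) :
    |wP G s.1 β (PS.map T y (tg s.1 β)) - wP G s.1 β (PS.map T y' (tg s.1 β))| ≤
      m * |wP G s.1 β (y (tg s.1 β)) - wP G s.1 β (y' (tg s.1 β))| +
        q * (m + q) * ‖y - y'‖ := by
  have h0 := norm_nonneg (y - y')
  have o1 := P.only_T hy false
  have o2 := P.only_T hy' false
  have hn := P.one_norm_le (β := false) hy hy' hm1 hq0 (hm false) (hq false)
  unfold PS.map
  cases β
  · have hne : tg s.1 false ≠ tg s.1 true := tg_ne_not s.1 false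
    rw [P.one_ne o1 hne, P.one_ne o2 hne]
    refine (P.one_sub_le_w hy hy' (hm false) (hq false)).trans (add_le_add le_rfl ?_)
    refine mul_le_mul_of_nonneg_right ?_ h0
    nlinarith
  · have hne : tg s.1 true ≠ tg s.1 false := (tg_ne_not s.1 false).symm
    refine (P.one_sub_le_w o1 o2 (hm true) (hq true)).trans ?_
    rw [P.one_ne hy hne, P.one_ne hy' hne, mul_assoc]
    exact add_le_add le_rfl (mul_le_mul_of_nonneg_left hn hq0)

/-- off the plates -/
theorem map_off (P : Sg3 L S₀ F ς T) (hy : ∀ s : S₀, y ∉ PK G s.1) : PS.map T y = y := by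
  have h1 : ∀ β s, y ∉ ((F β).B s).K := fun β s h => hy s (P.mem_K h)
  unfold PS.map
  rw [(P.isS false).off y (h1 false), (P.isS true).off y (h1 true)]

end P073.H880.RP.Sg3
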