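import Vale.Agent.P073.H228.CombA
import Vale.Agent.P073.H429.CombB

/-!
# P073, H228 + H429, SHARP2: **(X5)** `SpecComb`
-/

open Set Metric Topology

namespace P073.H237

/-- **(X5)** -/
theorem specComb : SpecComb := by
  refine ⟨26, by norm_num, fun X m c ρ om hm hm2 hc hc2 hρ hMρ hom homρ H => ?_⟩
  have h3 : ∀ d, |om * (X.th d).card - 1| ≤ 5 * ρ := fun d => H.card_th hm hm2 hc hρ hom d
  refine ⟨fun i hi h1 h2 => H.shape hm hm2 hc hρ (by linarith) hom hi h1 h2, fun s hs =>
    (H.card_not_thr hm hm2 hc hρ hom hs).trans (by linarith), fun d =>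
    (h3 d).trans (by linarith), fun i hi ti => H429.comb4 H hm hm2 hc hi ti,
    fun i hi j hj ti tj ht hij => H429.comb5 H hi hj ti tj ht hij, fun i hi s ti => ?_⟩
  have := H429.comb6 H hm hm2 hc hρ hom homρ (M₀ := 5) (by norm_num) (by linarith) h3 hi s ti
  refine this.trans ?_
  linarith

end P073.H237
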