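import Vale.Agent.P073.H267.GeoPt
import Vale.Agent.P073.H238.P12A
import Vale.Agent.P073.H142.PCone2
import Vale.Agent.P073.H233.Tail3C

/-!
# P073, block H228, [EDGE-P], part 4: the zones of the collapse near a plate and near the boxes of
round T
-/

open Set Metric Topology Filter
open scoped ENNReal

set_option linter.unusedSectionVars false

namespace P073.H228.EP

open P073 P073.Net P073.PA691 P073.H142 P073.H345
open Vale.Agent.P073.St (V)
open Vale.Agent.P073.H471 Vale.Agent.P073.H267 Vale.Agent.P073.H267.Geo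
open Vale.Agent.P073.H233 (PSet)

variable {Λ : Set V} {v : V} {K : BoxCx Λ v} {S : Rad K} {W : Wid K S} {B : Boxes W} {G : Geo B}
  {s : K.S} {y : V}

/-- **the points of the support of ROUND P at the square `s`**: far from the sides, or inside the
zone of an edge and far from its ends, or inside the zone of a vertex -/
theorem cover_PK (G : Geo B) (hy : y ∈ PK G s) :
    (∀ k, k ≠ K.nrm s → K.slo s k + 2 * B.u s ≤ y k ∧ y k ≤ K.shi s k - 2 * B.u s) ∨
    (∃ e, K.edge e ⊆ K.sq s ∧ y ∈ interior (B.E e) ∧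
      K.slo s (K.dir e) + 32 * G.a s ≤ y (K.dir e) ∧
      y (K.dir e) ≤ K.shi s (K.dir e) - 32 * G.a s) ∨
    ∃ i, K.w i ∈ K.sq s ∧ y ∈ interior (Zv W i) := by
  have hτ := B.τ_pos s
  set y' : V := Function.update y (K.nrm s) (K.slo s (K.nrm s)) with hy'
  have e0 : y' (K.nrm s) = K.slo s (K.nrm s) := by rw [hy', Function.update_self]
  have e1 : ∀ k, k ≠ K.nrm s → y' k = y k := fun k hk => by rw [hy', Function.update_of_ne hk]
  have hPB : y' ∈ G.PB (3 / 4) s := by
    refine Geo.mem_PB.2 ⟨fun k hk => ?_, ?_⟩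
    · rw [e1 k hk]; exact hy.1 k hk
    · rw [e0, sub_self, abs_zero]; exact hτ.le
  have hd : dist y y' ≤ 3 / 2 * B.τ s := by
    rw [dist_pi_le_iff (by linarith)]
    intro k
    by_cases hk : k = K.nrm s
    · subst hk
      rw [e0, Real.dist_eq]
      exact hy.2
    · rw [e1 k hk, dist_self]; linarith
  have hball : ∀ e, K.edge e ⊆ K.sq s → ∀ X : Set V, closedBall y' (B.T e / 4) ⊆ X →
      y ∈ interior X := by
    intro e he X hX
    have h1 := B.τ_le_u s
    have h2 := G.u_T s e he
    have h3 := B.T_pos e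
    refine mem_interior.2 ⟨ball y' (B.T e / 4), ball_subset_closedBall.trans hX, isOpen_ball, ?_⟩
    rw [mem_ball]
    linarith
  rcases G.cover_pt (by norm_num) hPB (by rw [e0, sub_self, abs_zero]; exact hτ) with
    ⟨-, -, h1⟩ | ⟨e, he, -, h1, h2, h3⟩ | ⟨e, he, h1⟩
  · left
    intro k hk
    rw [← e1 k hk]
    exact h1 k hk
  · right; left
    refine ⟨e, he, hball e he _ h1, ?_⟩
    rw [← e1 _ (nrm_ne_dir he).symm]
    exact ⟨h2, h3⟩
  · right; right
    rcases h1 with ⟨-, h1⟩ | ⟨-, h1⟩
    · exact ⟨K.a e, he (TM.wa_mem K e), hball e he _ h1⟩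
    · exact ⟨K.b e, he (TM.wb_mem K e), hball e he _ h1⟩

/-- the square of a plate which meets the box of an edge -/
theorem sq_of_PK_E {e : K.G} (hs : y ∈ PK G s) (he : y ∈ B.E e) : K.edge e ⊆ K.sq s := by
  have hZe := B.E_subset e he
  exact edge_subset_sq (PK_sub_ss s hs) hZe.1 (Ze_nJ hZe)

/-- the coordinate along the edge is inside the window of the levels -/
theorem win_of_PK_E {e : K.G} (hs : y ∈ PK G s) (he : y ∈ B.E e) :
    K.slo s (K.dir e) + G.a s < y (K.dir e) ∧ y (K.dir e) < K.shi s (K.dir e) - G.a s := by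
  have hes := sq_of_PK_E hs he
  have h1 := he.1
  have h2 := (hes (TM.wa_mem K e)).1 (K.dir e)
  have h3 := (hes (TM.wb_mem K e)).2 (K.dir e)
  have h4 := B.T_le_a e
  have h5 := B.T_le_b e
  have h6 := G.a_u s
  have h7 := G.u_T s e hes
  have h8 := B.T_pos e
  have h9 := B.u_pos s
  have h10 := G.a_pos s
  constructor <;> linarith [h1.1, h1.2]

/-- a point of the plate with a coordinate outside of the window is in the zone of an edge of
another direction or in the zone of a vertex -/
theorem dead_of_PK (hs : y ∈ PK G s) {j : Fin 3} (hj : j ≠ K.nrm s)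
    (hw : ¬ (K.slo s j + G.a s < y j ∧ y j < K.shi s j - G.a s)) :
    (∃ e, K.edge e ⊆ K.sq s ∧ K.dir e ≠ j ∧ y ∈ interior (B.E e)) ∨
      ∃ i, K.w i ∈ K.sq s ∧ y ∈ interior (Zv W i) := by
  have h6 := G.a_u s
  have h7 := G.a_pos s
  rcases cover_PK G hs with h1 | ⟨e, he, h1, h2⟩ | h1
  · exact absurd ⟨by linarith [(h1 j hj).1], by linarith [(h1 j hj).2]⟩ hw
  · refine Or.inl ⟨e, he, fun h => hw ?_, h1⟩
    rw [h] at h2
    constructor <;> linarith [h2.1, h2.2]
  · exact Or.inr h1

/-- **the zone of a square in a plate** -/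
theorem zs_of_PK (hs : y ∈ PK G s) (hn : |y (K.nrm s) - K.slo s (K.nrm s)| < B.τ s)
    (he : ∀ e, K.edge e ⊆ K.sq s → y ∉ interior (B.E e))
    (hv : ∀ i, K.w i ∈ K.sq s → y ∉ interior (Zv W i)) : y ∈ interior (Zs W s) := by
  have hPB : y ∈ G.PB (3 / 4) s := Geo.mem_PB.2 ⟨fun k hk => hs.1 k hk, hn.le⟩
  rcases G.cover_pt (by norm_num) hPB hn with ⟨h1, -⟩ | ⟨e, hes, -, h1, -⟩ | ⟨e, hes, h1⟩
  · exact h1
  · have hT := B.T_pos e
    exact absurd (mem_interior_iff_mem_nhds.2
      (mem_of_superset (closedBall_mem_nhds _ (by positivity)) h1)) (he e hes)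
  · rcases h1 with ⟨h1, -⟩ | ⟨h1, -⟩
    · exact absurd h1 (hv _ (hes (TM.wa_mem K e)))
    · exact absurd h1 (hv _ (hes (TM.wb_mem K e)))

/-- a box of round T around an edge is inside the zones of the edge and its ends -/
theorem zone_of_inl {e : K.G} (hy : y ∈ G.TB false (.inl e)) :
    y ∈ interior (B.E e) ∨ y ∈ interior (Zv W (K.a e)) ∨ y ∈ interior (Zv W (K.b e)) := by
  rw [Geo.mem_inl] at hy
  simp only [Bool.false_eq_true, if_false] at hy
  obtain ⟨⟨h1, h2⟩, h3⟩ := hy
  have hl := G.lam_pos e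
  have hlT := G.lam_T e
  have hT := B.T_pos e
  have hTa := B.T_le_a e
  have hTb := B.T_le_b e
  have hwa := W.wv_pos (K.a e)
  have hwb := W.wv_pos (K.b e)
  by_cases ha : y (K.dir e) < K.w (K.a e) (K.dir e) + 3 / 4 * W.wv (K.a e)
  · right; left
    refine mem_interior.2 ⟨ball (K.w (K.a e)) (W.wv (K.a e)), ball_subset_closedBall,
      isOpen_ball, ?_⟩
    rw [mem_ball, dist_pi_lt_iff hwa]
    intro k
    rw [Real.dist_eq, abs_lt]
    by_cases hk : k = K.dir e
    · subst hk
      have := G.be_pos (K.a e)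
      constructor <;> linarith
    · have := abs_le.1 (h3 k hk)
      constructor <;> linarith [this.1, this.2]
  by_cases hb : K.w (K.b e) (K.dir e) - 3 / 4 * W.wv (K.b e) < y (K.dir e)
  · right; right
    refine mem_interior.2 ⟨ball (K.w (K.b e)) (W.wv (K.b e)), ball_subset_closedBall,
      isOpen_ball, ?_⟩
    rw [mem_ball, dist_pi_lt_iff hwb]
    intro k
    rw [Real.dist_eq, abs_lt]
    by_cases hk : k = K.dir e
    · subst hk
      have := G.be_pos (K.b e)
      constructor <;> linarith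
    · have := abs_le.1 (h3 k hk)
      rw [← wab K e hk]
      constructor <;> linarith [this.1, this.2]
  left
  push Not at ha hb
  have hT4 : (0:ℝ) < B.T e / 4 := by linarith
  refine mem_interior.2 ⟨ball y (B.T e / 4), fun z hz => ?_, isOpen_ball, mem_ball_self hT4⟩
  have hc : ∀ k, |z k - y k| ≤ B.T e / 4 := fun k => by
    have h5 := dist_le_pi_dist z y k
    rw [Real.dist_eq] at h5
    exact h5.trans (mem_ball.1 hz).le
  refine ⟨?_, fun k hk => ?_⟩
  · have := abs_le.1 (hc (K.dir e))
    constructor <;> linarith [this.1, this.2]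
  · have h6 := abs_le.1 (hc k)
    have h7 := abs_le.1 (h3 k hk)
    rw [abs_le]
    constructor <;> linarith [h6.1, h6.2, h7.1, h7.2]

/-- a box of round T at a hanging vertex is inside the zone of the vertex -/
theorem zone_of_inr {h : Hang K} (hy : y ∈ G.TB false (.inr h)) : y ∈ interior (Zv W h.i) := by
  have h1 := TB_inr_ball h hy
  have h2 := G.be_wv h.i
  have h3 := G.be_pos h.i
  refine mem_interior.2 ⟨ball (K.w h.i) (W.wv h.i), ball_subset_closedBall, isOpen_ball, ?_⟩
  rw [mem_closedBall] at h1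
  rw [mem_ball]
  linarith

/-- the box of round T at a point of a box `E e` which is not in the zone of a vertex -/
theorem ax_of_E {e : K.G} (he : y ∈ B.E e) {b : TBx K} (hb : y ∈ G.TB false b)
    (hv : ∀ h : Hang K, b = .inr h → y ∉ interior (Zv W h.i)) : b = .inl e := by
  rcases b with e' | h
  · by_contra hne
    have hee : e' ≠ e := fun hh => hne (by rw [hh])
    exact (disjoint_se (W := W) hee).notMem_of_mem_left (Ze_subset (TB_subset_Ze e' hb))
      (Ze_subset (B.E_subset e he))
  · exact absurd (zone_of_inr hb) (hv h rfl)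

end P073.H228.EP
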