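import Vale.Agent.P073.H237.SharpDefs

/-!
# P073, H228, SHARP2: combinatorics of nearly monotone edges, part A (counting)
-/

open Set Metric Topology

namespace P073.H237

open P073.H31

namespace Ends

variable {X : Ends} {m c ρ om : ℝ}

theorem mem_on {e : Fin 4} {i : ℕ} {s : Bool} : (i, s) ∈ X.on e ↔ i < X.n ∧ X.e i s = e := by
  simp [on]

/-- the rank of an end is smaller than the number of ends -/
theorem rk_lt {i : ℕ} {s : Bool} (hi : i < X.n) : X.rk i s < (X.on (X.e i s)).card := by
  unfold rk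
  refine Finset.card_lt_card (Finset.filter_ssubset.2 ⟨(i, s), mem_on.2 ⟨hi, rfl⟩, ?_⟩)
  simp

theorem card_pos {i : ℕ} {s : Bool} (hi : i < X.n) : 0 < (X.on (X.e i s)).card :=
  (Nat.zero_le _).trans_lt (rk_lt hi)

/-- the ends lie inside the edge, at distance at least `m` from the corners -/
theorem Near.mem (H : X.Near m c ρ om) (hm2 : m < 1 / 4) (hc : 0 < c) {i : ℕ}
    (hi : i < X.n) (s : Bool) : m < X.lo i s ∧ X.lo i s < X.hi i s ∧ X.hi i s < 1 - m := by
  obtain ⟨h1, h2, h3⟩ := H.cell i hi s
  have hpos : (0:ℝ) < (X.on (X.e i s)).card := by exact_mod_cast card_pos hi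
  have hrk : (X.rk i s : ℝ) + 1 ≤ (X.on (X.e i s)).card := by exact_mod_cast rk_lt hi
  have hrk0 : (0:ℝ) ≤ X.rk i s := Nat.cast_nonneg _
  have hm' : 0 < 1 - 2 * m := by linarith
  have a1 : 0 < (1 - 2 * m) * (X.rk i s + c) / (X.on (X.e i s)).card := by positivity
  have a2 : (1 - 2 * m) * (X.rk i s + 1 - c) / (X.on (X.e i s)).card < 1 - 2 * m := by
    rw [div_lt_iff₀ hpos]
    refine mul_lt_mul_of_pos_left ?_ hm'
    linarith
  have a3 : 0 < c * (1 - 2 * m) / (X.on (X.e i s)).card := by positivity
  exact ⟨by linarith, by linarith, by linarith⟩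

theorem tpBL_mem {e : Fin 4} {t : ℝ} (h0 : 0 < t) (h1 : t < 1) :
    (e : ℕ) / 4 < tpBL e t ∧ tpBL e t < ((e : ℕ) + 1) / 4 := by
  fin_cases e <;> simp [tpBL] <;> constructor <;> linarith

/-- the first end lies on an earlier edge -/
theorem Near.le (H : X.Near m c ρ om) (hm : 0 < m) (hm2 : m < 1 / 4) (hc : 0 < c) {i : ℕ}
    (hi : i < X.n) : (X.e i false : ℕ) ≤ X.e i true := by
  by_contra hcon
  rw [not_le] at hcon
  have h1 := H.ord i hi
  obtain ⟨a1, a2, a3⟩ := H.mem hm2 hc hi false
  obtain ⟨b1, b2, b3⟩ := H.mem hm2 hc hi true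
  have h2 : ((X.e i false : ℕ) : ℝ) / 4 < X.tr i false :=
    (tpBL_mem (e := X.e i false) (by linarith) (by linarith : X.lo i false < 1)).1.trans_le
      (le_max_left _ _)
  have h3 : X.tl i true < (((X.e i true : ℕ) : ℝ) + 1) / 4 :=
    (min_le_left _ _).trans_lt
      (tpBL_mem (e := X.e i true) (by linarith) (by linarith : X.lo i true < 1)).2
  have h4 : (((X.e i true : ℕ) : ℝ) + 1) ≤ (X.e i false : ℕ) := by exact_mod_cast hcon
  have h5 : (((X.e i true : ℕ) : ℝ) + 1) / 4 ≤ ((X.e i false : ℕ) : ℝ) / 4 := by gcongr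
  linarith

/-! ### counting -/

/-- number of ends of the arc `i` on `e` -/
def cn (X : Ends) (e : Fin 4) (i : ℕ) : ℕ :=
  (if X.e i false = e then 1 else 0) + (if X.e i true = e then 1 else 0)

theorem card_on (e : Fin 4) : (X.on e).card = ∑ i ∈ Finset.range X.n, X.cn e i := by
  unfold on cn
  rw [Finset.card_filter, Finset.sum_product]
  refine Finset.sum_congr rfl fun i _ => ?_
  rw [Fintype.sum_bool]
  exact add_comm _ _

theorem card_one (e : Fin 4) : (X.one e).card = ∑ i ∈ Finset.range X.n,
    if X.typ i = dir e ∧ ((X.e i false = e ∧ X.e i true ≠ e) ∨ (X.e i false ≠ e ∧ X.e i true = e))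
      then 1 else 0 := by
  unfold one
  rw [Finset.card_filter]

theorem card_th (d : Bool) : (X.th d).card = ∑ i ∈ Finset.range X.n,
    if ((X.typ i = false ∧ X.e i false = 0 ∧ X.e i true = 2) ∨
      (X.typ i = true ∧ X.e i false = 1 ∧ X.e i true = 3)) ∧ X.typ i = d then 1 else 0 := by
  classical
  unfold th
  rw [Finset.card_filter]
  refine Finset.sum_congr rfl fun i _ => ?_
  unfold thr
  split_ifs <;> rfl

theorem mem_th {d : Bool} {i : ℕ} : i ∈ X.th d ↔ i < X.n ∧ X.thr i ∧ X.typ i = d := by
  simp [th]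

/-- the lower bound for the number of through arcs -/
theorem one_le_th_false (hle : ∀ i < X.n, (X.e i false : ℕ) ≤ X.e i true) :
    (X.one 0).card + (X.one 1).card + (X.one 3).card ≤
      (X.th false).card + (X.on 1).card + (X.on 3).card := by
  rw [card_one, card_one, card_one, card_th, card_on, card_on, ← Finset.sum_add_distrib,
    ← Finset.sum_add_distrib, ← Finset.sum_add_distrib, ← Finset.sum_add_distrib]
  refine Finset.sum_le_sum fun i hi => ?_
  have h := hle i (Finset.mem_range.1 hi)
  unfold cn dir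
  generalize X.e i false = a at *
  generalize X.e i true = b at *
  generalize X.typ i = t at *
  revert h
  clear hi hle
  revert t
  revert a b
  decide

theorem one_le_th_true (hle : ∀ i < X.n, (X.e i false : ℕ) ≤ X.e i true) :
    (X.one 1).card + (X.one 0).card + (X.one 2).card ≤
      (X.th true).card + (X.on 0).card + (X.on 2).card := by
  rw [card_one, card_one, card_one, card_th, card_on, card_on, ← Finset.sum_add_distrib,
    ← Finset.sum_add_distrib, ← Finset.sum_add_distrib, ← Finset.sum_add_distrib]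
  refine Finset.sum_le_sum fun i hi => ?_
  have h := hle i (Finset.mem_range.1 hi)
  unfold cn dir
  generalize X.e i false = a at *
  generalize X.e i true = b at *
  generalize X.typ i = t at *
  revert h
  clear hi hle
  revert t
  revert a b
  decide

/-- the number of ends -/
theorem count_ends (hle : ∀ i < X.n, (X.e i false : ℕ) ≤ X.e i true) {s : Finset ℕ}
    (hs : ∀ i ∈ s, i < X.n ∧ ¬ X.thr i) :
    2 * s.card + 2 * (X.th false).card + 2 * (X.th true).card ≤
      (X.on 0).card + (X.on 1).card + (X.on 2).card + (X.on 3).card := by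
  classical
  have h1 : s.card ≤ ∑ i ∈ Finset.range X.n,
      if ((X.typ i = false ∧ X.e i false = 0 ∧ X.e i true = 2) ∨
      (X.typ i = true ∧ X.e i false = 1 ∧ X.e i true = 3)) then 0 else 1 := by
    have e : s.card = ∑ i ∈ s, if ((X.typ i = false ∧ X.e i false = 0 ∧ X.e i true = 2) ∨
      (X.typ i = true ∧ X.e i false = 1 ∧ X.e i true = 3)) then 0 else 1 := by
      rw [Finset.card_eq_sum_ones]
      refine Finset.sum_congr rfl fun i hi => ?_
      exact (if_neg (hs i hi).2).symm
    rw [e]
    exact Finset.sum_le_sum_of_subset fun i hi => Finset.mem_range.2 (hs i hi).1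
  have h2 : 2 * (∑ i ∈ Finset.range X.n,
      if ((X.typ i = false ∧ X.e i false = 0 ∧ X.e i true = 2) ∨
      (X.typ i = true ∧ X.e i false = 1 ∧ X.e i true = 3)) then 0 else 1) +
      2 * (X.th false).card + 2 * (X.th true).card ≤
      (X.on 0).card + (X.on 1).card + (X.on 2).card + (X.on 3).card := by
    rw [card_th, card_th, card_on, card_on, card_on, card_on, Finset.mul_sum, Finset.mul_sum,
      Finset.mul_sum, ← Finset.sum_add_distrib, ← Finset.sum_add_distrib,
      ← Finset.sum_add_distrib, ← Finset.sum_add_distrib, ← Finset.sum_add_distrib]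
    refine Finset.sum_le_sum fun i hi => ?_
    have h := hle i (Finset.mem_range.1 hi)
    unfold cn
    generalize X.e i false = a at *
    generalize X.e i true = b at *
    generalize X.typ i = t at *
    revert h
    clear hi hle h1 hs
    revert t
    revert a b
    decide
  omega

theorem th_le_on_false : (X.th false).card ≤ (X.on 0).card := by
  rw [card_th, card_on]
  refine Finset.sum_le_sum fun i hi => ?_
  unfold cn
  generalize X.e i false = a at *
  generalize X.e i true = b at *
  generalize X.typ i = t at *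
  clear hi
  revert t
  revert a b
  decide

theorem th_le_on_true : (X.th true).card ≤ (X.on 1).card := by
  rw [card_th, card_on]
  refine Finset.sum_le_sum fun i hi => ?_
  unfold cn
  generalize X.e i false = a at *
  generalize X.e i true = b at *
  generalize X.typ i = t at *
  clear hi
  revert t
  revert a b
  decide

/-- **(3)** the number of through arcs -/
theorem Near.card_th (H : X.Near m c ρ om) (hm : 0 < m) (hm2 : m < 1 / 4) (hc : 0 < c)
    (hρ : 0 < ρ) (hom : 0 < om) (d : Bool) : |om * (X.th d).card - 1| ≤ 5 * ρ := by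
  have hle : ∀ i < X.n, (X.e i false : ℕ) ≤ X.e i true := fun i hi => H.le hm hm2 hc hi
  have h0 := H.cnt 0
  have h1 := H.cnt 1
  have h2 := H.cnt 2
  have h3 := H.cnt 3
  have o0 := H.one 0
  have o1 := H.one 1
  have o2 := H.one 2
  have o3 := H.one 3
  rw [abs_le]
  cases d
  · have a1 : (((X.one 0).card : ℝ) + (X.one 1).card + (X.one 3).card) ≤
        (X.th false).card + (X.on 1).card + (X.on 3).card := by
      exact_mod_cast one_le_th_false hle
    have a2 : ((X.th false).card : ℝ) ≤ (X.on 0).card := by exact_mod_cast th_le_on_false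
    have b1 := mul_le_mul_of_nonneg_left a1 hom.le
    have b2 := mul_le_mul_of_nonneg_left a2 hom.le
    constructor <;> nlinarith
  · have a1 : (((X.one 1).card : ℝ) + (X.one 0).card + (X.one 2).card) ≤
        (X.th true).card + (X.on 0).card + (X.on 2).card := by
      exact_mod_cast one_le_th_true hle
    have a2 : ((X.th true).card : ℝ) ≤ (X.on 1).card := by exact_mod_cast th_le_on_true
    have b1 := mul_le_mul_of_nonneg_left a1 hom.le
    have b2 := mul_le_mul_of_nonneg_left a2 hom.le
    constructor <;> nlinarith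

/-- **(2)** few arcs are not through arcs -/
theorem Near.card_not_thr (H : X.Near m c ρ om) (hm : 0 < m) (hm2 : m < 1 / 4) (hc : 0 < c)
    (hρ : 0 < ρ) (hom : 0 < om) {s : Finset ℕ} (hs : ∀ i ∈ s, i < X.n ∧ ¬ X.thr i) :
    om * s.card ≤ 12 * ρ := by
  have hle : ∀ i < X.n, (X.e i false : ℕ) ≤ X.e i true := fun i hi => H.le hm hm2 hc hi
  have h0 := H.cnt 0
  have h1 := H.cnt 1
  have h2 := H.cnt 2
  have h3 := H.cnt 3
  have t0 := abs_le.1 (H.card_th hm hm2 hc hρ hom false)
  have t1 := abs_le.1 (H.card_th hm hm2 hc hρ hom true)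
  have a1 : 2 * (s.card : ℝ) + 2 * (X.th false).card + 2 * (X.th true).card ≤
      (X.on 0).card + (X.on 1).card + (X.on 2).card + (X.on 3).card := by
    exact_mod_cast count_ends hle hs
  have b1 := mul_le_mul_of_nonneg_left a1 hom.le
  nlinarith [t0.1, t1.1]

/-- positions of the ends in the chart `BL` -/
theorem Near.tl_mem (H : X.Near m c ρ om) (hm : 0 < m) (hm2 : m < 1 / 4) (hc : 0 < c) {i : ℕ}
    (hi : i < X.n) (s : Bool) : ((X.e i s : ℕ) : ℝ) / 4 < X.tl i s ∧ X.tl i s < X.tr i s ∧
      X.tr i s < (((X.e i s : ℕ) : ℝ) + 1) / 4 := by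
  obtain ⟨a1, a2, a3⟩ := H.mem hm2 hc hi s
  obtain ⟨b1, b2⟩ := tpBL_mem (e := X.e i s) (by linarith) (by linarith : X.lo i s < 1)
  obtain ⟨c1, c2⟩ := tpBL_mem (e := X.e i s) (by linarith : 0 < X.hi i s) (by linarith)
  refine ⟨lt_min b1 c1, ?_, max_lt b2 c2⟩
  unfold tl tr
  refine min_lt_max.2 ?_
  generalize X.e i s = e at *
  intro h
  have : X.lo i s = X.hi i s := by
    revert h
    fin_cases e <;> simp [tpBL]
  linarith

/-- **(1)** the arcs which are neither through arcs nor around the corner `(0,0)` -/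
theorem Near.shape (H : X.Near m c ρ om) (hm : 0 < m) (hm2 : m < 1 / 4) (hc : 0 < c)
    (hρ : 0 < ρ) (hρ1 : 5 * ρ < 1) (hom : 0 < om) {i : ℕ} (hi : i < X.n) (h1 : ¬ X.thr i)
    (h2 : ¬ X.cor i) : (X.e i false : ℕ) ≤ X.e i true ∧ (X.e i true : ℕ) ≤ X.e i false + 1 := by
  refine ⟨H.le hm hm2 hc hi, ?_⟩
  have hle := H.le hm hm2 hc hi
  -- through arcs exist
  have hex : ∀ d, ∃ j, j ∈ X.th d := by
    intro d
    have h3 := (abs_le.1 (H.card_th hm hm2 hc hρ hom d)).1
    have h4 : (0:ℝ) < (X.th d).card := by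
      by_contra hcon
      rw [not_lt] at hcon
      have h5 : ((X.th d).card : ℝ) = 0 := le_antisymm hcon (Nat.cast_nonneg _)
      rw [h5] at h3
      linarith
    have h6 : 0 < (X.th d).card := by exact_mod_cast h4
    exact Finset.card_pos.1 h6
  obtain ⟨p1, p2, p3⟩ := H.tl_mem hm hm2 hc hi false
  obtain ⟨q1, q2, q3⟩ := H.tl_mem hm hm2 hc hi true
  by_contra hcon
  rw [not_le] at hcon
  have hcases : (X.e i false = 0 ∧ X.e i true = 2) ∨ (X.e i false = 1 ∧ X.e i true = 3) ∨
      (X.e i false = 0 ∧ X.e i true = 3) := by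
    revert hcon
    clear * -
    generalize X.e i false = a
    generalize X.e i true = b
    revert a b
    decide
  rcases hcases with ⟨h3, h4⟩ | ⟨h3, h4⟩ | ⟨h3, h4⟩
  · -- a `v`-arc from the bottom to the top
    have ht : X.typ i = true := by
      by_contra ht
      exact h1 (Or.inl ⟨by simpa using ht, h3, h4⟩)
    obtain ⟨j, hj⟩ := hex true
    obtain ⟨j1, j2, j3⟩ := mem_th.1 hj
    have j4 : X.e j false = 1 ∧ X.e j true = 3 := by
      rcases j2 with h | h
      · rw [h.1] at j3; exact absurd j3 (by decide)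
      · exact h.2
    obtain ⟨r1, r2, r3⟩ := H.tl_mem hm hm2 hc j1 false
    obtain ⟨s1, s2, s3⟩ := H.tl_mem hm hm2 hc j1 true
    rw [h3] at p1 p3
    rw [h4] at q1 q3
    rw [j4.1] at r1 r3
    rw [j4.2] at s1 s3
    refine H.unl i hi j j1 (fun h => ?_) (ht.trans j3.symm) (Or.inl ⟨?_, ?_, ?_⟩)
    · rw [h, j4.1] at h3; exact absurd h3 (by decide)
    · show X.tl i false < X.tl j false
      norm_num at p3 r1; linarith
    · show X.tl j false < X.tr i true
      norm_num at r3 q1; linarith
    · show X.tr i true < X.tr j true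
      norm_num at q3 s1; linarith
  · -- a `u`-arc from the right to the left
    have ht : X.typ i = false := by
      by_contra ht
      exact h1 (Or.inr ⟨by simpa using ht, h3, h4⟩)
    obtain ⟨j, hj⟩ := hex false
    obtain ⟨j1, j2, j3⟩ := mem_th.1 hj
    have j4 : X.e j false = 0 ∧ X.e j true = 2 := by
      rcases j2 with h | h
      · exact h.2
      · rw [h.1] at j3; exact absurd j3 (by decide)
    obtain ⟨r1, r2, r3⟩ := H.tl_mem hm hm2 hc j1 false
    obtain ⟨s1, s2, s3⟩ := H.tl_mem hm hm2 hc j1 true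
    rw [h3] at p1 p3
    rw [h4] at q1 q3
    rw [j4.1] at r1 r3
    rw [j4.2] at s1 s3
    refine H.unl i hi j j1 (fun h => ?_) (ht.trans j3.symm) (Or.inr ⟨?_, ?_, ?_⟩)
    · rw [h, j4.1] at h3; exact absurd h3 (by decide)
    · show X.tl j false < X.tl i false
      norm_num at p1 r3; linarith
    · show X.tl i false < X.tr j true
      norm_num at p3 s1; linarith
    · show X.tr j true < X.tr i true
      norm_num at s3 q1; linarith
  · exact h2 ⟨h3, h4⟩

end Ends

end P073.H237
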