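import Vale.Agent.P073.H880.RP2
import Vale.Agent.P073.H880.Hook3
import Vale.Agent.P073.H919.HookG
import Vale.Agent.P073.H190.TvpM

/-!
# P073, block H228, [EDGE-P], part 1: the last map of ROUND P relative to the map before the hook

`rel_at`: pointwise form of [REL].  `lip_w`: the second staircases through the windows.
`HkGO.rel_w`: in the box of the hook the coordinates of `PS.map T ∘ h5` (through the windows) are
controlled by those of `h4`.
-/

open Set Metric Topology Filter
open scoped ENNReal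

set_option linter.unusedSectionVars false

namespace P073.H228.EP

open P073 P073.H936 P073.H936.K3 P073.H142 P073.H880 P073.H236 P073.H579 P073.H345
open Vale.Agent.P073.St (V)
open Vale.Agent.P073.H471 Vale.Agent.P073.H267 Vale.Agent.P073.H267.Geo
open Vale.Agent.P073.H73 (Mesh)
open P073.H919 (PI bc bw pcen pwid)
open Vale.Agent.P073.H190.Tvp (wP)
open Vale.Agent.P073.H581 (clamp)

/-! ### pointwise REL -/

section rel

variable {E : Type} [NormedAddCommGroup E] [NormedSpace ℝ E] {Ω : Set E} {Λ : Set (Fin 3 → ℝ)}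
  {γ : Type*} {X : γ → HBox} {h : ConHomeo Ω Λ}

/-- **[REL], pointwise form**: `d y ≤ c y` for all `y ∈ Z` near `x`, if this holds in the boxes
under the inequality of the levels, and off the boxes -/
theorem rel_at (hΩ : IsOpen Ω) (I : ∀ b, (X b).In h)
    (hfin : ∀ z ∈ Λ, ∃ O ∈ 𝓝 z, {b | ((X b).P ∩ O).Nonempty}.Finite)
    {κ : γ → Type*} [∀ b, Fintype (κ b)] {u : ∀ b, κ b → E → ℝ}
    (hu : ∀ b, Loc ((I b).boxK hΩ) (u b)) {Z : Set E} (hZ : Z ⊆ Ω)
    (hZd : ∀ b q, ∀ x ∈ Z, x ∉ interior ((I b).K.C q)) {x : E} (hx : x ∈ Z) {d c : E → ℝ}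
    (hbox : ∀ b, h.toFun x ∈ (X b).P → ∀ᶠ y in 𝓝[Z] x, h.toFun y ∈ (X b).P →
      dsum (u b) x y ≤ dsum (old ((I b).boxK hΩ)) x y → d y ≤ c y)
    (hoff : (∀ b, h.toFun x ∉ interior (X b).P) → ∀ᶠ y in 𝓝[Z] x,
      (∀ b, h.toFun y ∉ (X b).P) → d y ≤ c y) :
    ∀ᶠ y in 𝓝[Z] x, d y ≤ c y := by
  have hxΩ := hZ hx
  have hcont : ContinuousAt h.toFun x := h.cont.continuousAt (hΩ.mem_nhds hxΩ)
  obtain ⟨O, hO, hOf⟩ := hfin _ (h.mapsTo hxΩ)
  have e1 : ∀ᶠ y in 𝓝[Z] x, ∀ b, h.toFun y ∈ (X b).P → h.toFun x ∈ (X b).P := by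
    have h1 : ∀ᶠ y in 𝓝 x, h.toFun y ∈ O := hcont hO
    have h2 : ∀ᶠ y in 𝓝 x, ∀ b ∈ {b | ((X b).P ∩ O).Nonempty},
        h.toFun y ∈ (X b).P → h.toFun x ∈ (X b).P := by
      rw [eventually_all_finite hOf]
      intro b _
      by_cases hb : h.toFun x ∈ (X b).P
      · exact Eventually.of_forall fun _ _ => hb
      · filter_upwards [hcont ((X b).isCompact_P.isClosed.isOpen_compl.mem_nhds hb)]
          with y hy hy2
        exact absurd hy2 hy
    filter_upwards [nhdsWithin_le_nhds h1, nhdsWithin_le_nhds h2] with y h1 h2 b hb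
    exact h2 b ⟨_, hb, h1⟩ hb
  have hfx : {b | h.toFun x ∈ (X b).P}.Finite := hOf.subset fun b hb =>
    ⟨_, hb, mem_of_mem_nhds hO⟩
  have e2 : ∀ᶠ y in 𝓝[Z] x, ∀ b ∈ {b | h.toFun x ∈ (X b).P}, h.toFun y ∈ (X b).P →
      d y ≤ c y := by
    rw [eventually_all_finite hfx]
    intro b hb
    have hxU : x ∈ (X b).U h := (HBox.mem_U (I b) hxΩ).2 hb
    have h3 := eventually_nhdsWithin_iff.1 ((hu b).rest hxU)
    filter_upwards [hbox b hb, nhdsWithin_le_nhds h3, self_mem_nhdsWithin]
      with y h4 h5 hyZ hyb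
    exact h4 hyb (h5 ((HBox.mem_U (I b) (hZ hyZ)).2 hyb) fun q => hZd b q y hyZ)
  by_cases hint : ∃ b, h.toFun x ∈ interior (X b).P
  · obtain ⟨b, hb⟩ := hint
    have h1 : ∀ᶠ y in 𝓝[Z] x, h.toFun y ∈ interior (X b).P :=
      nhdsWithin_le_nhds (hcont (isOpen_interior.mem_nhds hb))
    filter_upwards [h1, e2] with y h1 h2
    exact h2 b (interior_subset hb) (interior_subset h1)
  · push Not at hint
    filter_upwards [e1, e2, hoff hint] with y h1 h2 h3
    by_cases hy : ∃ b, h.toFun y ∈ (X b).P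
    · obtain ⟨b, hb⟩ := hy
      exact h2 b (h1 b hb) hb
    · push Not at hy
      exact h3 hy

end rel

/-! ### windows -/

theorem clamp_mem {l r t : ℝ} (hlr : l ≤ r) : clamp l r t ∈ Icc l r := by
  unfold clamp
  exact ⟨le_max_left _ _, max_le hlr (min_le_left _ _)⟩

theorem clamp_eq {l r t : ℝ} (h : t ∈ Icc l r) : clamp l r t = t := by
  unfold clamp
  rw [min_eq_right h.2, max_eq_right h.1]

theorem clamp_le {l r t : ℝ} (hlr : l ≤ r) (h : t ≤ l) : clamp l r t = l := by
  unfold clamp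
  rw [min_eq_right (h.trans hlr), max_eq_left h]

theorem clamp_ge {l r t : ℝ} (hlr : l ≤ r) (h : r ≤ t) : clamp l r t = r := by
  unfold clamp
  rw [min_eq_left h, max_eq_right hlr]

theorem abs_clamp_le (l r s t : ℝ) : |clamp l r s - clamp l r t| ≤ |s - t| := by
  unfold clamp
  calc |max l (min r s) - max l (min r t)| ≤ |min r s - min r t| := by
        have := abs_max_sub_max_le_abs (min r s) (min r t) l
        rwa [max_comm _ l, max_comm _ l] at this
    _ ≤ |s - t| := by
        have := abs_min_sub_min_le_max r s r t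
        simpa using this

/-- the position in a band does not see the clamp -/
theorem clp_clamp {al be c w r t : ℝ} (hw : 0 < w) (hr : 0 ≤ r) (h1 : al ≤ c - r * w)
    (h2 : c + r * w ≤ be) : clp r ((clamp al be t - c) / w) = clp r ((t - c) / w) := by
  have h0 : 0 ≤ r * w := by positivity
  have hab : al ≤ be := by linarith
  rcases le_total t al with h | h
  · rw [clamp_le hab h]
    have a1 : (al - c) / w ≤ -r := by rw [div_le_iff₀ hw]; linarith
    have a2 : (t - c) / w ≤ -r := by rw [div_le_iff₀ hw]; linarith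
    unfold clp
    rw [max_eq_left ((min_le_left _ _).trans a1), max_eq_left ((min_le_left _ _).trans a2)]
  · rcases le_total be t with h' | h'
    · rw [clamp_ge hab h']
      have a1 : r ≤ (be - c) / w := by rw [le_div_iff₀ hw]; linarith
      have a2 : r ≤ (t - c) / w := by rw [le_div_iff₀ hw]; linarith
      unfold clp
      rw [min_eq_right a1, min_eq_right a2]
    · rw [clamp_eq ⟨h, h'⟩]

section bands

variable {ι : Type*} [Fintype ι] {side : ι → Bool} {ax : Bool → Fin 3} {lo hi : Fin 3 → ℝ}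
  {c w : ι → ℝ} {E : Type*} [NormedAddCommGroup E] [NormedSpace ℝ E]

/-- the map with clamped coordinates -/
noncomputable def gcl (ax : Bool → Fin 3) (al be : Bool → ℝ) (g : E → Fin 3 → ℝ) (x : E) :
    Fin 3 → ℝ := fun l =>
  if l = ax true then clamp (al true) (be true) (g x l) else
    if l = ax false then clamp (al false) (be false) (g x l) else g x l

theorem gcl_ax {al be : Bool → ℝ} (hax : ax true ≠ ax false) (g : E → Fin 3 → ℝ) (x : E)
    (b : Bool) : gcl ax al be g x (ax b) = clamp (al b) (be b) (g x (ax b)) := by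
  unfold gcl
  cases b
  · rw [if_neg hax.symm, if_pos rfl]
  · rw [if_pos rfl]

theorem wlev_gcl {al be : Bool → ℝ} (hax : ax true ≠ ax false) (hw : ∀ i, 0 < w i) {r : ℝ}
    (hr : 0 ≤ r) (hwin : ∀ i, al (side i) ≤ c i - r * w i ∧ c i + r * w i ≤ be (side i))
    (g : E → Fin 3 → ℝ) (i : ι) (x : E) :
    wlev side ax r c w (gcl ax al be g) i x = wlev side ax r c w g i x := by
  unfold wlev H880.cl
  rw [gcl_ax hax]
  exact clp_clamp (hw i) hr (hwin i).1 (hwin i).2

theorem dsum_gcl {al be : Bool → ℝ} (hax : ax true ≠ ax false) (hw : ∀ i, 0 < w i) {r : ℝ}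
    (hr : 0 ≤ r) (hwin : ∀ i, al (side i) ≤ c i - r * w i ∧ c i + r * w i ≤ be (side i))
    (g : E → Fin 3 → ℝ) (x y : E) :
    dsum (wlev side ax r c w (gcl ax al be g)) x y = dsum (wlev side ax r c w g) x y := by
  unfold dsum
  refine Finset.sum_congr rfl fun i _ => ?_
  rw [wlev_gcl hax hw hr hwin, wlev_gcl hax hw hr hwin]

/-- **the levels are controlled by the coordinates through the windows** -/
theorem dsum_clamp_le (H : Bands side ax lo hi c w) {g : E → Fin 3 → ℝ} {A L : ℝ}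
    (hL : 0 ≤ L) (hAw : ∀ i, A ≤ L * w i) {al be : Bool → ℝ}
    (hwin : ∀ i, al (side i) ≤ c i - w i ∧ c i + w i ≤ be (side i)) (x y : E) :
    A * dsum (wlev side ax 1 c w g) x y ≤
      L * ∑ b : Bool, |clamp (al b) (be b) (g y (ax b)) - clamp (al b) (be b) (g x (ax b))| := by
  have h1 := dsum_wlev_le H hL hAw (g := gcl ax al be g) x y
  rw [dsum_gcl H.axne (fun i => (H.ok i).pos) zero_le_one (fun i => by
    simpa only [one_mul] using hwin i)] at h1
  refine h1.trans (le_of_eq ?_)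
  congr 1
  refine Finset.sum_congr rfl fun b _ => ?_
  rw [gcl_ax H.axne, gcl_ax H.axne]

end bands

end P073.H228.EP
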