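import Vale.Agent.P073.H228.EdgeP2
import Vale.Agent.P073.H919.PEx

/-!
# P073, block H228, [EDGE-P], part 3: `PS.map Tσ ∘ h5` relative to `h4`, near a plate

`hkGO_rel_w`: on passive sets, near the plate `s`: the coordinates through the windows.
`hkGO_rel_far`: off the box of the hook: all coordinates.  `hkGO_rel_off`: off the plates.
-/

open Set Metric Topology Filter
open scoped ENNReal

set_option linter.unusedSectionVars false

namespace P073.H228.EP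

open P073 P073.Net P073.PA691 P073.H936 P073.H936.K3 P073.H142 P073.H880 P073.H880.RP P073.H236
  P073.H579 P073.H345
open Vale.Agent.P073.St (V)
open Vale.Agent.P073.H471 Vale.Agent.P073.H267 Vale.Agent.P073.H267.Geo
open Vale.Agent.P073.H73 (Mesh)
open P073.H919
open Vale.Agent.P073.H190.Tvp (wP near_PK isClosed_PK)
open Vale.Agent.P073.H190.Tvp.PSS (Only)
open Vale.Agent.P073.H581 (clamp)

variable {Ω Λ : Set V} {v : V} {K : BoxCx Λ v} {S : Rad K} {W : Wid K S} {B : Boxes W}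
  {G : Geo B} {L : PLev G} {S₀ : Set K.S} {F : Bool → BFam 3 S₀ Λ}
  {T : Bool → ConHomeo Λ Λ} {M : Mesh Ω} {κ₀ κ₁ : V → V} {c d : ℝ} {Zb : S₀ → Set M.ι}
  {h2 h3 h4 : ConHomeo Ω Λ} {u : V}

section

variable {H : HkG M L (Subtype.val : S₀ → K.S) F T κ₀ κ₁ c d Zb h2 h3 h4 u} {hΩ : IsOpen Ω}
  {r : S₀ → ℝ} {h5 : ConHomeo Ω Λ} (O : HkGO H hΩ r h5) {s : S₀}

theorem hB_PK (H : HkG M L (Subtype.val : S₀ → K.S) F T κ₀ κ₁ c d Zb h2 h3 h4 u) (s : S₀) :
    HB G c d s.1 ⊆ PK G s.1 := fun _ hy =>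
  PB_sub_PK (by norm_num) s.1 (HB_PB H.hc H.hd s.1 hy)

include O

/-- plates are preserved by the hook -/
theorem hkGO_PK {x : V} (hx : x ∈ Ω) (s : K.S) : h5.toFun x ∈ PK G s ↔ h4.toFun x ∈ PK G s := by
  refine O.mem_iff (A := PK G s) (fun b ⟨y, hy, hyb⟩ => ?_) hx
  have h1 := hB_PK H b hyb
  have h2 : s = b.1 := PK_unique hy h1
  rw [h2]
  exact hB_PK H b

/-- near `x` only the plate `s` -/
theorem near_one {Z : Set V} (hZ : Z ⊆ Ω) {x : V} (hx : x ∈ Z) (hs : h4.toFun x ∈ PK G s.1) :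
    ∀ᶠ y in 𝓝[Z] x, ∀ s' : S₀, s' ≠ s → h4.toFun y ∉ PK G s'.1 := by
  have h1 : ContinuousWithinAt h4.toFun Z x := (h4.cont.mono hZ) x hx
  filter_upwards [h1.eventually (near_PK (G := G) (h4.mapsTo (hZ hx)))] with y hy s' hne hys
  exact hne (Subtype.ext (PK_unique (hy s'.1 hys) hs))

/-- off the interior of the box of `s` the hook changes nothing -/
theorem hkGO_off' {y : V} (hy : y ∈ Ω) (ho : ∀ s' : S₀, s' ≠ s → h4.toFun y ∉ PK G s'.1)
    (hn : h4.toFun y ∉ interior (HB G c d s.1)) : h5.toFun y = h4.toFun y := by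
  refine O.off hy fun s' hs' => ?_
  by_cases hss : s' = s
  · subst hss
    exact hn hs'
  · exact ho s' hss (hB_PK H s' (interior_subset hs'))

theorem hkGO_only {y : V} (hy : y ∈ Ω) (ho : ∀ s' : S₀, s' ≠ s → h4.toFun y ∉ PK G s'.1) :
    Only G S₀ s (h5.toFun y) := fun s' hne h => ho s' hne ((hkGO_PK O hy s'.1).1 h)

variable {Fσ : Bool → BFam 3 S₀ Λ} {ς : Bool → S₀ → ℝ} {Tσ : Bool → ConHomeo Λ Λ}

/-- **[REL], through the windows**: on passive sets, near the plate `s` -/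
theorem hkGO_rel_w (P : Sg3 L S₀ Fσ ς Tσ) {r' : ℝ} (r0 : 0 < r') (rr : r' ≤ r s) (r1 : r s < 1)
    (he0 : ∀ β, 0 ≤ (F β).e s)
    (hw : ∀ β, 0 < bw (L.N s.1 β) (K.slo s.1 (tg s.1 β) + G.a s.1)
      (K.shi s.1 (tg s.1 β) - G.a s.1) ((F β).e s))
    (he : ∀ β, (Fσ β).e s = stp (L.N s.1 β) (K.slo s.1 (tg s.1 β) + G.a s.1)
      (K.shi s.1 (tg s.1 β) - G.a s.1) / 2 - r' * bw (L.N s.1 β)
        (K.slo s.1 (tg s.1 β) + G.a s.1) (K.shi s.1 (tg s.1 β) - G.a s.1) ((F β).e s))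
    {A Lc m q : ℝ} (hA0 : 0 ≤ A)
    (hA : ∀ β, slAK (Fσ β) (ς β) s * bw (L.N s.1 β) (K.slo s.1 (tg s.1 β) + G.a s.1)
      (K.shi s.1 (tg s.1 β) - G.a s.1) ((F β).e s) ≤ A)
    (hAw : ∀ i, A ≤ Lc * pwid L (fun β => (F β).e s) s.1 i) (hL0 : 0 ≤ Lc)
    (hm1 : 1 ≤ m) (hmL : m ≤ Lc) (hq0 : 0 ≤ q) (hm : ∀ β, slAK (Fσ β) (ς β) s ≤ m)
    (hq : ∀ β, 4 * (Fσ β).e s / B.τ s.1 ≤ q)
    {Z : Set V} (hZ : Z ⊆ Ω) (hZd : ∀ q, ∀ x ∈ Z, x ∉ interior ((H.hookIn s).K.C q))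
    {x : V} (hx : x ∈ Z) (hs : h4.toFun x ∈ PK G s.1) (β : Bool) :
    ∀ᶠ y in 𝓝[Z] x, |wP G s.1 β (PS.map Tσ (h5.toFun y) (tg s.1 β)) -
        wP G s.1 β (PS.map Tσ (h5.toFun x) (tg s.1 β))| ≤
      Lc * ∑ β', |wP G s.1 β' (h4.toFun y (tg s.1 β')) - wP G s.1 β' (h4.toFun x (tg s.1 β'))| +
        q * (m + q) * ‖h4.toFun y - h4.toFun x‖ + ς β s * ‖h5.toFun y - h5.toFun x‖ := by
  have hς := ((P.isS β).s0 s).le
  have ho := near_one O hZ hx hs
  have hox := ho.self_of_nhdsWithin hx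
  have hcont : ContinuousWithinAt h4.toFun Z x := (h4.cont.mono hZ) x hx
  have hone : ∀ z : V, |z (tg s.1 β)| ≤ ‖z‖ := fun z => by
    rw [← Real.norm_eq_abs]; exact norm_le_pi_norm z _
  -- off the box
  have key : ∀ y ∈ Z, (∀ s' : S₀, s' ≠ s → h4.toFun y ∉ PK G s'.1) →
      h5.toFun x = h4.toFun x → h5.toFun y = h4.toFun y →
      |wP G s.1 β (PS.map Tσ (h5.toFun y) (tg s.1 β)) -
        wP G s.1 β (PS.map Tσ (h5.toFun x) (tg s.1 β))| ≤
      Lc * ∑ β', |wP G s.1 β' (h4.toFun y (tg s.1 β')) - wP G s.1 β' (h4.toFun x (tg s.1 β'))| +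
        q * (m + q) * ‖h4.toFun y - h4.toFun x‖ + ς β s * ‖h5.toFun y - h5.toFun x‖ := by
    intro y hy hoy e1 e2
    have h1 := P.map_sub_le_w (hkGO_only O (hZ hy) hoy) (hkGO_only O (hZ hx) hox) hm1 hq0 hm hq β
    rw [e1, e2] at h1 ⊢
    have h2 : |wP G s.1 β (h4.toFun y (tg s.1 β)) - wP G s.1 β (h4.toFun x (tg s.1 β))| ≤
        ∑ β', |wP G s.1 β' (h4.toFun y (tg s.1 β')) - wP G s.1 β' (h4.toFun x (tg s.1 β'))| :=
      Finset.single_le_sum (f := fun β' : Bool => |wP G s.1 β' (h4.toFun y (tg s.1 β')) -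
        wP G s.1 β' (h4.toFun x (tg s.1 β'))|) (fun _ _ => abs_nonneg _) (Finset.mem_univ β)
    have h3 := mul_le_mul_of_nonneg_right hmL
      (abs_nonneg (wP G s.1 β (h4.toFun y (tg s.1 β)) - wP G s.1 β (h4.toFun x (tg s.1 β))))
    have h6 := mul_le_mul_of_nonneg_left h2 hL0
    have h7 : 0 ≤ ς β s * ‖h4.toFun y - h4.toFun x‖ := mul_nonneg hς (norm_nonneg _)
    linarith
  by_cases hxB : h4.toFun x ∈ HB G c d s.1
  · have hxU : x ∈ (phook M L (Subtype.val : S₀ → K.S) F c d Zb s).U h4 :=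
      (H.mem_U s (hZ hx)).2 hxB
    have h6 := eventually_nhdsWithin_iff.1 ((O.loc_le s r1 r0 rr).rest hxU)
    have hint : ∀ᶠ y in 𝓝[Z] x, h4.toFun x ∈ interior (HB G c d s.1) →
        h4.toFun y ∈ HB G c d s.1 := by
      by_cases hi : h4.toFun x ∈ interior (HB G c d s.1)
      · filter_upwards [hcont.eventually (isOpen_interior.mem_nhds hi)] with y hy _
        exact interior_subset hy
      · exact Eventually.of_forall fun _ h => absurd h hi
    filter_upwards [nhdsWithin_le_nhds h6, hint, ho, self_mem_nhdsWithin] with y h7 h8 h9 hyZ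
    by_cases hyB : h4.toFun y ∈ HB G c d s.1
    · have hyU : y ∈ (phook M L (Subtype.val : S₀ → K.S) F c d Zb s).U h4 :=
        (H.mem_U s (hZ hyZ)).2 hyB
      have h10 := h7 hyU fun q => hZd q y hyZ
      have hx5 : h5.toFun x ∈ G.PB (7 / 8) s.1 :=
        HB_PB H.hc H.hd s.1 ((O.mem s (hZ hx)).2 hxB)
      have hy5 : h5.toFun y ∈ G.PB (7 / 8) s.1 :=
        HB_PB H.hc H.hd s.1 ((O.mem s (hZ hyZ)).2 hyB)
      have h11 := P.lip_w (g := h5.toFun) hx5 hy5 he0 r0.le (rr.trans r1.le) hw he hA β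
      have h12 := dsum_clamp_le (H.hookIn s).H (g := h4.toFun) hL0 hAw
        (al := fun b => K.slo s.1 (tg s.1 b) + G.a s.1)
        (be := fun b => K.shi s.1 (tg s.1 b) - G.a s.1)
        (fun i => by
          have h20 := P.band_win (e := fun β => (F β).e s) he0 le_rfl hw i
          rw [one_mul] at h20
          exact h20) x y
      have h13 : A * dsum (wlev (ι := PI L s.1) Sigma.fst (tg s.1) r' (pcen L s.1)
          (pwid L (fun β => (F β).e s) s.1) h5.toFun) x y ≤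
          Lc * ∑ β', |wP G s.1 β' (h4.toFun y (tg s.1 β')) -
            wP G s.1 β' (h4.toFun x (tg s.1 β'))| :=
        (mul_le_mul_of_nonneg_left h10 hA0).trans h12
      have h14 : ς β s * |wP G s.1 β (h5.toFun y (tg s.1 β)) -
          wP G s.1 β (h5.toFun x (tg s.1 β))| ≤ ς β s * ‖h5.toFun y - h5.toFun x‖ := by
        refine mul_le_mul_of_nonneg_left ((abs_clamp_le _ _ _ _).trans ?_) hς
        have := hone (h5.toFun y - h5.toFun x)
        rwa [Pi.sub_apply] at this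
      have h15 : 0 ≤ q * (m + q) * ‖h4.toFun y - h4.toFun x‖ := by positivity
      linarith
    · have hxi : h4.toFun x ∉ interior (HB G c d s.1) := fun h => hyB (h8 h)
      exact key y hyZ h9 (hkGO_off' O (hZ hx) hox hxi)
        (hkGO_off' O (hZ hyZ) h9 fun h => hyB (interior_subset h))
  · have hcl : IsClosed (HB G c d s.1) := isClosed_Icc
    filter_upwards [hcont.eventually (hcl.isOpen_compl.mem_nhds hxB), ho, self_mem_nhdsWithin]
      with y h8 h9 hyZ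
    exact key y hyZ h9 (hkGO_off' O (hZ hx) hox fun h => hxB (interior_subset h))
      (hkGO_off' O (hZ hyZ) h9 fun h => h8 (interior_subset h))

/-- **[REL], far from the flat of the plate**: off the box of the hook all coordinates are
controlled -/
theorem hkGO_rel_far (P : Sg3 L S₀ Fσ ς Tσ) {m q : ℝ} (hm1 : 1 ≤ m) (hq0 : 0 ≤ q)
    (hm : ∀ β, slAK (Fσ β) (ς β) s ≤ m) (hq : ∀ β, 4 * (Fσ β).e s / B.τ s.1 ≤ q)
    {Z : Set V} (hZ : Z ⊆ Ω) {x : V} (hx : x ∈ Z) (hs : h4.toFun x ∈ PK G s.1)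
    (hxB : h4.toFun x ∉ HB G c d s.1) :
    ∀ᶠ y in 𝓝[Z] x, ∀ l, |PS.map Tσ (h5.toFun y) l - PS.map Tσ (h5.toFun x) l| ≤
      m * |h4.toFun y l - h4.toFun x l| + q * (m + q) * ‖h4.toFun y - h4.toFun x‖ := by
  have ho := near_one O hZ hx hs
  have hox := ho.self_of_nhdsWithin hx
  have hcont : ContinuousWithinAt h4.toFun Z x := (h4.cont.mono hZ) x hx
  have hcl : IsClosed (HB G c d s.1) := isClosed_Icc
  filter_upwards [hcont.eventually (hcl.isOpen_compl.mem_nhds hxB), ho, self_mem_nhdsWithin]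
    with y h8 h9 hyZ l
  have h1 := P.map_sub_le (hkGO_only O (hZ hyZ) h9) (hkGO_only O (hZ hx) hox) hm1 hq0 hm hq l
  rw [hkGO_off' O (hZ hx) hox fun h => hxB (interior_subset h),
    hkGO_off' O (hZ hyZ) h9 fun h => h8 (interior_subset h)] at h1 ⊢
  exact h1

/-- off the plates nothing changes -/
theorem hkGO_rel_off (P : Sg3 L S₀ Fσ ς Tσ) {Z : Set V} (hZ : Z ⊆ Ω) {x : V} (hx : x ∈ Z)
    (hs : ∀ s : S₀, h4.toFun x ∉ PK G s.1) :
    ∀ᶠ y in 𝓝[Z] x, PS.map Tσ (h5.toFun y) = h4.toFun y := by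
  have h1 : ContinuousWithinAt h4.toFun Z x := (h4.cont.mono hZ) x hx
  filter_upwards [h1.eventually (near_PK (G := G) (h4.mapsTo (hZ hx))), self_mem_nhdsWithin]
    with y hy hyZ
  have h2 : ∀ s : S₀, h4.toFun y ∉ PK G s.1 := fun s h => hs s (hy s.1 h)
  rw [P.map_off fun s h => h2 s ((hkGO_PK O (hZ hyZ) s.1).1 h)]
  exact O.off (hZ hyZ) fun s h => h2 s (hB_PK H s (interior_subset h))

end

end P073.H228.EP
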