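import Vale.Agent.P073.H233.Tail3F

/-!
# P073, block H228, [EDGE-V]: the length of an edge, pointwise form

`GAt B X f w e G t`: near the parameter `t` the function `G` changes at most as the alive
coordinates of `f` on the edge `e`.  `EdgeV`: every such function has small variation.
-/

open Set Metric Topology Filter MeasureTheory
open scoped ENNReal

namespace Vale.Agent.P073.H228

open _root_.P073 _root_.P073.Net _root_.P073.PA691 _root_.P073.TM
open Vale.Agent.P073.St (V)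
open Vale.Agent.P073.H471
open Vale.Agent.P073.H212 (IsSoft)
open Vale.Agent.P073.H73 (Mesh sqr onSeg)
open Vale.Agent.P073.H193 (Edges edges)
open Vale.Agent.P073.H233

variable {Ω Λ : Set V} {M : Mesh Ω} {v : V} {K : BoxCx Λ v} {S : Rad K} {W : Wid K S}
  {B : Boxes W} {X : PSet K} {α : Type*} {R : Fac K} {F : α → Set V} {N t : α → ℝ}
  {Φ : ConHomeo Λ Λ} {a : α} {μ : ℝ}

/-- `G` changes near the parameter `r` of the edge `e` at most as the alive coordinates of `f` -/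
structure GAt (B : Boxes W) (X : PSet K) (f : V → V) (w : ℝ) (e : V × V) (G : ℝ → ℝ) (r : ℝ) :
    Prop where
  /-- off the zones -/
  out : (∀ s ∈ X.s, onSeg f e r ∉ interior (Zs W s)) → (∀ i ∈ X.e, onSeg f e r ∉ interior (B.E i)) →
    (∀ i ∈ X.w, onSeg f e r ∉ interior (Zv W i)) →
    ∀ᶠ r' in 𝓝[Icc 0 1] r, |G r' - G r| ≤ 8 * ‖onSeg f e r' - onSeg f e r‖
  /-- in the zone of a square -/
  sq : ∀ s ∈ X.s, onSeg f e r ∈ interior (Zs W s) → ∀ᶠ r' in 𝓝[Icc 0 1] r, ∀ L : ℝ,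
    (∀ j, j ≠ K.nrm s → |onSeg f e r' j - onSeg f e r j| ≤ L) → |G r' - G r| ≤ 8 * L + w * |r' - r|
  /-- in the box of an edge -/
  ed : ∀ i ∈ X.e, onSeg f e r ∈ interior (B.E i) → ∀ᶠ r' in 𝓝[Icc 0 1] r,
    |G r' - G r| ≤ 8 * |onSeg f e r' (K.dir i) - onSeg f e r (K.dir i)| + w * |r' - r|
  /-- in the cube of a vertex -/
  vt : ∀ i ∈ X.w, onSeg f e r ∈ interior (Zv W i) → ∀ᶠ r' in 𝓝[Icc 0 1] r, |G r' - G r| ≤ w * |r' - r|

/-- the estimate for the map `f` (before the collapse) on the edge `e`: all functions which change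
at most as the alive coordinates have small variation -/
def EdgeV (B : Boxes W) (X : PSet K) (h f : V → V) (D₀ w : ℝ) (e : (edges M).ε) : Prop :=
  ∀ G : ℝ → ℝ, (∀ r ∈ Icc (0:ℝ) 1, GAt B X f w ((edges M).a e, (edges M).b e) G r) →
    eVariationOn G (Icc 0 1) ≤
      ENNReal.ofReal D₀ * len (onSeg h ((edges M).a e, (edges M).b e)) (Icc 0 1) +
        ENNReal.ofReal w

/-- the estimate for the map `f` (before the collapse) on the edge `e`: length. `w` is a tiny
number. (replaces `EdgeOK3`) -/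
def EdgeOK4 (B : Boxes W) (X : PSet K) (P : Set M.ι) (h f : V → V) (D₀ w : ℝ)
    (e : (edges M).ε) : Prop :=
  (∃ i ∈ P, (edges M).seg e ⊆ M.Q i) ∨ EqOn f h ((edges M).seg e) ∨ EdgeV B X h f D₀ w e

/-- the variation of a curve is at most the sum of the variations of its coordinates -/
theorem var_le_sum (q : ℝ → V) (s : Set ℝ) :
    var q s ≤ ∑ j, eVariationOn (fun r => q r j) s := by
  refine iSup_le ?_
  rintro ⟨n, u, hu, hus⟩
  calc ∑ i ∈ Finset.range n, edist (q (u (i + 1))) (q (u i))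
      ≤ ∑ i ∈ Finset.range n, ∑ j, edist (q (u (i + 1)) j) (q (u i) j) := by
        refine Finset.sum_le_sum fun i _ => ?_
        rw [edist_pi_def]
        refine Finset.sup_le fun j _ => ?_
        exact Finset.single_le_sum (f := fun j => edist (q (u (i + 1)) j) (q (u i) j))
          (fun _ _ => zero_le) (Finset.mem_univ j)
    _ = ∑ j, ∑ i ∈ Finset.range n, edist (q (u (i + 1)) j) (q (u i) j) := Finset.sum_comm
    _ ≤ _ := Finset.sum_le_sum fun j _ => eVariationOn.sum_le (f := fun r => q r j) hu hus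

/-- the coordinates of the collapsed map -/
theorem gAt_soft {f : V → V} {w : ℝ} {e : V × V} (HS : Small3 W X R f F N t)
    (HΦ : IsSoft B μ R Φ) (hμ : 0 ≤ μ) (hμ1 : μ ≤ 1) (hF : segment ℝ e.1 e.2 ⊆ F a)
    (hf : ContinuousOn f (segment ℝ e.1 e.2)) (ht : t a ≤ w) (j₀ : Fin 3) {r : ℝ}
    (hr : r ∈ Icc (0:ℝ) 1) : GAt B X f w e (fun r => Φ.toFun (onSeg f e r) j₀) r := by
  have hmem : ∀ {s : ℝ}, s ∈ Icc (0:ℝ) 1 → e.1 + s • (e.2 - e.1) ∈ segment ℝ e.1 e.2 :=
    fun hs => Small.onSeg_mem hs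
  have hN := HS.pos a
  have hdiam : ‖e.2 - e.1‖ ≤ diam (F a) := by
    have := dist_le_diam_of_mem (HS.cpt a).isBounded (hF (right_mem_segment ℝ _ _))
      (hF (left_mem_segment ℝ _ _))
    rwa [dist_eq_norm] at this
  have hcost : ∀ ρ : ℝ, 0 < ρ → ρ * (N a * (1 + diam (F a))) ≤ t a / 7 →
      ∀ s ∈ Icc (0:ℝ) 1, ρ * ‖onSeg f e s - onSeg f e r‖ ≤ t a / 7 * |s - r| := by
    intro ρ hρ h1 s hs
    have h2 := HS.lip a _ (hF (hmem hs)) _ (hF (hmem hr))
    have h3 : e.1 + s • (e.2 - e.1) - (e.1 + r • (e.2 - e.1)) = (s - r) • (e.2 - e.1) := by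
      module
    rw [h3, norm_smul, Real.norm_eq_abs] at h2
    calc _ ≤ ρ * (N a * (|s - r| * ‖e.2 - e.1‖)) := mul_le_mul_of_nonneg_left h2 hρ.le
      _ = ρ * (N a * ‖e.2 - e.1‖) * |s - r| := by ring
      _ ≤ t a / 7 * |s - r| := by
        refine mul_le_mul_of_nonneg_right (le_trans ?_ h1) (abs_nonneg _)
        gcongr
        linarith
  have ht0 : ∀ s ∈ Icc (0:ℝ) 1, ∀ ρ : ℝ, 0 < ρ → ρ * (N a * (1 + diam (F a))) ≤ t a / 7 →
      0 ≤ t a := by
    intro s _ ρ hρ h1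
    have h2 : 0 ≤ diam (F a) := diam_nonneg
    have h3 : 0 < ρ * (N a * (1 + diam (F a))) := by positivity
    linarith
  have hcont : ContinuousOn (onSeg f e) (Icc 0 1) := by
    refine hf.comp (Continuous.continuousOn (by fun_prop)) fun s hs => hmem hs
  have hev : ∀ {Z : Set V}, onSeg f e r ∈ interior Z → ∀ᶠ r' in 𝓝[Icc 0 1] r, onSeg f e r' ∈ Z :=
    fun hZ => ((hcont r hr).eventually (isOpen_interior.mem_nhds hZ)).mono fun _ h =>
      interior_subset h
  have hco : ∀ y y' : V, |Φ.toFun y j₀ - Φ.toFun y' j₀| ≤ ‖Φ.toFun y - Φ.toFun y'‖ := by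
    intro y y'
    have := norm_le_pi_norm (Φ.toFun y - Φ.toFun y') j₀
    rwa [Pi.sub_apply, Real.norm_eq_abs] at this
  refine ⟨fun _ _ _ => Eventually.of_forall fun r' => ?_, fun s hs hz => ?_, fun i hi hz => ?_,
    fun i hi hz => ?_⟩
  · refine (hco _ _).trans ((HΦ.lip _ _).trans ?_)
    have := norm_nonneg (onSeg f e r' - onSeg f e r)
    linarith
  · filter_upwards [hev hz, self_mem_nhdsWithin] with r' h1 hr' L hL
    have hL0 : 0 ≤ L := by
      obtain ⟨a₁, _, ha₁, -⟩ := other_two (K.nrm s)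
      exact (abs_nonneg _).trans (hL a₁ ha₁)
    have hc := HS.s a s hs ⟨_, ⟨_, hF (hmem hr), rfl⟩, interior_subset hz⟩
    have h2 := norm_s HΦ hμ h1 (interior_subset hz) hL hL0
    have h3 := hcost _ (R.s_pos s) hc r' hr'
    have h4 := ht0 r hr _ (R.s_pos s) hc
    have h5 := mul_le_of_le_one_left hL0 hμ1
    have h6 := mul_le_mul_of_nonneg_right ht (abs_nonneg (r' - r))
    have h7 := mul_nonneg h4 (abs_nonneg (r' - r))
    refine (hco _ _).trans (h2.trans ?_)
    linarith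
  · filter_upwards [hev hz, self_mem_nhdsWithin] with r' h1 hr'
    have hc := HS.e a i hi ⟨_, ⟨_, hF (hmem hr), rfl⟩, B.E_subset i (interior_subset hz)⟩
    have h2 := norm_e HΦ hμ h1 (interior_subset hz) le_rfl (abs_nonneg _)
    have h3 := hcost _ (R.e_pos i) hc r' hr'
    have h4 := ht0 r hr _ (R.e_pos i) hc
    have h5 := mul_le_of_le_one_left
      (abs_nonneg (onSeg f e r' (K.dir i) - onSeg f e r (K.dir i))) hμ1
    have h6 := mul_le_mul_of_nonneg_right ht (abs_nonneg (r' - r))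
    have h7 := mul_nonneg h4 (abs_nonneg (r' - r))
    have h8 := abs_nonneg (onSeg f e r' (K.dir i) - onSeg f e r (K.dir i))
    refine (hco _ _).trans (h2.trans ?_)
    linarith
  · filter_upwards [hev hz, self_mem_nhdsWithin] with r' h1 hr'
    have hc := HS.v a i hi ⟨_, ⟨_, hF (hmem hr), rfl⟩, interior_subset hz⟩
    have h2 := norm_v HΦ h1 (interior_subset hz)
    have h3 := hcost _ (R.v_pos i) hc r' hr'
    have h4 := ht0 r hr _ (R.v_pos i) hc
    have h6 := mul_le_mul_of_nonneg_right ht (abs_nonneg (r' - r))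
    have h7 := mul_nonneg h4 (abs_nonneg (r' - r))
    refine (hco _ _).trans (h2.trans ?_)
    linarith

/-- **(edge)**, pointwise form -/
theorem EdgeV.len_le {h f : V → V} {D₀ w : ℝ} {e : (edges M).ε} (H : EdgeV B X h f D₀ w e)
    (HS : Small3 W X R f F N t) (HΦ : IsSoft B μ R Φ) (hμ : 0 ≤ μ) (hμ1 : μ ≤ 1)
    (hF : (edges M).seg e ⊆ F a) (hf : ContinuousOn f ((edges M).seg e)) (ht : t a ≤ w) :
    len (onSeg (fun x => Φ.toFun (f x)) ((edges M).a e, (edges M).b e)) (Icc 0 1) ≤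
      6 * (ENNReal.ofReal D₀ * len (onSeg h ((edges M).a e, (edges M).b e)) (Icc 0 1) +
        ENNReal.ofReal w) := by
  refine (len_le_var _ _).trans ((mul_le_mul_right (var_le_sum _ _) _).trans ?_)
  have h1 : ∀ j : Fin 3, eVariationOn (fun r => onSeg (fun x => Φ.toFun (f x))
      ((edges M).a e, (edges M).b e) r j) (Icc 0 1) ≤
      ENNReal.ofReal D₀ * len (onSeg h ((edges M).a e, (edges M).b e)) (Icc 0 1) +
        ENNReal.ofReal w := fun j =>
    H (fun r => Φ.toFun (onSeg f ((edges M).a e, (edges M).b e) r) j) fun r hr =>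
      gAt_soft (e := ((edges M).a e, (edges M).b e)) HS HΦ hμ hμ1 hF hf ht j hr
  calc 2 * ∑ j, eVariationOn (fun r => onSeg (fun x => Φ.toFun (f x))
        ((edges M).a e, (edges M).b e) r j) (Icc 0 1)
      ≤ 2 * ∑ _j : Fin 3, (ENNReal.ofReal D₀ *
          len (onSeg h ((edges M).a e, (edges M).b e)) (Icc 0 1) + ENNReal.ofReal w) :=
        mul_le_mul_right (Finset.sum_le_sum fun j _ => h1 j) _
    _ = _ := by
        rw [Finset.sum_const, Finset.card_univ, Fintype.card_fin, nsmul_eq_mul, ← mul_assoc]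
        norm_num

/-- the field `edge` of `Last3` from `EdgeOK4` -/
theorem EdgeOK4.ev {P : Set M.ι} {h f : V → V} {D₀ w : ℝ} {e : (edges M).ε} {k : M.κ}
    (H : EdgeOK4 B X P h f D₀ w e) (hD₀ : 0 ≤ D₀) (hw : 0 < w) (hμ : 0 ≤ μ) (hμ1 : μ ≤ 1)
    (hf : ContinuousOn f ((edges M).seg e)) (hF : (edges M).seg e ⊆ M.F k) :
    (∃ i ∈ P, (edges M).seg e ⊆ M.Q i) ∨ Ev B X μ M f (.inl k) (EdgeEst h f D₀ w e) := by
  by_cases hP : ∃ i ∈ P, (edges M).seg e ⊆ M.Q i
  · exact Or.inl hP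
  · refine Or.inr ⟨w, hw, fun R N t Φ h0 ht HS HΦ => ?_⟩
    have he' : (edges M).seg e ⊆ FQ M (.inl k) := hF
    unfold EdgeEst
    rcases H with h1 | h1 | h1
    · exact absurd h1 hP
    · refine (len_le_of_lip (h := h) (c := 4) (by norm_num) fun x hx y hy => ?_).trans ?_
      · refine (HΦ.lip _ _).trans ?_
        rw [h1 hx, h1 hy]
      · refine le_add_right (mul_le_mul_left (ENNReal.ofReal_le_ofReal ?_) _)
        linarith
    · have e6 : (6 : ℝ≥0∞) = ENNReal.ofReal 6 := by norm_num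
      refine (h1.len_le HS HΦ hμ hμ1 he' hf ht).trans ?_
      rw [mul_add, ← mul_assoc, e6, ← ENNReal.ofReal_mul (by norm_num),
        ← ENNReal.ofReal_mul (by norm_num)]
      refine add_le_add (mul_le_mul_left (ENNReal.ofReal_le_ofReal ?_) _)
        (ENNReal.ofReal_le_ofReal ?_)
      · linarith
      · linarith

/-- **(edge)** -/
theorem EdgeOK4.len_le {P : Set M.ι} {h f : V → V} {D₀ D₁ w : ℝ} {e : (edges M).ε}
    (H : EdgeOK4 B X P h f D₀ w e) (hD₀ : 0 ≤ D₀) (hD₁ : 0 ≤ D₁) (hw : 0 ≤ w)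
    (hprot : ∀ i ∈ P, ∀ x ∈ M.Q i, ∀ y ∈ M.Q i, ‖f x - f y‖ ≤ D₁ * ‖h x - h y‖)
    (HS : Small3 W X R f F N t) (HΦ : IsSoft B μ R Φ) (hμ : 0 ≤ μ) (hμ1 : μ ≤ 1)
    (hF : (edges M).seg e ⊆ F a) (hf : ContinuousOn f ((edges M).seg e)) (ht : t a ≤ w) :
    len (onSeg (fun x => Φ.toFun (f x)) ((edges M).a e, (edges M).b e)) (Icc 0 1) ≤
      ENNReal.ofReal (8 * (1 + D₀ + D₁)) *
        len (onSeg h ((edges M).a e, (edges M).b e)) (Icc 0 1) + ENNReal.ofReal (10 * w) := by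
  have e6 : (6 : ℝ≥0∞) = ENNReal.ofReal 6 := by norm_num
  rcases H with ⟨i, hi, h1⟩ | h1 | h1
  · refine (len_le_of_lip (h := h) (c := 4 * D₁) (by positivity) fun x hx y hy => ?_).trans ?_
    · refine (HΦ.lip _ _).trans ?_
      have := hprot i hi x (h1 hx) y (h1 hy)
      linarith
    · refine le_add_right (mul_le_mul_left (ENNReal.ofReal_le_ofReal ?_) _)
      linarith
  · refine (len_le_of_lip (h := h) (c := 4) (by norm_num) fun x hx y hy => ?_).trans ?_
    · refine (HΦ.lip _ _).trans ?_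
      rw [h1 hx, h1 hy]
    · refine le_add_right (mul_le_mul_left (ENNReal.ofReal_le_ofReal ?_) _)
      linarith
  · refine (h1.len_le HS HΦ hμ hμ1 hF hf ht).trans ?_
    rw [mul_add, ← mul_assoc, e6, ← ENNReal.ofReal_mul (by norm_num),
      ← ENNReal.ofReal_mul (by norm_num)]
    refine add_le_add (mul_le_mul_left (ENNReal.ofReal_le_ofReal ?_) _)
      (ENNReal.ofReal_le_ofReal ?_)
    · linarith
    · linarith

end Vale.Agent.P073.H228
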