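import Vale.Agent.P073.H228.EdgeP3
import Vale.Agent.P073.H228.EdgeP4
import Vale.Agent.P073.H228.EdgeV
import Vale.Agent.P073.H142.FaceT
import Vale.Agent.P073.H142.Lat3
import Vale.Agent.P073.H190.TwoP
import Vale.Agent.P073.H190.NumP3

/-!
# P073, block H228, [EDGE-P], part 5a

* `MvW`: moves in the plates which respect the windows;
* `near_inl`, `near_inr`: points near the boxes of round T;
* `PRes`: the local estimates for the map before the tube layer; `PRes.final`: after it;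
* `gAt_latC`: `GAt` and `LAtC` give the local estimate of the function on the edge.
-/

open Set Metric Topology Filter
open scoped ENNReal

set_option linter.unusedSectionVars false

namespace P073.H228.EP

open P073 P073.Net P073.PA691 P073.H142 P073.H345 P073.H236 P073.H579
open Vale.Agent.P073.St (V)
open Vale.Agent.P073.H471 Vale.Agent.P073.H267 Vale.Agent.P073.H267.Geo
open Vale.Agent.P073.H233 (PSet)
open Vale.Agent.P073.H193 (LAtC)
open Vale.Agent.P073.H228 (GAt)
open Vale.Agent.P073.H73 (Mesh onSeg)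
open Vale.Agent.P073.H926 (PX PX_sub_ss PX_of_near)

/-! ### moves which respect the windows -/

section mv

variable {Λ : Set V} {v : V} {K : BoxCx Λ v} {S : Rad K} {W : Wid K S} {B : Boxes W}
  {G : Geo B} {S₀ : Set K.S} {y y' y'' : V}

/-- the fattened windows -/
def Fat (Xw : K.S → Bool → Set (ℝ × ℝ)) (s : K.S) (β : Bool) (ρ : ℝ) : Set ℝ :=
  {t | ∃ p ∈ Xw s β, t ∈ Icc (p.1 - ρ) (p.2 + ρ)}

theorem Fat.mono {Xw : K.S → Bool → Set (ℝ × ℝ)} {s : K.S} {β : Bool} {ρ ρ' : ℝ} (h : ρ ≤ ρ') :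
    Fat Xw s β ρ ⊆ Fat Xw s β ρ' := by
  rintro t ⟨p, hp, h1, h2⟩
  exact ⟨p, hp, by linarith, by linarith⟩

theorem Fat.add {Xw : K.S → Bool → Set (ℝ × ℝ)} {s : K.S} {β : Bool} {ρ η t t' : ℝ}
    (h : t ∈ Fat Xw s β ρ) (ht : |t' - t| ≤ η) : t' ∈ Fat Xw s β (ρ + η) := by
  obtain ⟨p, hp, h1, h2⟩ := h
  have h3 := abs_le.1 ht
  exact ⟨p, hp, by linarith, by linarith⟩

/-- `y'` is `y`, or both points are in the support of the same processed square; the normal
coordinate is the same; each tangential coordinate is the same or in the window for both, moves by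
at most `d s`, and leaves the fattened windows by at most `η s` -/
def MvB (G : Geo B) (S₀ : Set K.S) (Xw : K.S → Bool → Set (ℝ × ℝ)) (d η : K.S → ℝ)
    (y y' : V) : Prop :=
  y' = y ∨ ∃ s ∈ S₀, y ∈ PK G s ∧ y' ∈ PK G s ∧ y' (K.nrm s) = y (K.nrm s) ∧ ∀ β,
    (y' (tg s β) = y (tg s β) ∨
      (y (tg s β) ∈ pwin G s (tg s β) ∧ y' (tg s β) ∈ pwin G s (tg s β))) ∧
    |y' (tg s β) - y (tg s β)| ≤ d s ∧
    ∀ ρ, 0 ≤ ρ → y (tg s β) ∈ Fat Xw s β ρ → y' (tg s β) ∈ Fat Xw s β (ρ + η s)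

variable {Xw : K.S → Bool → Set (ℝ × ℝ)} {d η d' η' : K.S → ℝ}

theorem MvB.refl (y : V) : MvB G S₀ Xw d η y y := Or.inl rfl

theorem MvB.mono (h : MvB G S₀ Xw d η y y') (hd : ∀ s, d s ≤ d' s) (hη : ∀ s, η s ≤ η' s) :
    MvB G S₀ Xw d' η' y y' := by
  rcases h with h | ⟨s, hs, h1, h2, h3, h4⟩
  · exact Or.inl h
  · refine Or.inr ⟨s, hs, h1, h2, h3, fun β => ?_⟩
    obtain ⟨h5, h6, h7⟩ := h4 β
    exact ⟨h5, h6.trans (hd s), fun ρ h0 h2 => Fat.mono (by linarith [hη s]) (h7 ρ h0 h2)⟩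

theorem MvB.trans (h : MvB G S₀ Xw d η y y') (h' : MvB G S₀ Xw d' η' y' y'')
    (hd : ∀ s, 0 ≤ d s) (hη : ∀ s, 0 ≤ η s) (hd' : ∀ s, 0 ≤ d' s) (hη' : ∀ s, 0 ≤ η' s) :
    MvB G S₀ Xw (fun s => d s + d' s) (fun s => η s + η' s) y y'' := by
  rcases h with rfl | ⟨s, hs, h1, h2, h3, h4⟩
  · exact h'.mono (fun s => by linarith [hd s]) (fun s => by linarith [hη s])
  · rcases h' with rfl | ⟨s', hs', h5, h6, h7, h8⟩
    · exact MvB.mono (Or.inr ⟨s, hs, h1, h2, h3, h4⟩) (fun s => by linarith [hd' s])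
        (fun s => by linarith [hη' s])
    · obtain rfl := PK_unique h2 h5
      refine Or.inr ⟨s, hs, h1, h6, h7.trans h3, fun β => ?_⟩
      obtain ⟨a1, a2, a3⟩ := h4 β
      obtain ⟨b1, b2, b3⟩ := h8 β
      refine ⟨?_, ?_, fun ρ r0 r2 => ?_⟩
      · rcases a1 with h | ⟨h, h'⟩
        · rcases b1 with k | ⟨k, k'⟩
          · exact Or.inl (k.trans h)
          · exact Or.inr ⟨by rw [← h]; exact k, k'⟩
        · rcases b1 with k | ⟨k, k'⟩
          · exact Or.inr ⟨h, by rw [k]; exact h'⟩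
          · exact Or.inr ⟨h, k'⟩
      · have := abs_sub_le (y'' (tg s β)) (y' (tg s β)) (y (tg s β))
        linarith
      · have k1 := hη s
        have k4 := b3 (ρ + η s) (by linarith) (a3 ρ r0 r2)
        rwa [add_assoc] at k4

theorem MvB.pk (h : MvB G S₀ Xw d η y y') {s : K.S} (hs : y' ∈ PK G s) : y ∈ PK G s := by
  rcases h with rfl | ⟨s', _, h1, h2, _⟩
  · exact hs
  · obtain rfl := PK_unique hs h2
    exact h1

theorem MvB.pk' (h : MvB G S₀ Xw d η y y') {s : K.S} (hs : y ∈ PK G s) : y' ∈ PK G s := by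
  rcases h with rfl | ⟨s', _, h1, h2, _⟩
  · exact hs
  · obtain rfl := PK_unique hs h1
    exact h2

/-- the data at a point of a support -/
theorem MvB.at (h : MvB G S₀ Xw d η y y') {s : K.S} (hs : y ∈ PK G s) (hd : 0 ≤ d s)
    (hη : 0 ≤ η s) : y' (K.nrm s) = y (K.nrm s) ∧ ∀ β,
    (y' (tg s β) = y (tg s β) ∨
      (y (tg s β) ∈ pwin G s (tg s β) ∧ y' (tg s β) ∈ pwin G s (tg s β))) ∧
    |y' (tg s β) - y (tg s β)| ≤ d s ∧
    ∀ ρ, 0 ≤ ρ → y (tg s β) ∈ Fat Xw s β ρ → y' (tg s β) ∈ Fat Xw s β (ρ + η s) := by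
  rcases h with rfl | ⟨s', _, h1, _, h3, h4⟩
  · refine ⟨rfl, fun β => ⟨Or.inl rfl, by rw [sub_self, abs_zero]; exact hd,
      fun ρ _ h => Fat.mono (by linarith) h⟩⟩
  · obtain rfl := PK_unique hs h1
    exact ⟨h3, h4⟩

/-- maps supported in the boxes of one family -/
theorem MvB.of_K {L : PLev G} {β : Bool} {Kf : S₀ → Set V} (hK : ∀ s, Kf s ⊆ (L.bx β s.1).K)
    {f : V → V} (hm : ∀ s, y ∈ Kf s → f y ∈ Kf s)
    (hne : ∀ s, y ∈ Kf s → ∀ i, i ≠ tg s.1 β → f y i = y i)
    (ho : (∀ s, y ∉ Kf s) → f y = y) (hd : ∀ s, 0 ≤ d s) (hη : ∀ s, 0 ≤ η s)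
    (hdis : ∀ s, y ∈ Kf s → |f y (tg s.1 β) - y (tg s.1 β)| ≤ d s.1)
    (hhull : ∀ s, y ∈ Kf s → ∀ ρ, 0 ≤ ρ → y (tg s.1 β) ∈ Fat Xw s.1 β ρ →
      f y (tg s.1 β) ∈ Fat Xw s.1 β (ρ + η s.1)) :
    MvB G S₀ Xw d η y (f y) := by
  by_cases h : ∃ s, y ∈ Kf s
  · obtain ⟨s, hs⟩ := h
    have h1 := PLev.mem_bxK.1 (hK s hs)
    have h2 := PLev.mem_bxK.1 (hK s (hm s hs))
    refine Or.inr ⟨s.1, s.2, h1.1, h2.1, hne s hs _ (tg_ne s.1 β).symm, fun β' => ?_⟩
    by_cases hb : β' = β
    · subst hb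
      exact ⟨Or.inr ⟨⟨h1.2.1, h1.2.2⟩, ⟨h2.2.1, h2.2.2⟩⟩, hdis s hs, hhull s hs⟩
    · have e : f y (tg s.1 β') = y (tg s.1 β') := hne s hs _ fun hh => by
        have := congrArg (bt s.1) hh
        rw [bt_tg, bt_tg] at this
        exact hb this
      refine ⟨Or.inl e, by rw [e, sub_self, abs_zero]; exact hd s.1, fun ρ _ h => ?_⟩
      have := hη s.1
      rw [e]
      exact Fat.mono (by linarith) h
  · exact Or.inl (ho fun s hs => h ⟨s, hs⟩)

variable {L : PLev G}

/-- maps with small displacement -/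
theorem MvB.of_small {L : PLev G} {β : Bool} {Kf : S₀ → Set V}
    (hK : ∀ s, Kf s ⊆ (L.bx β s.1).K)
    {f : V → V} (hm : ∀ s, y ∈ Kf s → f y ∈ Kf s)
    (hne : ∀ s, y ∈ Kf s → ∀ i, i ≠ tg s.1 β → f y i = y i)
    (ho : (∀ s, y ∉ Kf s) → f y = y) (hη : ∀ s, 0 ≤ η s)
    (hdis : ∀ s, y ∈ Kf s → |f y (tg s.1 β) - y (tg s.1 β)| ≤ η s.1) :
    MvB G S₀ Xw η η y (f y) :=
  MvB.of_K hK hm hne ho hη hη hdis fun s hs _ _ h => Fat.add h (hdis s hs)

/-- the inverse of a map with small displacement -/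
theorem MvB.symm_small (h : MvB G S₀ Xw η η y y') : MvB G S₀ Xw η η y' y := by
  rcases h with h | ⟨s, hs, h1, h2, h3, h4⟩
  · exact Or.inl h.symm
  · refine Or.inr ⟨s, hs, h2, h1, h3.symm, fun β => ?_⟩
    obtain ⟨h5, h6, h7⟩ := h4 β
    refine ⟨?_, by rw [abs_sub_comm]; exact h6, fun ρ _ hp => ?_⟩
    · rcases h5 with h | ⟨h, h'⟩
      · exact Or.inl h.symm
      · exact Or.inr ⟨h', h⟩
    · exact Fat.add hp (by rw [abs_sub_comm]; exact h6)

theorem mvB_sg3 {F : Bool → BFam 3 S₀ Λ} {ς : Bool → S₀ → ℝ} {T : Bool → ConHomeo Λ Λ}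
    (P : P073.H880.RP.Sg3 L S₀ F ς T) (hη : ∀ s, 0 ≤ η s)
    (he : ∀ β (s : S₀), (F β).e s ≤ η s.1) (y : V) :
    MvB G S₀ Xw (fun s => η s + η s) (fun s => η s + η s) y (PS.map T y) := by
  have key : ∀ β y, MvB G S₀ Xw η η y ((T β).toFun y) := fun β y =>
    MvB.of_small (L := L) (Kf := fun s : S₀ => ((F β).B s).K) (fun s => (P.B β s).sub_K)
      (fun _ hs => (P.isS β).mem hs)
      (fun s hs i hi => by
        rw [(P.isS β).on s y hs]
        refine H228.gB_ne ?_ y
        rw [(P.B β s).j]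
        exact hi) (fun ho => (P.isS β).off y ho) hη fun s hs => by
        have h6 := norm_le_pi_norm ((T β).toFun y - y) (tg s.1 β)
        rw [Pi.sub_apply, Real.norm_eq_abs] at h6
        exact h6.trans (((P.isS β).norm_sub_le hs).trans (he β s))
  exact (key false y).trans (key true _) hη hη hη hη

/-- the maps of the insertion -/
theorem mvB_isQ {κ : Bool → V → V} (hκ : ∀ β, IsQ (fun s : S₀ => L.bx β s.1) (κ β))
    (hη : ∀ s, 0 ≤ η s) (hc : ∀ β (s : S₀), 4 * L.c s.1 β ≤ η s.1) (y : V) :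
    MvB G S₀ Xw (fun s => η s + η s) (fun s => η s + η s) y (κ true (κ false y)) := by
  have key : ∀ β y, MvB G S₀ Xw η η y (κ β y) := fun β y =>
    MvB.of_small (L := L) (Kf := fun s : S₀ => (L.bx β s.1).K) (fun s => subset_rfl)
      (fun _ hs => (hκ β).mapsK hs)
      (fun s hs i hi => by
        rw [(hκ β).on s y hs]
        exact (L.bx β s.1).Q_ne hi y) (fun ho => (hκ β).off y ho) hη fun s hs => by
        have h1 := hc β s
        have h2 := (L.lvs s.1 β).c0
        rw [(hκ β).on s y hs]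
        change |(L.bx β s.1).Q y (L.bx β s.1).j - y (L.bx β s.1).j| ≤ _
        by_cases h : ∃ k < (L.bx β s.1).N, |y (L.bx β s.1).j - (L.bx β s.1).a k| <
            2 * (L.bx β s.1).c
        · obtain ⟨k, hk, h3⟩ := h
          have h4 := H345.Q_mem_cell (L.bx β s.1) hk h3
          have e : (L.bx β s.1).c = L.c s.1 β := rfl
          rw [e] at h3 h4
          have h5 := abs_lt.1 h3
          have h6 := abs_lt.1 h4
          rw [abs_le]
          constructor <;> linarith
        · push Not at h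
          rw [H345.Q_eq_self (L.bx β s.1) h, sub_self, abs_zero]
          exact hη s.1
  exact (key false y).trans (key true _) hη hη hη hη

/-- the two-stage staircases -/
theorem mvB_PT2 {F : Bool → BFam 3 S₀ Λ} {μ : Bool → S₀ → ℝ} {T : Bool → ConHomeo Λ Λ}
    (P : P073.H190.PT2 L S₀ F μ T) (hd : ∀ s, 0 ≤ d s) (hη : ∀ s, 0 ≤ η s)
    (hD : ∀ β (s : S₀), (F β).D s ≤ d s.1)
    (hw : ∀ β (s : S₀), ∀ p ∈ Xw s.1 β,
      |(F β).σ s p.1 - p.1| ≤ η s.1 ∧ |(F β).σ s p.2 - p.2| ≤ η s.1)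
    (ho : ∀ β (s : S₀) t, t ∉ Fat Xw s.1 β 0 → |(F β).σ s t - t| ≤ η s.1)
    (y : V) : MvB G S₀ Xw (fun s => d s + d s) (fun s => η s + η s) y (PS.map T y) := by
  have key : ∀ β y, MvB G S₀ Xw d η y ((T β).toFun y) := fun β y =>
    MvB.of_K (L := L) (Kf := fun s : S₀ => ((F β).B s).K) (fun s => (P.B β s).sub_K)
      (fun s hs => (P.isS β).mem (P.μ0 β s) hs)
      (fun s hs i hi => (P.isS β).ne hs (by rw [(P.B β s).j]; exact hi))
      (fun ho => (P.isS β).off y ho) hd hη (fun s hs => by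
        have h6 := norm_le_pi_norm ((T β).toFun y - y) (tg s.1 β)
        rw [Pi.sub_apply, Real.norm_eq_abs] at h6
        exact h6.trans (((P.isS β).norm_sub_le (P.μ0 β s) (P.μD β s) hs).trans (hD β s)))
      fun s hs ρ h0 h2 => by
        have e : (T β).toFun y (tg s.1 β) =
            H236.cl ((F β).σ s) (P073.H190.hgt2 (F β) (μ β) s y) (y (tg s.1 β)) := by
          have hj : ((F β).B s).j = tg s.1 β := (P.B β s).j
          rw [← hj]
          exact (P.isS β).same hs
        have h6 := cl_mem_uIcc (k := (F β).σ s) (t := y (tg s.1 β))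
          (P073.H190.hgt2_nonneg (F := F β) (P.μ0 β s) y)
        rw [← e] at h6
        by_cases hin : y (tg s.1 β) ∈ Fat Xw s.1 β 0
        · obtain ⟨p, hp, h7, h8⟩ := hin
          obtain ⟨h4, h5⟩ := hw β s p hp
          have hm := ((F β).σ_strictMono s).monotone
          have h7' := hm (show p.1 ≤ y (tg s.1 β) by linarith)
          have h8' := hm (show y (tg s.1 β) ≤ p.2 by linarith)
          have h4' := abs_le.1 h4
          have h5' := abs_le.1 h5
          refine ⟨p, hp, (uIcc_subset_Icc ?_ ?_) h6⟩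
          · exact ⟨by linarith, by linarith⟩
          · exact ⟨by linarith, by linarith⟩
        · refine Fat.add h2 ?_
          have h9 := ho β s _ hin
          have h10 := abs_le.1 h9
          rcases le_total (y (tg s.1 β)) ((F β).σ s (y (tg s.1 β))) with h11 | h11
          · rw [uIcc_of_le h11] at h6
            rw [abs_le]
            constructor <;> linarith [h6.1, h6.2]
          · rw [uIcc_of_ge h11] at h6
            rw [abs_le]
            constructor <;> linarith [h6.1, h6.2]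
  exact (key false y).trans (key true _) hd hη hd hη

end mv

/-! ### points near the boxes of round T -/

section near

variable {Λ : Set V} {v : V} {K : BoxCx Λ v} {S : Rad K} {W : Wid K S} {B : Boxes W}
  {G : Geo B} {y z : V}

/-- in the tube around an edge -/
theorem tube_inl (G : Geo B) {e : K.G} (hlat : ∀ k, k ≠ K.dir e → |y k - K.w (K.a e) k| ≤ 3 / 2 * G.lam e)
    (h1 : K.w (K.a e) (K.dir e) < y (K.dir e)) (h2 : y (K.dir e) < K.w (K.b e) (K.dir e)) :
    (y ∈ interior (B.E e) ∧ K.w (K.a e) (K.dir e) + 3 / 4 * W.wv (K.a e) ≤ y (K.dir e) ∧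
      y (K.dir e) ≤ K.w (K.b e) (K.dir e) - 3 / 4 * W.wv (K.b e)) ∨
      y ∈ interior (Zv W (K.a e)) ∨ y ∈ interior (Zv W (K.b e)) := by
  have hl := G.lam_pos e
  have hlT := G.lam_T e
  have hT := B.T_pos e
  have hTa := B.T_le_a e
  have hTb := B.T_le_b e
  have hwa := W.wv_pos (K.a e)
  have hwb := W.wv_pos (K.b e)
  by_cases ha : y (K.dir e) < K.w (K.a e) (K.dir e) + 3 / 4 * W.wv (K.a e)
  · right; left
    refine mem_interior.2 ⟨ball (K.w (K.a e)) (W.wv (K.a e)), ball_subset_closedBall,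
      isOpen_ball, ?_⟩
    rw [mem_ball, dist_pi_lt_iff hwa]
    intro k
    rw [Real.dist_eq, abs_lt]
    by_cases hk : k = K.dir e
    · subst hk
      constructor <;> linarith
    · have := abs_le.1 (hlat k hk)
      constructor <;> linarith [this.1, this.2]
  by_cases hb : K.w (K.b e) (K.dir e) - 3 / 4 * W.wv (K.b e) < y (K.dir e)
  · right; right
    refine mem_interior.2 ⟨ball (K.w (K.b e)) (W.wv (K.b e)), ball_subset_closedBall,
      isOpen_ball, ?_⟩
    rw [mem_ball, dist_pi_lt_iff hwb]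
    intro k
    rw [Real.dist_eq, abs_lt]
    by_cases hk : k = K.dir e
    · subst hk
      constructor <;> linarith
    · have := abs_le.1 (hlat k hk)
      rw [← wab K e hk]
      constructor <;> linarith [this.1, this.2]
  left
  push Not at ha hb
  have hT4 : (0:ℝ) < B.T e / 4 := by linarith
  refine ⟨mem_interior.2 ⟨ball y (B.T e / 4), fun z hz => ?_, isOpen_ball, mem_ball_self hT4⟩,
    ha, hb⟩
  have hc : ∀ k, |z k - y k| ≤ B.T e / 4 := fun k => by
    have h5 := dist_le_pi_dist z y k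
    rw [Real.dist_eq] at h5
    exact h5.trans (mem_ball.1 hz).le
  refine ⟨?_, fun k hk => ?_⟩
  · have := abs_le.1 (hc (K.dir e))
    constructor <;> linarith [this.1, this.2]
  · have h6 := abs_le.1 (hc k)
    have h7 := abs_le.1 (hlat k hk)
    rw [abs_le]
    constructor <;> linarith [h6.1, h6.2, h7.1, h7.2]

/-- near a box around an edge: the coordinate along the edge may move more -/
theorem near_inl' {e : K.G} (hz : z ∈ G.TB false (.inl e))
    (hyz : ∀ k, k ≠ K.dir e → |y k - z k| ≤ G.lam e / 2)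
    (ha : |y (K.dir e) - z (K.dir e)| ≤ G.be (K.a e) / 4)
    (hb : |y (K.dir e) - z (K.dir e)| ≤ G.be (K.b e) / 4) :
    y ∈ Ze W e ∧ (∀ k, k ≠ K.dir e → |y k - K.w (K.a e) k| ≤ 3 / 2 * G.lam e) ∧
    K.w (K.a e) (K.dir e) < y (K.dir e) ∧ y (K.dir e) < K.w (K.b e) (K.dir e) := by
  rw [Geo.mem_inl] at hz
  simp only [Bool.false_eq_true, if_false] at hz
  obtain ⟨⟨h1, h2⟩, h3⟩ := hz
  have hl := G.lam_pos e
  have hlT := G.lam_T e
  have hla := G.lam_a e
  have hlb := G.lam_b e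
  have hda := abs_le.1 ha
  have hdb := abs_le.1 hb
  have hlat : ∀ k, k ≠ K.dir e → |y k - K.w (K.a e) k| ≤ 3 / 2 * G.lam e := by
    intro k hk
    have h4 := abs_le.1 (hyz k hk)
    have h5 := abs_le.1 (h3 k hk)
    rw [abs_le]
    constructor <;> linarith
  refine ⟨?_, hlat, by linarith, by linarith⟩
  have h1 : 3 / 2 * G.lam e ≤ W.ae e y := by
    refine le_marg ?_ fun k hk => ?_
    · have := B.T_le e
      linarith
    · have hk' : k = K.dir e := by by_contra h; exact hk (mem_Je.2 h)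
      subst hk'
      constructor <;> linarith
  exact ⟨by linarith, fun k hk => (hlat k hk).trans h1⟩

/-- near a box around an edge -/
theorem near_inl {e : K.G} (hz : z ∈ G.TB false (.inl e)) {m : ℝ} (hm : m ≤ G.lam e / 2)
    (hyz : ∀ k, |y k - z k| ≤ m) :
    y ∈ Ze W e ∧ (∀ k, k ≠ K.dir e → |y k - K.w (K.a e) k| ≤ 3 / 2 * G.lam e) ∧
    K.w (K.a e) (K.dir e) < y (K.dir e) ∧ y (K.dir e) < K.w (K.b e) (K.dir e) := by
  have hl := G.lam_pos e
  have hla := G.lam_a e
  have hlb := G.lam_b e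
  exact near_inl' hz (fun k _ => (hyz k).trans hm) ((hyz _).trans (by linarith))
    ((hyz _).trans (by linarith))

/-- in the tube around an edge: in the box of the edge, or only in the zone of an end -/
theorem tube_E (G : Geo B) {e : K.G} (hZ : y ∈ Ze W e)
    (hlat : ∀ k, k ≠ K.dir e → |y k - K.w (K.a e) k| ≤ 3 / 2 * G.lam e)
    (h1 : K.w (K.a e) (K.dir e) < y (K.dir e)) (h2 : y (K.dir e) < K.w (K.b e) (K.dir e)) :
    ((y ∈ interior (Zv W (K.a e)) ∨ y ∈ interior (Zv W (K.b e))) ∧ ∀ e', y ∉ B.E e') ∨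
    (y ∈ B.E e ∧
      (y ∈ interior (B.E e) ∨ y ∈ interior (Zv W (K.a e)) ∨ y ∈ interior (Zv W (K.b e)))) := by
  by_cases hE : y ∈ B.E e
  · right
    refine ⟨hE, ?_⟩
    rcases tube_inl G hlat h1 h2 with ⟨h, -⟩ | h | h
    · exact Or.inl h
    · exact Or.inr (Or.inl h)
    · exact Or.inr (Or.inr h)
  · left
    refine ⟨?_, fun e' he' => ?_⟩
    · rcases tube_inl G hlat h1 h2 with ⟨h, -⟩ | h | h
      · exact absurd (interior_subset h) hE
      · exact Or.inl h
      · exact Or.inr h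
    · by_cases hee : e' = e
      · exact hE (hee ▸ he')
      · exact (disjoint_se (W := W) hee).notMem_of_mem_left (Ze_subset (B.E_subset e' he'))
          (Ze_subset hZ)

/-- near a box at a hanging vertex -/
theorem near_inr {h : Hang K} (hz : z ∈ G.TB false (.inr h)) {m : ℝ} (hm : m ≤ G.be h.i)
    (hyz : ∀ k, |y k - z k| ≤ m) : y ∈ interior (Zv W h.i) ∧ ∀ e, y ∉ B.E e := by
  have h1 := TB_inr_ball h hz
  have h2 := G.be_wv h.i
  have h3 := G.be_pos h.i
  have hwr := W.wv_le h.i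
  have hr0 := S.r_pos h.i
  rw [mem_closedBall, dist_pi_le_iff h3.le] at h1
  have hc : ∀ k, |y k - K.w h.i k| ≤ 2 * G.be h.i := fun k => by
    have h4 := h1 k
    rw [Real.dist_eq] at h4
    have h5 := abs_sub_le (y k) (z k) (K.w h.i k)
    have h6 := hyz k
    linarith
  constructor
  · refine mem_interior.2 ⟨ball (K.w h.i) (W.wv h.i), ball_subset_closedBall, isOpen_ball, ?_⟩
    rw [mem_ball, dist_pi_lt_iff (by linarith)]
    intro k
    rw [Real.dist_eq]
    have := hc k
    linarith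
  · intro e he
    have h4 : h.i = K.a e ∨ h.i = K.b e := by
      refine S.U_edge h.i e y ?_ ?_
      · rw [mem_closedBall, dist_pi_le_iff (by linarith)]
        intro k
        rw [Real.dist_eq]
        have := hc k
        linarith
      · have hTe := B.T_le e
        have hwe := W.we_le e
        have hq := S.q_pos e
        intro k
        by_cases hk : k = K.dir e
        · subst hk
          have h7 := he.1
          have h8 := W.wv_pos (K.a e)
          have h9 := W.wv_pos (K.b e)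
          constructor <;> linarith
        · have h7 := abs_le.1 (he.2 k hk)
          have h8 := K.ab_off e k hk
          constructor <;> linarith
    have h5 := abs_le.1 (hc (K.dir e))
    have h6 := he.1
    rcases h4 with h4 | h4
    · rw [h4] at h5 h2 h3
      have := h6.1
      linarith
    · rw [h4] at h5 h2 h3
      have := h6.2
      linarith

/-- **the zones at a point `y` of a plate which comes from a point `q` near a box of round T** -/
theorem zone_B {s : K.S} {q : V} (hq : q ∈ PK G s) (hzq : ‖z - q‖ ≤ 6 * G.oS s) {b : TBx K}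
    (hb : z ∈ G.TB false b) (hn : y (K.nrm s) = q (K.nrm s))
    (hw : ∀ β, y (tg s β) = q (tg s β) ∨
      (q (tg s β) ∈ pwin G s (tg s β) ∧ y (tg s β) ∈ pwin G s (tg s β)))
    {d : ℝ} (hd : ∀ β, |y (tg s β) - q (tg s β)| ≤ d) (hd' : ∀ i, K.w i ∈ K.sq s → d ≤ G.be i / 8) :
    ((∃ i, K.w i ∈ K.sq s ∧ y ∈ interior (Zv W i)) ∧ ∀ e, y ∉ B.E e) ∨
    ∃ e, b = .inl e ∧ K.edge e ⊆ K.sq s ∧ q ∈ Ze W e ∧ y ∈ B.E e ∧
      (y ∈ interior (B.E e) ∨ ∃ i, K.w i ∈ K.sq s ∧ y ∈ interior (Zv W i)) ∧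
      (∀ k, k ≠ K.dir e → |y k - K.w (K.a e) k| ≤ 3 / 2 * G.lam e) ∧
      ∀ β, K.dir e ≠ tg s β → q (tg s β) < K.slo s (tg s β) + G.a s ∨
        K.shi s (tg s β) - G.a s < q (tg s β) := by
  have hτ := B.τ_pos s
  have hoS := G.oS_τ s
  have hτp := G.τ_p s
  have hp := Geo.p_pos (G := G) s
  have hpa := Geo.p_a (G := G) s
  have hc : ∀ k, |z k - q k| ≤ 6 * G.oS s := fun k => by
    have h1 := norm_le_pi_norm (z - q) k
    rw [Pi.sub_apply, Real.norm_eq_abs] at h1
    exact h1.trans hzq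
  have hoS0 : 0 ≤ 6 * G.oS s := (norm_nonneg _).trans hzq
  have hd0 : 0 ≤ d := (abs_nonneg _).trans (hd true)
  have hzX : z ∈ PX G s := PX_of_near hq (by linarith)
  have hzs : z ∈ W.ss s := PX_sub_ss s hzX
  have hyq : ∀ k, |y k - q k| ≤ d := by
    intro k
    by_cases hk : k = K.nrm s
    · subst hk
      rw [hn, sub_self, abs_zero]
      exact hd0
    · rw [← tg_bt s hk]
      exact hd _
  rcases b with e | h
  · have hZe := Geo.TB_subset_Ze e hb
    have hes := edge_subset_sq hzs hZe.1 (Ze_nJ hZe)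
    have hda := hd' _ (hes (TM.wa_mem K e))
    have hdb := hd' _ (hes (TM.wb_mem K e))
    have hpu := G.p_uT s e hes
    have hul := G.uT_lam e
    have hla := G.lam_a e
    have hlb := G.lam_b e
    have hba := G.be_a s _ (hes (TM.wa_mem K e))
    have hbb := G.be_a s _ (hes (TM.wb_mem K e))
    have hl := G.lam_pos e
    have h6 : 6 * G.oS s ≤ G.lam e / 2 := by linarith
    have hqZ := (near_inl (y := q) hb h6 fun k => by rw [abs_sub_comm]; exact hc k).1
    have hside : ∀ β, K.dir e ≠ tg s β → q (tg s β) < K.slo s (tg s β) + G.a s ∨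
        K.shi s (tg s β) - G.a s < q (tg s β) := by
      intro β hβ
      have h7 := Vale.Agent.P073.H238.TB_side (G := G) hzs hb (tg_ne s β) hβ
      have h8 := abs_le.1 (hc (tg s β))
      rcases h7 with h7 | h7
      · left; linarith
      · right; linarith
    have hyk : ∀ k, k ≠ K.dir e → y k = q k := by
      intro k hk
      by_cases hkn : k = K.nrm s
      · rw [hkn]; exact hn
      · have hkk := tg_bt s hkn
        rcases hw (bt s k) with h | ⟨h, -⟩
        · rwa [hkk] at h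
        · rw [hkk] at h
          have h9 := hside (bt s k) (by rw [hkk]; exact hk.symm)
          rw [hkk] at h9
          rcases h9 with h9 | h9
          · exact absurd h.1 (not_le.2 h9)
          · exact absurd h.2 (not_le.2 h9)
    have h4 := abs_le.1 (hc (K.dir e))
    have h5 := abs_le.1 (hyq (K.dir e))
    obtain ⟨k1, k2, k3, k4⟩ := near_inl' (y := y) hb (fun k hk => by
        rw [hyk k hk, abs_sub_comm]
        exact (hc k).trans h6)
      (by rw [abs_le]; constructor <;> linarith) (by rw [abs_le]; constructor <;> linarith)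
    rcases tube_E G k1 k2 k3 k4 with ⟨h7, h8⟩ | ⟨h7, h8⟩
    · left
      refine ⟨?_, h8⟩
      rcases h7 with h7 | h7
      · exact ⟨_, hes (TM.wa_mem K e), h7⟩
      · exact ⟨_, hes (TM.wb_mem K e), h7⟩
    · right
      refine ⟨e, rfl, hes, hqZ, h7, ?_, k2, hside⟩
      rcases h8 with h8 | h8 | h8
      · exact Or.inl h8
      · exact Or.inr ⟨_, hes (TM.wa_mem K e), h8⟩
      · exact Or.inr ⟨_, hes (TM.wb_mem K e), h8⟩
  · left
    have hH : h.s = s := by
      by_contra hne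
      exact (disjoint_ss (W := W) hne).notMem_of_mem_left (Zs_subset (Geo.TB_subset_Zs h hb)) hzs
    have hmem : K.w h.i ∈ K.sq s := by rw [← hH]; exact hang_mem h
    have hda := hd' _ hmem
    have h3 := G.be_pos h.i
    have h4 := G.p_be s h.i hmem
    obtain ⟨h7, h8⟩ := near_inr (y := y) hb (m := 6 * G.oS s + d) (by linarith) fun k => by
      have h6 := abs_le.1 (hc k)
      have h7 := abs_le.1 (hyq k)
      rw [abs_le]
      constructor <;> linarith
    exact ⟨⟨h.i, hmem, h7⟩, h8⟩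

end near

end P073.H228.EP
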