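import Vale.Agent.P073.H228.EdgeP5A

/-!
# P073, block H228, [EDGE-P], part 5b

* `PRes`: the local estimates for the map before the tube layer; `PRes.final`: after it;
* `gAt_latC`: `GAt` and `LAtC` give the local estimate of the function on the edge.
-/

open Set Metric Topology Filter
open scoped ENNReal

set_option linter.unusedSectionVars false

namespace P073.H228.EP

open P073 P073.Net P073.PA691 P073.H142 P073.H345 P073.H236 P073.H579 P073.H429 P073.H880
  P073.H936 P073.H936.K3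
open Vale.Agent.P073.St (V)
open Vale.Agent.P073.H471 Vale.Agent.P073.H267 Vale.Agent.P073.H267.Geo
open Vale.Agent.P073.H233 (PSet)
open Vale.Agent.P073.H193 (LAtC)
open Vale.Agent.P073.H228 (GAt)
open Vale.Agent.P073.H73 (Mesh onSeg)

variable {Ω Λ : Set V} {v : V} {K : BoxCx Λ v} {S : Rad K} {W : Wid K S} {B : Boxes W}
  {M : Mesh Ω} {X : PSet K} {Fl : K.G → Fin 3 → ℝ → Prop} {Sv : K.G → Set ℝ} {A : Set V} {x : V}

/-- **the local estimates before the tube layer**, at the point `x`. Either the alive coordinates,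
and in the zones of the edges: the coordinate along the edge, and the other coordinates unless they
are in the full zone; or the point is over a sliver -/
def PRes (B : Boxes W) (X : PSet K) (Fl : K.G → Fin 3 → ℝ → Prop) (Sv : K.G → Set ℝ)
    (cst : V → ℝ) (A : Set V) (f5 : V → V) (x : V) : Prop :=
  (LAtC B X cst A f5 x ∧ ∀ e ∈ X.e, f5 x ∈ B.E e →
    (∀ᶠ y in 𝓝[A] x, |f5 y (K.dir e) - f5 x (K.dir e)| ≤ cst y) ∧
    ∀ i, i ≠ K.dir e → Fl e i (f5 x i) ∨ ∀ᶠ y in 𝓝[A] x, |f5 y i - f5 x i| ≤ cst y) ∨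
  ∃ e ∈ X.e, f5 x ∈ B.E e ∧ f5 x (K.dir e) ∈ Sv e ∧ ∀ i, i ≠ K.dir e → Fl e i (f5 x i)

theorem PRes.mono {c c' : V → ℝ} {f5 : V → V} (H : PRes B X Fl Sv c A f5 x)
    (h : ∀ᶠ y in 𝓝[A] x, c y ≤ c' y) : PRes B X Fl Sv c' A f5 x := by
  rcases H with ⟨H1, H2⟩ | H
  · refine Or.inl ⟨H1.mono h, fun e he hx => ?_⟩
    obtain ⟨h1, h2⟩ := H2 e he hx
    refine ⟨?_, fun i hi => (h2 i hi).imp id fun h3 => ?_⟩
    · filter_upwards [h1, h] with y a b using a.trans b
    · filter_upwards [h3, h] with y a b using a.trans b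
  · exact Or.inr H

section tl

variable {γ : Type} {φ : γ → K.G} {Pb : γ → Set V} {F : HFam 3 γ Λ} {D : Set V}
    {ι : γ → Type} [∀ b, Fintype (ι b)] {l h : ∀ b, ι b → ℝ} {ς : γ → ℝ}
    {f5 h6 : ConHomeo Ω Λ} {Sm : ConHomeo Λ Λ}

/-- a point whose coordinate is at the end of the box is not in the interior -/
theorem not_int_end {b : γ} (H : TLay B φ Pb F D l h ς f5 h6 Sm) {y : V}
    (hy : y (F.X b).j ≤ (F.X b).al ∨ (F.X b).be ≤ y (F.X b).j) : y ∉ interior (Pb b) := by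
  intro hi
  obtain ⟨ε, hε, hb⟩ := Metric.isOpen_iff.1 isOpen_interior y hi
  have key : ∀ t : ℝ, |t| < ε → (F.X b).al ≤ y (F.X b).j + t ∧ y (F.X b).j + t ≤ (F.X b).be := by
    intro t ht
    have h1 : Function.update y (F.X b).j (y (F.X b).j + t) ∈ ball y ε := by
      rw [mem_ball, dist_pi_lt_iff hε]
      intro k
      by_cases hk : k = (F.X b).j
      · subst hk
        rw [Function.update_self, Real.dist_eq, add_sub_cancel_left]
        exact ht
      · rw [Function.update_of_ne hk, dist_self]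
        exact hε
    have h2 := H.PK b (interior_subset (hb h1))
    have h3 := h2.1
    simpa only [Function.update_self] using h3
  rcases hy with hy | hy
  · have := (key (-(ε / 2)) (by rw [abs_neg, abs_of_pos (by linarith)]; linarith)).1
    linarith
  · have := (key (ε / 2) (by rw [abs_of_pos (by linarith)]; linarith)).2
    linarith

/-- **over the gaps of the bands** -/
theorem tlay_est0 (H : TLay B φ Pb F D l h ς f5 h6 Sm) {b : γ} (hA : A ⊆ Ω) (hD : Disjoint A D)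
    (hx : x ∈ A) (hse : f5.toFun x ∈ W.se (φ b))
    (hj : f5.toFun x (F.X b).j ∈ Ioo (F.X b).al (F.X b).be)
    (hi : ∀ i, i ≠ (F.X b).j → f5.toFun x i ∈ Ioo ((F.X b).lo i) ((F.X b).hi i))
    (hg : ∀ i, f5.toFun x (F.X b).j < l b i ∨ h b i < f5.toFun x (F.X b).j) :
    ∀ᶠ x' in 𝓝[A] x, |Sm.toFun (h6.toFun x') (F.X b).j - Sm.toFun (h6.toFun x) (F.X b).j| ≤
      ς b * |h6.toFun x' (F.X b).j - h6.toFun x (F.X b).j| := by
  have hcf : ContinuousWithinAt f5.toFun A x := (f5.cont.mono hA) x hx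
  have hco : ∀ i, Tendsto (fun x' => f5.toFun x' i) (𝓝[A] x) (𝓝 (f5.toFun x i)) := fun i =>
    ((continuous_apply i).tendsto _).comp hcf
  have hBS := H.bs b
  have hk := H.k b
  have hς0 := H.ς0 b
  have hς1 := H.ς1 b
  have e1 : ∀ᶠ x' in 𝓝[A] x, ∀ i, clam (l b i) (h b i) (f5.toFun x' (F.X b).j) =
      clam (l b i) (h b i) (f5.toFun x (F.X b).j) := by
    rw [eventually_all]
    intro i
    have hlh := (hBS.lt i).le
    rcases hg i with h1 | h1
    · filter_upwards [(hco (F.X b).j).eventually (gt_mem_nhds h1)] with x' h2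
      rw [clam_of_le h2.le, clam_of_le h1.le]
    · filter_upwards [(hco (F.X b).j).eventually (lt_mem_nhds h1)] with x' h2
      rw [clam_of_ge hlh h2.le, clam_of_ge hlh h1.le]
  have e2 : ∀ᶠ x' in 𝓝[A] x, ∀ i, i ≠ (F.X b).j →
      (F.X b).lo i ≤ f5.toFun x' i ∧ f5.toFun x' i ≤ (F.X b).hi i := by
    rw [eventually_all]
    intro i
    by_cases hij : i = (F.X b).j
    · exact Eventually.of_forall fun x' h => absurd hij h
    · filter_upwards [(hco i).eventually (Ioo_mem_nhds (hi i hij).1 (hi i hij).2)] with x' h6 _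
      exact ⟨h6.1.le, h6.2.le⟩
  filter_upwards [H.dich hA hD hx hse, e1, e2,
    (hco (F.X b).j).eventually (Ioo_mem_nhds hj.1 hj.2), self_mem_nhdsWithin]
    with x' h4 h5 h6' h7 hx'
  obtain ⟨h8, h9⟩ := h4
  have hz : ∑ i, |clam (l b i) (h b i) (f5.toFun x' (F.X b).j) -
      clam (l b i) (h b i) (f5.toFun x (F.X b).j)| = 0 := by
    refine Finset.sum_eq_zero fun i _ => ?_
    rw [h5 i, sub_self, abs_zero]
  rcases h9 with ⟨ha, hb, hc'⟩ | ⟨ha, hb⟩
  · have h10 := abs_isH_sub_le H.isH hBS hς0 hς1 hk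
      (H.PF b _ ((H.mem b x' (hA hx')).2 hb)) (H.PF b _ ((H.mem b x (hA hx)).2 ha))
    rw [hz] at hc'
    have h11 : ∑ i, |clam (l b i) (h b i) (h6.toFun x' (F.X b).j) -
        clam (l b i) (h b i) (h6.toFun x (F.X b).j)| = 0 :=
      le_antisymm hc' (Finset.sum_nonneg fun _ _ => abs_nonneg _)
    rw [h11, mul_zero, zero_add] at h10
    exact h10
  · have f1 : (F.X b).Full (f5.toFun x') := ⟨⟨h7.1.le, h7.2.le⟩, h6'⟩
    have f2 : (F.X b).Full (f5.toFun x) := ⟨⟨hj.1.le, hj.2.le⟩, fun i hij =>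
      ⟨(hi i hij).1.le, (hi i hij).2.le⟩⟩
    rw [ha, hb]
    have h10 := abs_isH_sub_le H.isH hBS hς0 hς1 hk f1 f2
    rw [hz, mul_zero, zero_add] at h10
    exact h10

/-- **after the tube layer** -/
theorem PRes.final (H : TLay B φ Pb F D l h ς f5 h6 Sm)
    (hφ : ∀ b, φ b ∈ X.e ∧ K.a (φ b) ∈ X.w ∧ K.b (φ b) ∈ X.w) (hφe : ∀ e ∈ X.e, ∃ b, φ b = e)
    (hal : ∀ b, (F.X b).al = K.w (K.a (φ b)) (K.dir (φ b)) + W.wv (K.a (φ b)) / 2)
    (hbe : ∀ b, (F.X b).be = K.w (K.b (φ b)) (K.dir (φ b)) - W.wv (K.b (φ b)) / 2)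
    (hFl : ∀ b i t, i ≠ K.dir (φ b) → Fl (φ b) i t → t ∈ Ioo ((F.X b).lo i) ((F.X b).hi i))
    (hSv : ∀ b, ∀ t ∈ Sv (φ b), ∀ i, t < l b i ∨ h b i < t)
    (hA : A ⊆ Ω) (hD : Disjoint A D) (hx : x ∈ A) {cst c₂ c : V → ℝ}
    (P : PRes B X Fl Sv cst A f5.toFun x)
    (hc0 : ∀ᶠ y in 𝓝[A] x, 0 ≤ cst y) {sl κ : ℝ}
    (hT : ∀ b, f5.toFun x ∈ (F.X b).K →
      slG (F.X b).al (F.X b).be (l b) (h b) (ς b) ≤ sl ∧
      (∃ ρ, 0 < ρ ∧ (∀ i, ρ ≤ (F.X b).r i) ∧ (F.X b).D / ρ ≤ κ) ∧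
      ∀ᶠ x' in 𝓝[A] x, ς b * |h6.toFun x' (F.X b).j - h6.toFun x (F.X b).j| ≤ c₂ x')
    (hc : ∀ᶠ y in 𝓝[A] x, cst y ≤ c y ∧ (sl + κ) * cst y + c₂ y ≤ c y ∧ c₂ y ≤ c y) :
    LAtC B X c A (fun y => Sm.toFun (h6.toFun y)) x := by
  rcases P with ⟨P1, P2⟩ | ⟨e, he, hxE, hxS, hxF⟩
  · refine H.latC hA hx (fun _ => P1.mono (hc.mono fun _ h => h.1)) fun b hb => ?_
    obtain ⟨h1, h2⟩ := P2 _ (hφ b).1 (H.KE b hb)
    obtain ⟨T4, ⟨ρ, T2, T3, T5⟩, T6⟩ := hT b hb
    have hj := H.j b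
    have hς := H.ς0 b
    have T6' : ∀ᶠ x' in 𝓝[A] x, |h6.toFun x' (F.X b).j - h6.toFun x (F.X b).j| ≤
        c₂ x' / ς b := by
      filter_upwards [T6] with x' h3
      rw [le_div_iff₀ hς, mul_comm]
      exact h3
    refine ⟨(hφ b).1, (hφ b).2.1, (hφ b).2.2, H.estC hA hD hx (H.Ese b hb) T2 T3 T4 T5
      (by rw [hj]; exact h1) (fun i hi => ?_) hc0 T6' ?_⟩
    · rw [hj] at hi
      exact (h2 i hi).imp (hFl b i _ hi) id
    · filter_upwards [hc] with x' h1
      rw [mul_div_cancel₀ _ hς.ne']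
      linarith [h1.2.1]
  · obtain ⟨b, rfl⟩ := hφe e he
    have hj := H.j b
    have hlat : ∀ i, i ≠ (F.X b).j → f5.toFun x i ∈ Ioo ((F.X b).lo i) ((F.X b).hi i) :=
      fun i hi => by
        rw [hj] at hi
        exact hFl b i _ hi (hxF i hi)
    have hal' := hal b
    have hbe' := hbe b
    have hrange : (F.X b).al ≤ f5.toFun x (F.X b).j ∧ f5.toFun x (F.X b).j ≤ (F.X b).be := by
      rw [hal', hbe', hj]
      exact hxE.1
    have hfull : (F.X b).Full (f5.toFun x) := ⟨hrange, fun i hi =>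
      ⟨(hlat i hi).1.le, (hlat i hi).2.le⟩⟩
    have hK : Sm.toFun (h6.toFun x) ∈ (F.X b).K := H.isH.mem ((H.memK (hA hx)).2 hfull.mem)
    by_cases hend : f5.toFun x (F.X b).j ≤ (F.X b).al ∨ (F.X b).be ≤ f5.toFun x (F.X b).j
    · -- at the end the value is in the zone of a vertex
      have h1 : h6.toFun x = f5.toFun x := by
        refine H.off x (hA hx) fun b' h3 => ?_
        by_cases hb : b' = b
        · subst hb
          exact not_int_end H hend h3
        · exact H.not_K hb (H.Ese b hfull.mem) (H.PK b' (interior_subset h3))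
      have h2 : Sm.toFun (h6.toFun x) (F.X b).j = f5.toFun x (F.X b).j := by
        rw [h1, H.isH.full hfull, Function.update_self]
        exact (F.X b).l1.out _ hend
      have h3 : f5.toFun x (F.X b).j = (F.X b).al ∨ f5.toFun x (F.X b).j = (F.X b).be := by
        rcases hend with h3 | h3
        · exact Or.inl (le_antisymm h3 hrange.1)
        · exact Or.inr (le_antisymm hrange.2 h3)
      have h4 : Sm.toFun (h6.toFun x) (K.dir (φ b)) ∉
          Ioo (K.w (K.a (φ b)) (K.dir (φ b)) + W.wv (K.a (φ b)) / 2)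
            (K.w (K.b (φ b)) (K.dir (φ b)) - W.wv (K.b (φ b)) / 2) := by
        rw [← hal', ← hbe', ← hj, h2]
        rintro ⟨h5, h6⟩
        rcases h3 with h3 | h3 <;> linarith
      rcases H.zone hK with h5 | h5 | h5
      · exfalso
        refine h4 ?_
        obtain ⟨ε, hε, hb⟩ := Metric.isOpen_iff.1 isOpen_interior _ h5
        have key : ∀ t : ℝ, |t| < ε →
            K.w (K.a (φ b)) (K.dir (φ b)) + W.wv (K.a (φ b)) / 2 ≤
              Sm.toFun (h6.toFun x) (K.dir (φ b)) + t ∧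
            Sm.toFun (h6.toFun x) (K.dir (φ b)) + t ≤
              K.w (K.b (φ b)) (K.dir (φ b)) - W.wv (K.b (φ b)) / 2 := by
          intro t ht
          have h1 : Function.update (Sm.toFun (h6.toFun x)) (K.dir (φ b))
              (Sm.toFun (h6.toFun x) (K.dir (φ b)) + t) ∈ ball (Sm.toFun (h6.toFun x)) ε := by
            rw [mem_ball, dist_pi_lt_iff hε]
            intro k
            by_cases hk : k = K.dir (φ b)
            · subst hk
              rw [Function.update_self, Real.dist_eq, add_sub_cancel_left]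
              exact ht
            · rw [Function.update_of_ne hk, dist_self]
              exact hε
          have h3 := (interior_subset (hb h1)).1
          simpa only [Function.update_self] using h3
        have k1 := (key (-(ε / 2)) (by rw [abs_neg, abs_of_pos (by linarith)]; linarith)).1
        have k2 := (key (ε / 2) (by rw [abs_of_pos (by linarith)]; linarith)).2
        constructor <;> linarith
      · exact Or.inr (Or.inr (Or.inr ⟨_, (hφ b).2.1, h5⟩))
      · exact Or.inr (Or.inr (Or.inr ⟨_, (hφ b).2.2, h5⟩))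
    · push Not at hend
      obtain ⟨-, -, T6⟩ := hT b hfull.mem
      have h3 := tlay_est0 H hA hD hx (H.Ese b hfull.mem) hend hlat
        (by rw [hj]; exact hSv b _ hxS)
      have h4 : ∀ᶠ x' in 𝓝[A] x, |Sm.toFun (h6.toFun x') (K.dir (φ b)) -
          Sm.toFun (h6.toFun x) (K.dir (φ b))| ≤ c x' := by
        rw [← hj]
        filter_upwards [h3, T6, hc] with x' h5 h6 h7
        linarith [h7.2.2]
      rcases H.zone hK with h5 | h5 | h5
      · exact Or.inr (Or.inr (Or.inl ⟨_, he, h5, h4⟩))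
      · exact Or.inr (Or.inr (Or.inr ⟨_, (hφ b).2.1, h5⟩))
      · exact Or.inr (Or.inr (Or.inr ⟨_, (hφ b).2.2, h5⟩))

end tl

/-! ### the function on the edge -/

theorem tendsto_seg (e : V × V) {r : ℝ} : Tendsto (fun t : ℝ => e.1 + t • (e.2 - e.1))
    (𝓝[Icc 0 1] r) (𝓝[segment ℝ e.1 e.2] (e.1 + r • (e.2 - e.1))) := by
  refine tendsto_nhdsWithin_iff.2 ⟨?_, ?_⟩
  · have h : Continuous fun t : ℝ => e.1 + t • (e.2 - e.1) := by fun_prop
    exact (h.tendsto r).mono_left nhdsWithin_le_nhds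
  · filter_upwards [self_mem_nhdsWithin] with t ht
    rw [segment_eq_image']
    exact ⟨t, ht, rfl⟩

/-- **the local estimate of the function from `LAtC`** -/
theorem gAt_latC {f : V → V} {w : ℝ} (hw : 0 ≤ w) {e : V × V} {g : ℝ → ℝ} {r : ℝ}
    (H : GAt B X f w e g r) {c : V → ℝ}
    (hL : LAtC B X c (segment ℝ e.1 e.2) f (e.1 + r • (e.2 - e.1)))
    (hc0 : ∀ᶠ y in 𝓝[segment ℝ e.1 e.2] (e.1 + r • (e.2 - e.1)), 0 ≤ c y) :
    ∀ᶠ r' in 𝓝[Icc 0 1] r, |g r' - g r| ≤ 8 * c (e.1 + r' • (e.2 - e.1)) + w * |r' - r| := by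
  have ht := tendsto_seg e (r := r)
  have hz := ht.eventually hc0
  have hwn : ∀ r', 0 ≤ w * |r' - r| := fun r' => mul_nonneg hw (abs_nonneg _)
  rcases hL with h1 | ⟨s, hs, h1, h2⟩ | ⟨i, hi, h1, h2⟩ | ⟨i, hi, h1⟩
  · have h1' := ht.eventually h1
    by_cases c1 : ∃ s ∈ X.s, onSeg f e r ∈ interior (Zs W s)
    · obtain ⟨s, hs, h2⟩ := c1
      filter_upwards [H.sq s hs h2, h1'] with r' h3 h4
      refine h3 _ fun j _ => ?_
      have h5 := norm_le_pi_norm (f (e.1 + r' • (e.2 - e.1)) - f (e.1 + r • (e.2 - e.1))) j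
      rw [Pi.sub_apply, Real.norm_eq_abs] at h5
      exact h5.trans h4
    by_cases c2 : ∃ i ∈ X.e, onSeg f e r ∈ interior (B.E i)
    · obtain ⟨i, hi, h2⟩ := c2
      filter_upwards [H.ed i hi h2, h1'] with r' h3 h4
      have h5 := norm_le_pi_norm (f (e.1 + r' • (e.2 - e.1)) - f (e.1 + r • (e.2 - e.1))) (K.dir i)
      rw [Pi.sub_apply, Real.norm_eq_abs] at h5
      refine h3.trans (add_le_add ?_ le_rfl)
      exact mul_le_mul_of_nonneg_left (h5.trans h4) (by norm_num)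
    by_cases c3 : ∃ i ∈ X.w, onSeg f e r ∈ interior (Zv W i)
    · obtain ⟨i, hi, h2⟩ := c3
      filter_upwards [H.vt i hi h2, hz] with r' h3 h4
      linarith
    · push Not at c1 c2 c3
      filter_upwards [H.out c1 c2 c3, h1'] with r' h3 h4
      have h5 := hwn r'
      have h6 : ‖onSeg f e r' - onSeg f e r‖ ≤ c (e.1 + r' • (e.2 - e.1)) := h4
      linarith
  · filter_upwards [H.sq s hs h1, ht.eventually h2] with r' h3 h4
    exact h3 _ h4
  · filter_upwards [H.ed i hi h1, ht.eventually h2] with r' h3 h4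
    refine h3.trans (add_le_add ?_ le_rfl)
    exact mul_le_mul_of_nonneg_left h4 (by norm_num)
  · filter_upwards [H.vt i hi h1, hz] with r' h3 h4
    linarith

end P073.H228.EP
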