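import Vale.Agent.P073.H228.EdgeP5B
import Vale.Agent.P073.H471.GeoCover

/-!
# P073, block H228, [EDGE-P], part 5c

* the local estimates `PRes` in the zones;
* `exists_phi`: a function which is constant on a closed set and has slope `1` off it;
* `PO`: the map before the tube layer relative to the map before the hook.
-/

open Set Metric Topology Filter MeasureTheory
open scoped ENNReal

set_option linter.unusedSectionVars false

namespace P073.H228.EP

open P073 P073.Net P073.PA691 P073.H142 P073.H345 P073.H236 P073.H579 P073.H429 P073.H880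
  P073.H936 P073.H936.K3
open Vale.Agent.P073.St (V)
open Vale.Agent.P073.H471 Vale.Agent.P073.H267 Vale.Agent.P073.H267.Geo
open Vale.Agent.P073.H233 (PSet)
open Vale.Agent.P073.H193 (LAtC)
open Vale.Agent.P073.H228 (GAt)
open Vale.Agent.P073.H73 (Mesh onSeg)
open Vale.Agent.P073.H190.Tvp (wP near_PK)

/-! ### a function which does not see a closed set -/

theorem exists_phi {S : Set ℝ} (hS : IsClosed S) : ∃ φ : ℝ → ℝ,
    (∀ s t, |φ s - φ t| ≤ |s - t|) ∧
    (∀ lo hi, Icc lo hi ⊆ S → ∀ s ∈ Icc lo hi, φ s = φ lo) ∧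
    ∀ t, t ∉ S → ∀ᶠ t' in 𝓝 t, φ t' - φ t = t' - t := by
  set f : ℝ → ℝ := Sᶜ.indicator fun _ => (1:ℝ) with hf
  have hint : ∀ a b, IntervalIntegrable f volume a b := fun a b =>
    (intervalIntegrable_const (c := (1:ℝ))).mono_fun
      ((measurable_const.indicator hS.measurableSet.compl).aestronglyMeasurable)
      (Eventually.of_forall fun x => by
        rw [hf]
        exact norm_indicator_le_norm_self _ _)
  have hsub : ∀ s t, (∫ x in (0:ℝ)..s, f x) - ∫ x in (0:ℝ)..t, f x = ∫ x in t..s, f x :=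
    fun s t => intervalIntegral.integral_interval_sub_left (hint _ _) (hint _ _)
  refine ⟨fun t => ∫ x in (0:ℝ)..t, f x, fun s t => ?_, fun lo hi hI s hs => ?_,
    fun t ht => ?_⟩
  · rw [hsub, ← Real.norm_eq_abs]
    refine (intervalIntegral.norm_integral_le_of_norm_le_const (C := 1) fun x _ => ?_).trans ?_
    · rw [hf]
      refine (norm_indicator_le_norm_self _ _).trans ?_
      simp
    · rw [one_mul]
  · have h1 := hsub s lo
    have h2 : ∫ x in lo..s, f x = 0 := by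
      rw [intervalIntegral.integral_congr (g := fun _ => (0:ℝ)) fun x hx => ?_]
      · simp
      · rw [uIcc_of_le hs.1] at hx
        have h3 : x ∈ S := hI ⟨hx.1, hx.2.trans hs.2⟩
        show Sᶜ.indicator (fun _ => (1:ℝ)) x = 0
        exact indicator_of_notMem (notMem_compl_iff.2 h3) _
    rw [h2] at h1
    exact sub_eq_zero.1 h1
  · obtain ⟨ε, hε, hb⟩ := Metric.isOpen_iff.1 hS.isOpen_compl t ht
    filter_upwards [ball_mem_nhds t hε] with t' ht'
    show (∫ x in (0:ℝ)..t', f x) - ∫ x in (0:ℝ)..t, f x = t' - t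
    rw [hsub]
    rw [intervalIntegral.integral_congr (g := fun _ => (1:ℝ)) fun x hx => ?_]
    · simp
    · have h3 : x ∈ ball t ε := by
        rw [mem_ball, Real.dist_eq] at ht' ⊢
        refine lt_of_le_of_lt ?_ ht'
        exact abs_sub_left_of_mem_uIcc hx
      show Sᶜ.indicator (fun _ => (1:ℝ)) x = 1
      exact indicator_of_mem (hb h3) _

/-! ### the zones -/

variable {Ω Λ : Set V} {v : V} {K : BoxCx Λ v} {S : Rad K} {W : Wid K S} {B : Boxes W}
  {G : Geo B} {X : PSet K} {Sv : K.G → Set ℝ} {A : Set V} {x : V} {s : K.S} {y : V}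

/-- the full zone of the last staircase -/
def FlT (B : Boxes W) (e : K.G) (i : Fin 3) (t : ℝ) : Prop := |t - K.w (K.a e) i| < B.T e / 2

theorem fl_lat (G : Geo B) {e : K.G} {i : Fin 3} {t : ℝ}
    (h : |t - K.w (K.a e) i| ≤ 3 / 2 * G.lam e) : FlT B e i t := by
  have h1 := G.lam_T e
  have h2 := B.T_pos e
  have h3 := G.lam_pos e
  unfold FlT
  linarith

theorem w_nrm {e : K.G} (hes : K.edge e ⊆ K.sq s) :
    K.w (K.a e) (K.nrm s) = K.slo s (K.nrm s) := by
  have h1 := (hes (TM.wa_mem K e)).1 (K.nrm s)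
  have h2 := (hes (TM.wa_mem K e)).2 (K.nrm s)
  rw [← slo_shi_nrm] at h2
  exact le_antisymm h2 h1

theorem fl_nrm (G : Geo B) {e : K.G} (hes : K.edge e ⊆ K.sq s)
    (h : |y (K.nrm s) - K.slo s (K.nrm s)| < B.τ s) : FlT B e (K.nrm s) (y (K.nrm s)) := by
  unfold FlT
  rw [w_nrm hes]
  have h1 := G.τ_p s
  have h2 := G.p_uT s e hes
  have h3 := G.uT_lam e
  have h4 := G.lam_T e
  have h5 := B.τ_pos s
  linarith

/-- a lateral coordinate outside of the window is in the full zone -/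
theorem fl_tg (G : Geo B) {e : K.G} (hs : y ∈ PK G s) (hE : y ∈ B.E e) {j : Fin 3}
    (hj : j ≠ K.nrm s) (hje : j ≠ K.dir e)
    (hw : ¬ (K.slo s j + G.a s < y j ∧ y j < K.shi s j - G.a s)) : FlT B e j (y j) := by
  have hes := sq_of_PK_E hs hE
  have h1 := hE.2 j hje
  have h2 := side_ge S hes hj hje
  have h3 := B.T_le e
  have h4 := W.we_le e
  have h5 := G.a_u s
  have h6 := G.u_T s e hes
  have h7 := B.T_pos e
  have h8 := G.a_pos s
  have h9 := Geo.p_pos (G := G) s
  have h10 := hs.1 j hj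
  have h11 := S.q_pos e
  have h12 := abs_le.1 h1
  unfold FlT
  rcases edge_side hes hj hje with h13 | h13
  · rw [h13] at h12 ⊢
    by_cases h14 : K.slo s j + G.a s < y j
    · have h15 : K.shi s j - G.a s ≤ y j := by
        by_contra h16
        exact hw ⟨h14, not_le.1 h16⟩
      linarith
    · rw [abs_lt]
      push Not at h14
      constructor <;> linarith
  · rw [h13] at h12 ⊢
    by_cases h14 : y j < K.shi s j - G.a s
    · have h15 : y j ≤ K.slo s j + G.a s := by
        by_contra h16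
        exact hw ⟨not_le.1 h16, h14⟩
      linarith
    · rw [abs_lt]
      push Not at h14
      constructor <;> linarith

theorem E_unique {e e' : K.G} (h : y ∈ B.E e) (h' : y ∈ B.E e') : e' = e := by
  by_contra hne
  exact (disjoint_se (W := W) hne).notMem_of_mem_left (Ze_subset (B.E_subset e' h'))
    (Ze_subset (B.E_subset e h))

section pres

variable {f5 : V → V} {cst : V → ℝ}

theorem pres_dead (hz : ∃ i ∈ X.w, f5 x ∈ interior (Zv W i)) (hE : ∀ e, f5 x ∉ B.E e) :
    PRes B X (FlT B) Sv cst A f5 x := by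
  obtain ⟨i, hi, hz⟩ := hz
  exact Or.inl ⟨Or.inr (Or.inr (Or.inr ⟨i, hi, hz⟩)), fun e _ he => absurd he (hE e)⟩

theorem pres_all (h0 : ∀ᶠ y in 𝓝[A] x, 0 ≤ cst y)
    (h : ∀ᶠ y in 𝓝[A] x, ∀ l, |f5 y l - f5 x l| ≤ cst y) :
    PRes B X (FlT B) Sv cst A f5 x := by
  refine Or.inl ⟨Or.inl ?_, fun e _ _ => ⟨?_, fun i _ => Or.inr ?_⟩⟩
  · filter_upwards [h, h0] with y h1 h2
    rw [pi_norm_le_iff_of_nonneg h2]
    intro l
    rw [Pi.sub_apply, Real.norm_eq_abs]
    exact h1 l
  · filter_upwards [h] with y h1 using h1 _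
  · filter_upwards [h] with y h1 using h1 _

theorem pres_E {e : K.G} (he : e ∈ X.e) (hE : f5 x ∈ B.E e)
    (hz : f5 x ∈ interior (B.E e) ∨ ∃ i ∈ X.w, f5 x ∈ interior (Zv W i))
    (hfl : ∀ i, i ≠ K.dir e → FlT B e i (f5 x i))
    (hc : ∀ᶠ y in 𝓝[A] x, |f5 y (K.dir e) - f5 x (K.dir e)| ≤ cst y) :
    PRes B X (FlT B) Sv cst A f5 x := by
  refine Or.inl ⟨?_, fun e' _ he' => ?_⟩
  · rcases hz with hz | hz
    · exact Or.inr (Or.inr (Or.inl ⟨e, he, hz, hc⟩))
    · exact Or.inr (Or.inr (Or.inr hz))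
  · obtain rfl := E_unique hE he'
    exact ⟨hc, fun i hi => Or.inl (hfl i hi)⟩

/-- a coordinate strictly inside of the window -/
theorem ev_win (hf : ContinuousWithinAt f5 A x) {β : Bool}
    (hw : ∀ᶠ y in 𝓝[A] x, |wP G s β (f5 y (tg s β)) - wP G s β (f5 x (tg s β))| ≤ cst y)
    (hin : K.slo s (tg s β) + G.a s < f5 x (tg s β) ∧
      f5 x (tg s β) < K.shi s (tg s β) - G.a s) :
    ∀ᶠ y in 𝓝[A] x, |f5 y (tg s β) - f5 x (tg s β)| ≤ cst y := by
  have h1 : Tendsto (fun y => f5 y (tg s β)) (𝓝[A] x) (𝓝 (f5 x (tg s β))) :=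
    ((continuous_apply _).tendsto _).comp hf
  filter_upwards [hw, h1.eventually (Ioo_mem_nhds hin.1 hin.2)] with y h2 h3
  have e1 : wP G s β (f5 y (tg s β)) = f5 y (tg s β) := clamp_eq ⟨h3.1.le, h3.2.le⟩
  have e2 : wP G s β (f5 x (tg s β)) = f5 x (tg s β) := clamp_eq ⟨hin.1.le, hin.2.le⟩
  rwa [e1, e2] at h2

/-- **near a plate** -/
theorem pres_PK (hXe : ∀ e, K.edge e ⊆ K.sq s → e ∈ X.e) (hXs : s ∈ X.s)
    (hXw : ∀ i, K.w i ∈ K.sq s → i ∈ X.w) (hf : ContinuousWithinAt f5 A x) (hs : f5 x ∈ PK G s)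
    (hn : |f5 x (K.nrm s) - K.slo s (K.nrm s)| < B.τ s)
    (hw : ∀ β, ∀ᶠ y in 𝓝[A] x, |wP G s β (f5 y (tg s β)) - wP G s β (f5 x (tg s β))| ≤ cst y) :
    PRes B X (FlT B) Sv cst A f5 x := by
  have key : ∀ j, j ≠ K.nrm s → K.slo s j + G.a s < f5 x j ∧ f5 x j < K.shi s j - G.a s →
      ∀ᶠ y in 𝓝[A] x, |f5 y j - f5 x j| ≤ cst y := by
    intro j hj hin
    have e := tg_bt s hj
    rw [← e] at hin ⊢
    exact ev_win hf (hw _) hin
  refine Or.inl ⟨?_, fun e he hE => ?_⟩
  · by_cases h1 : ∃ e, K.edge e ⊆ K.sq s ∧ f5 x ∈ interior (B.E e)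
    · obtain ⟨e, hes, h1⟩ := h1
      exact Or.inr (Or.inr (Or.inl ⟨e, hXe e hes, h1,
        key _ (nrm_ne_dir hes).symm (win_of_PK_E hs (interior_subset h1))⟩))
    by_cases h2 : ∃ i, K.w i ∈ K.sq s ∧ f5 x ∈ interior (Zv W i)
    · obtain ⟨i, hi, h2⟩ := h2
      exact Or.inr (Or.inr (Or.inr ⟨i, hXw i hi, h2⟩))
    · push Not at h1 h2
      refine Or.inr (Or.inl ⟨s, hXs, zs_of_PK hs hn h1 h2, ?_⟩)
      have h3 : ∀ j, j ≠ K.nrm s → ∀ᶠ y in 𝓝[A] x, |f5 y j - f5 x j| ≤ cst y := by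
        intro j hj
        refine key j hj ?_
        by_contra hcon
        rcases dead_of_PK hs hj hcon with ⟨e, hes, -, h4⟩ | ⟨i, hi, h4⟩
        · exact h1 e hes h4
        · exact h2 i hi h4
      rw [eventually_all]
      intro j
      by_cases hj : j = K.nrm s
      · exact Eventually.of_forall fun y h => absurd hj h
      · filter_upwards [h3 j hj] with y hy _ using hy
  · have hes := sq_of_PK_E hs hE
    refine ⟨key _ (nrm_ne_dir hes).symm (win_of_PK_E hs hE), fun i hi => ?_⟩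
    by_cases hin : i = K.nrm s
    · subst hin
      exact Or.inl (fl_nrm G hes hn)
    · by_cases hwi : K.slo s i + G.a s < f5 x i ∧ f5 x i < K.shi s i - G.a s
      · exact Or.inr (key i hin hwi)
      · exact Or.inl (fl_tg G hs hE hin hi hwi)

end pres

end P073.H228.EP
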