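import Vale.Agent.P073.H228.EdgeP5C
import Vale.Agent.P073.H212.PoDef
import Vale.Agent.P073.H190.TwoX

/-!
# P073, block H228, [EDGE-P], part 5d

* `TOk`: the tube layer.
-/

open Set Metric Topology Filter
open scoped ENNReal

set_option linter.unusedSectionVars false

namespace P073.H228.EP

open P073 P073.Net P073.PA691 P073.H142 P073.H345 P073.H236 P073.H579 P073.H429 P073.H880
  P073.H936 P073.H936.K3
open Vale.Agent.P073.St (V)
open Vale.Agent.P073.H471 Vale.Agent.P073.H267 Vale.Agent.P073.H267.Geo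
open Vale.Agent.P073.H233 (PSet)
open Vale.Agent.P073.H193 (LAtC)
open Vale.Agent.P073.H228 (GAt)
open Vale.Agent.P073.H73 (Mesh onSeg)
open Vale.Agent.P073.H190.Tvp (wP near_PK)

variable {Ω Λ : Set V} {v : V} {K : BoxCx Λ v} {S : Rad K} {W : Wid K S} {B : Boxes W}
  {G : Geo B}

/-- **the tube layer** on the set `A` (see `PRes.final`) -/
def TOk (B : Boxes W) (X : PSet K) (Sv : K.G → Set ℝ) (A : Set V) (sk εT : ℝ) (f5 f : V → V) :
    Prop :=
  ∀ x ∈ A, ∀ cst : V → ℝ, (∀ y, 0 ≤ cst y) → PRes B X (FlT B) Sv cst A f5 x →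
    LAtC B X (fun y => sk * cst y + εT * ‖y - x‖) A f x

/-! ### the function on the edge -/

theorem seg_pt {a b : V} {t : ℝ} (ht : t ∈ Icc (0:ℝ) 1) : a + t • (b - a) ∈ segment ℝ a b := by
  rw [segment_eq_image']
  exact ⟨t, ht, rfl⟩

/-- **the local estimate of the function** -/
theorem g_est {X : PSet K} {Sv : K.G → Set ℝ} {a b : V} {sk εT w₀ : ℝ} {f5 f : V → V} {g : ℝ → ℝ}
    {t : ℝ} (hsk : 0 ≤ sk) (hε : 0 ≤ εT) (hw : 0 ≤ w₀)
    (tok : TOk B X Sv (segment ℝ a b) sk εT f5 f) (hG : GAt B X f w₀ (a, b) g t)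
    (ht : t ∈ Icc (0:ℝ) 1) {cst : V → ℝ} (h0 : ∀ y, 0 ≤ cst y)
    (P : PRes B X (FlT B) Sv cst (segment ℝ a b) f5 (a + t • (b - a))) :
    ∀ᶠ t' in 𝓝[Icc 0 1] t, |g t - g t'| ≤ 8 * sk * cst (a + t' • (b - a)) +
      (w₀ + 8 * εT * ‖b - a‖) * |t - t'| := by
  have h1 := tok _ (seg_pt ht) cst h0 P
  have h2 := gAt_latC hw hG h1 (Eventually.of_forall fun y =>
    add_nonneg (mul_nonneg hsk (h0 y)) (mul_nonneg hε (norm_nonneg _)))
  filter_upwards [h2] with t' h3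
  have e1 : a + t' • (b - a) - (a + t • (b - a)) = (t' - t) • (b - a) := by module
  have e2 : ‖a + t' • (b - a) - (a + t • (b - a))‖ = |t - t'| * ‖b - a‖ := by
    rw [e1, norm_smul, Real.norm_eq_abs, abs_sub_comm]
  rw [abs_sub_comm (g t), abs_sub_comm t t']
  refine h3.trans (le_of_eq ?_)
  rw [e2, abs_sub_comm t t']
  ring

/-! ### plates -/

theorem mem_int_PB {c : ℝ} {s : K.S} {y : V} : y ∈ interior (G.PB c s) ↔
    (∀ k, k ≠ K.nrm s → K.slo s k + c * G.p s < y k ∧ y k < K.shi s k - c * G.p s) ∧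
    |y (K.nrm s) - K.slo s (K.nrm s)| < B.τ s := by
  have e : interior (G.PB c s) = {y | ∀ k, G.plo c s k < y k ∧ y k < G.phi c s k} := by
    unfold Geo.PB
    rw [← pi_univ_Icc, interior_pi_set finite_univ]
    ext y
    simp only [interior_Icc, Set.mem_pi, mem_univ, true_imp_iff, mem_Ioo, Set.mem_ofPred_eq]
  rw [e]
  constructor
  · intro h
    refine ⟨fun k hk => ?_, ?_⟩
    · have h1 := h k
      simp only [Geo.plo, Geo.phi, if_neg hk] at h1
      exact h1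
    · have h1 := h (K.nrm s)
      simp only [Geo.plo, Geo.phi, if_true] at h1
      rw [abs_lt]
      constructor <;> linarith [h1.1, h1.2]
  · rintro ⟨h1, h2⟩ k
    by_cases hk : k = K.nrm s
    · subst hk
      rw [abs_lt] at h2
      simp only [Geo.plo, Geo.phi, if_true]
      constructor <;> linarith [h2.1, h2.2]
    · simp only [Geo.plo, Geo.phi, if_neg hk]
      exact h1 k hk

theorem MvB.int_fwd {S₀ : Set K.S} {Xw : K.S → Bool → Set (ℝ × ℝ)} {d η : K.S → ℝ} {y y' : V}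
    (h : MvB G S₀ Xw d η y y') {s : K.S} (hd : 0 ≤ d s) (hη : 0 ≤ η s)
    (hy : y ∈ interior (G.PB (7 / 8) s)) : y' ∈ interior (G.PB (7 / 8) s) := by
  have hp := Geo.p_pos (G := G) s
  have hpa := Geo.p_a (G := G) s
  have h2 : y ∈ PK G s := PB_sub_PK (by norm_num) s (interior_subset hy)
  obtain ⟨h3, h4⟩ := h.at h2 hd hη
  rw [mem_int_PB] at hy ⊢
  obtain ⟨h5, h6⟩ := hy
  refine ⟨fun k hk => ?_, by rw [h3]; exact h6⟩
  have hkk := tg_bt s hk
  have h7 := (h4 (bt s k)).1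
  rw [hkk] at h7
  rcases h7 with h7 | ⟨-, h7⟩
  · rw [h7]; exact h5 k hk
  · constructor <;> linarith [h7.1, h7.2]

theorem MvB.int_back {S₀ : Set K.S} {Xw : K.S → Bool → Set (ℝ × ℝ)} {d η : K.S → ℝ} {y y' : V}
    (h : MvB G S₀ Xw d η y y') {s : K.S} (hd : 0 ≤ d s) (hη : 0 ≤ η s)
    (hy' : y' ∈ interior (G.PB (7 / 8) s)) : y ∈ interior (G.PB (7 / 8) s) := by
  have hp := Geo.p_pos (G := G) s
  have hpa := Geo.p_a (G := G) s
  have h1 : y' ∈ PK G s := PB_sub_PK (by norm_num) s (interior_subset hy')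
  have h2 := h.pk h1
  obtain ⟨h3, h4⟩ := h.at h2 hd hη
  rw [mem_int_PB] at hy' ⊢
  obtain ⟨h5, h6⟩ := hy'
  refine ⟨fun k hk => ?_, by rw [← h3]; exact h6⟩
  have hkk := tg_bt s hk
  have h7 := (h4 (bt s k)).1
  rw [hkk] at h7
  rcases h7 with h7 | ⟨h7, -⟩
  · rw [← h7]; exact h5 k hk
  · constructor <;> linarith [h7.1, h7.2]

end P073.H228.EP
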