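import Vale.Agent.P073.H228.EdgeP5D
import Vale.Agent.P073.H190.NumP3
import Vale.Agent.P073.H233.Tail3I

/-!
# P073, block H228, [EDGE-P], part 5e: the local theorem

`ctl_at`: `CtlAt2` at every parameter of an edge.
-/

open Set Metric Topology Filter
open scoped ENNReal

set_option linter.unusedSectionVars false

namespace P073.H228.EP

open P073 P073.Net P073.PA691 P073.H142 P073.H345 P073.H236 P073.H579 P073.H429 P073.H880
  P073.H936 P073.H936.K3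
open Vale.Agent.P073.St (V)
open Vale.Agent.P073.H471 Vale.Agent.P073.H267 Vale.Agent.P073.H267.Geo
open Vale.Agent.P073.H233 (PSet Xp)
open Vale.Agent.P073.H193 (LAtC Edges edges)
open Vale.Agent.P073.H228 (GAt)
open Vale.Agent.P073.H73 (Mesh onSeg)
open Vale.Agent.P073.H926 Vale.Agent.P073.H926.KIn3
open Vale.Agent.P073.H190.Tvp (wP near_PK CtlAt3 ArcP)
open P073.H190 (PT2)
open P073.H880.RP (thinL)
open P073.Croft (onS)

variable {c₀ n δ : ℝ} {j : ℕ} {Ω Λ : Set V} {v w : V} {ρ : V → ℝ} {M : Mesh Ω} {h : ConHomeo Ω Λ}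
  {J₀ J : Set (ℕ × (Fin 3 → ℤ))} {P Z : Set M.ι} {K : BoxCx Λ w}

/-- the data of the local theorem -/
structure EIn (D : KIn3 c₀ n j δ v w ρ M h J₀ J P Z) (C : Cells ρ w K) (e₀ : (edges M).ε)
    (h1 h2 h3 h4 f5 : ConHomeo Ω Λ) (f : V → V)
    (L : PLev (D.G C)) (c : K.S → Bool → ℝ) (c0 : ∀ s β, 0 < c s β) (c1 : ∀ s β, c s β ≤ L.c s β)
    (F : Bool → BFam 3 (D.dat C).S₀ Λ) (T T₂ : Bool → ConHomeo Λ Λ) (κ : Bool → V → V)
    (γ : ℝ → ℝ) (cT : ℝ) (μw : Bool → (D.dat C).S₀ → ℝ) (Xw : K.S → Bool → Set (ℝ × ℝ))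
    (dκ dD ηD dσ : K.S → ℝ) (Sv : K.G → Set ℝ) (Lc m : ℝ) (q₁ : K.S → ℝ) (e₁ sk εT : ℝ) : Prop where
  near : ∀ x ∈ Ω, ∀ q, h.toFun x ∈ K.cube q → ‖h1.toFun x - h.toFun x‖ ≤ (D.G C).om q
  arc : ArcP L (D.dat C).S₀ c c0 c1 F T κ (fun s => (D.dat C).PE (D.G C) s.1)
    (onS h2.toFun ((edges M).a e₀) ((edges M).b e₀))
    (onS h1.toFun ((edges M).a e₀) ((edges M).b e₀))
    (onS h3.toFun ((edges M).a e₀) ((edges M).b e₀)) γ cT
  pt2 : PT2 (thinL L c c0 c1) (D.dat C).S₀ F μw T₂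
  map4 : ∀ x ∈ (edges M).seg e₀, h4.toFun x = PS.map T₂ (h3.toFun x)
  cκ : ∀ β (s : (D.dat C).S₀), 4 * c s.1 β ≤ dκ s.1
  hD : ∀ β (s : (D.dat C).S₀), (F β).D s ≤ dD s.1
  hw : ∀ β (s : (D.dat C).S₀), ∀ p ∈ Xw s.1 β,
      |(F β).σ s p.1 - p.1| ≤ ηD s.1 ∧ |(F β).σ s p.2 - p.2| ≤ ηD s.1
  ho : ∀ β (s : (D.dat C).S₀) t, t ∉ Fat Xw s.1 β 0 → |(F β).σ s t - t| ≤ ηD s.1
  hμ : ∀ β (s : (D.dat C).S₀) t, t ∉ Fat Xw s.1 β 0 → |(F β).σ s t - t| ≤ μw β s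
  fin : ∀ s β, (Xw s β).Finite
  κ0 : ∀ s, 0 ≤ dκ s
  D0 : ∀ s, 0 ≤ dD s
  η0 : ∀ s, 0 ≤ ηD s
  σ0 : ∀ s, 0 ≤ dσ s
  po : PO (D.G C) (D.dat C).S₀ Xw dσ dσ f5.toFun h4.toFun ((edges M).seg e₀) Lc m q₁ e₁
  tok : TOk (D.B C) (Xp C J₀) Sv ((edges M).seg e₀) sk εT f5.toFun f
  sv : ∀ s ∈ (D.dat C).S₀, ∀ e, K.edge e ⊆ K.sq s → ∀ β, tg s β = K.dir e →
    Fat Xw s β (4 * dκ s + 2 * ηD s + dσ s) ⊆ Sv e
  small : ∀ s ∈ (D.dat C).S₀, ∀ i, K.w i ∈ K.sq s →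
    2 * dκ s + 2 * dD s + dσ s ≤ (D.G C).be i / 8
  Lc0 : 0 ≤ Lc
  m0 : 0 ≤ m
  q0 : ∀ s, 0 ≤ q₁ s
  e0 : 0 ≤ e₁
  sk1 : 1 ≤ sk
  εT0 : 0 ≤ εT

namespace EIn

variable {D : KIn3 c₀ n j δ v w ρ M h J₀ J P Z} {C : Cells ρ w K} {e₀ : (edges M).ε}
    {h1 h2 h3 h4 f5 : ConHomeo Ω Λ} {f : V → V}
    {L : PLev (D.G C)} {c : K.S → Bool → ℝ} {c0 : ∀ s β, 0 < c s β} {c1 : ∀ s β, c s β ≤ L.c s β}
    {F : Bool → BFam 3 (D.dat C).S₀ Λ} {T T₂ : Bool → ConHomeo Λ Λ} {κ : Bool → V → V}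
    {γ : ℝ → ℝ} {cT : ℝ} {μw : Bool → (D.dat C).S₀ → ℝ} {Xw : K.S → Bool → Set (ℝ × ℝ)}
    {dκ dD ηD dσ : K.S → ℝ} {Sv : K.G → Set ℝ} {Lc m : ℝ} {q₁ : K.S → ℝ} {e₁ sk εT : ℝ}
    (H : EIn D C e₀ h1 h2 h3 h4 f5 f L c c0 c1 F T T₂ κ γ cT μw Xw dκ dD ηD dσ Sv Lc m q₁ e₁ sk εT)


include H

theorem pt_mem {t : ℝ} (ht : t ∈ Icc (0:ℝ) 1) : ((edges M).a e₀) + t • (((edges M).b e₀) - ((edges M).a e₀)) ∈ (edges M).seg e₀ := seg_pt ht

theorem pt_Ω {t : ℝ} (ht : t ∈ Icc (0:ℝ) 1) : ((edges M).a e₀) + t • (((edges M).b e₀) - ((edges M).a e₀)) ∈ Ω :=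
  (edges M).seg_sub_Ω e₀ (H.pt_mem ht)

/-- from the position after the exchange to the position before the staircases -/
theorem mv3 {t : ℝ} (ht : t ∈ Icc (0:ℝ) 1) :
    MvB (D.G C) (D.dat C).S₀ Xw (fun s => dκ s + dκ s) (fun s => dκ s + dκ s)
      (onS h2.toFun ((edges M).a e₀) ((edges M).b e₀) (γ t)) (onS h3.toFun ((edges M).a e₀) ((edges M).b e₀) t) := by
  have k1 := mvB_isQ (Xw := Xw) (L := thinL L c c0 c1) H.arc.isQ (η := dκ) H.κ0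
    (fun β s => H.cκ β s) (onS h3.toFun ((edges M).a e₀) ((edges M).b e₀) t)
  have k2 := H.arc.lift.eq t ht
  change κ true (κ false (onS h3.toFun ((edges M).a e₀) ((edges M).b e₀) t)) = onS h2.toFun ((edges M).a e₀) ((edges M).b e₀) (γ t) at k2
  rw [k2] at k1
  exact k1.symm_small

/-- to the position before the hook -/
theorem mv4 {t : ℝ} (ht : t ∈ Icc (0:ℝ) 1) :
    MvB (D.G C) (D.dat C).S₀ Xw (fun s => (dκ s + dκ s) + (dD s + dD s))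
      (fun s => (dκ s + dκ s) + (ηD s + ηD s))
      (onS h2.toFun ((edges M).a e₀) ((edges M).b e₀) (γ t)) (h4.toFun (((edges M).a e₀) + t • (((edges M).b e₀) - ((edges M).a e₀)))) := by
  rw [H.map4 _ (H.pt_mem ht)]
  have k1 := mvB_PT2 (Xw := Xw) H.pt2 H.D0 H.η0 H.hD H.hw H.ho (onS h3.toFun ((edges M).a e₀) ((edges M).b e₀) t)
  exact (H.mv3 ht).trans k1 (fun s => by linarith [H.κ0 s]) (fun s => by linarith [H.κ0 s])
    (fun s => by linarith [H.D0 s]) fun s => by linarith [H.η0 s]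

/-- to the position before the tube layer, far from the flat of the plate -/
theorem mv5 {t : ℝ} (ht : t ∈ Icc (0:ℝ) 1) {s : K.S} (hs : s ∈ (D.dat C).S₀)
    (hZ : onS h2.toFun ((edges M).a e₀) ((edges M).b e₀) (γ t) ∈ PK (D.G C) s)
    (hn : onS h2.toFun ((edges M).a e₀) ((edges M).b e₀) (γ t) ∉ interior ((D.G C).PB (7 / 8) s)) :
    MvB (D.G C) (D.dat C).S₀ Xw (fun s => (dκ s + dκ s) + (dD s + dD s) + dσ s)
      (fun s => (dκ s + dκ s) + (ηD s + ηD s) + dσ s)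
      (onS h2.toFun ((edges M).a e₀) ((edges M).b e₀) (γ t)) (f5.toFun (((edges M).a e₀) + t • (((edges M).b e₀) - ((edges M).a e₀)))) := by
  have g1 := H.mv4 ht
  have k1 := H.κ0 s
  have k2 := H.D0 s
  have k3 := H.η0 s
  have g2 := H.po.mv _ (H.pt_mem ht) s hs (g1.pk' hZ)
    fun hi => hn (g1.int_back (by linarith) (by linarith) hi)
  exact g1.trans g2 (fun s => by linarith [H.κ0 s, H.D0 s]) (fun s => by linarith [H.κ0 s, H.η0 s])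
    H.σ0 H.σ0

/-- the map before the tube layer along the edge -/
theorem cont5 {t : ℝ} (ht : t ∈ Icc (0:ℝ) 1) :
    ContinuousWithinAt f5.toFun ((edges M).seg e₀) (((edges M).a e₀) + t • (((edges M).b e₀) - ((edges M).a e₀))) :=
  (f5.cont.mono ((edges M).seg_sub_Ω e₀)) _ (H.pt_mem ht)

theorem est {g : ℝ → ℝ} {w₀ : ℝ} (hw0 : 0 ≤ w₀) {t : ℝ} (ht : t ∈ Icc (0:ℝ) 1)
    (hG : GAt (D.B C) (Xp C J₀) f w₀ (((edges M).a e₀), ((edges M).b e₀)) g t) {cst : V → ℝ} (h0 : ∀ y, 0 ≤ cst y)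
    (Pr : PRes (D.B C) (Xp C J₀) (FlT (D.B C)) Sv cst ((edges M).seg e₀) f5.toFun
      (((edges M).a e₀) + t • (((edges M).b e₀) - ((edges M).a e₀)))) :
    ∀ᶠ t' in 𝓝[Icc 0 1] t, |g t - g t'| ≤ 8 * sk * cst (((edges M).a e₀) + t' • (((edges M).b e₀) - ((edges M).a e₀))) +
      (w₀ + 8 * εT * ‖((edges M).b e₀) - ((edges M).a e₀)‖) * |t - t'| :=
  g_est (by linarith [H.sk1]) H.εT0 hw0 H.tok hG ht h0 Pr

/-- the cost of the plates -/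
theorem plate_cost {g : ℝ → ℝ} {w₀ : ℝ} (hw0 : 0 ≤ w₀) {t : ℝ} (ht : t ∈ Icc (0:ℝ) 1)
    (hG : GAt (D.B C) (Xp C J₀) f w₀ (((edges M).a e₀), ((edges M).b e₀)) g t) {s : K.S} {a₁ a₂ : ℝ} (ha₁ : 0 ≤ a₁)
    (ha₂ : 0 ≤ a₂) {Al : Finset (Fin 3)} (Pr : PRes (D.B C) (Xp C J₀) (FlT (D.B C)) Sv
      (fun y => Lc * ∑ β', |wP (D.G C) s β' (h4.toFun y (tg s β')) -
        wP (D.G C) s β' (h4.toFun (((edges M).a e₀) + t • (((edges M).b e₀) - ((edges M).a e₀))) (tg s β'))| +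
        a₁ * ∑ l ∈ Al, |h4.toFun y l - h4.toFun (((edges M).a e₀) + t • (((edges M).b e₀) - ((edges M).a e₀))) l| +
        a₂ * ‖h4.toFun y - h4.toFun (((edges M).a e₀) + t • (((edges M).b e₀) - ((edges M).a e₀)))‖ + e₁ * ‖y - (((edges M).a e₀) + t • (((edges M).b e₀) - ((edges M).a e₀)))‖)
      ((edges M).seg e₀) f5.toFun (((edges M).a e₀) + t • (((edges M).b e₀) - ((edges M).a e₀)))) {R : ℝ → ℝ} (hR : ∀ t', 0 ≤ R t') :
    ∀ᶠ t' in 𝓝[Icc 0 1] t, |g t - g t'| ≤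
      8 * sk * Lc * ∑ β, |wP (D.G C) s β (ArcP.H T₂ (onS h3.toFun ((edges M).a e₀) ((edges M).b e₀)) t (tg s β)) -
        wP (D.G C) s β (ArcP.H T₂ (onS h3.toFun ((edges M).a e₀) ((edges M).b e₀)) t' (tg s β))| +
      8 * sk * a₁ * ∑ l ∈ Al, |ArcP.H T₂ (onS h3.toFun ((edges M).a e₀) ((edges M).b e₀)) t l -
        ArcP.H T₂ (onS h3.toFun ((edges M).a e₀) ((edges M).b e₀)) t' l| +
      8 * sk * a₂ * ∑ l, |ArcP.H T₂ (onS h3.toFun ((edges M).a e₀) ((edges M).b e₀)) t l -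
        ArcP.H T₂ (onS h3.toFun ((edges M).a e₀) ((edges M).b e₀)) t' l| + R t' +
      (w₀ + 8 * (sk * e₁ + εT) * ‖((edges M).b e₀) - ((edges M).a e₀)‖) * |t - t'| := by
  have k0 := H.Lc0
  have k2 := H.e0
  have k3 := H.sk1
  have g1 := H.est hw0 ht hG (fun y => by positivity) Pr
  filter_upwards [g1, self_mem_nhdsWithin] with t' g2 ht'
  have e1 : ∀ t'' ∈ Icc (0:ℝ) 1, ArcP.H T₂ (onS h3.toFun ((edges M).a e₀) ((edges M).b e₀)) t'' =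
      h4.toFun (((edges M).a e₀) + t'' • (((edges M).b e₀) - ((edges M).a e₀))) := fun t'' h'' => (H.map4 _ (H.pt_mem h'')).symm
  rw [e1 t ht, e1 t' ht']
  refine g2.trans ?_
  have n1 : ‖h4.toFun (((edges M).a e₀) + t' • (((edges M).b e₀) - ((edges M).a e₀))) - h4.toFun (((edges M).a e₀) + t • (((edges M).b e₀) - ((edges M).a e₀)))‖ ≤
      ∑ l, |h4.toFun (((edges M).a e₀) + t • (((edges M).b e₀) - ((edges M).a e₀))) l - h4.toFun (((edges M).a e₀) + t' • (((edges M).b e₀) - ((edges M).a e₀))) l| := by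
    rw [norm_sub_rev]
    have := Vale.Agent.P073.H190.Tvp.norm_le_sum
      (h4.toFun (((edges M).a e₀) + t • (((edges M).b e₀) - ((edges M).a e₀))) - h4.toFun (((edges M).a e₀) + t' • (((edges M).b e₀) - ((edges M).a e₀))))
    simpa only [Pi.sub_apply] using this
  have n2 : ‖((edges M).a e₀) + t' • (((edges M).b e₀) - ((edges M).a e₀)) - (((edges M).a e₀) + t • (((edges M).b e₀) - ((edges M).a e₀)))‖ = |t - t'| * ‖((edges M).b e₀) - ((edges M).a e₀)‖ := by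
    have e1 : ((edges M).a e₀) + t' • (((edges M).b e₀) - ((edges M).a e₀)) - (((edges M).a e₀) + t • (((edges M).b e₀) - ((edges M).a e₀))) = (t' - t) • (((edges M).b e₀) - ((edges M).a e₀)) := by module
    rw [e1, norm_smul, Real.norm_eq_abs, abs_sub_comm]
  have e2 : ∑ β', |wP (D.G C) s β' (h4.toFun (((edges M).a e₀) + t' • (((edges M).b e₀) - ((edges M).a e₀))) (tg s β')) -
      wP (D.G C) s β' (h4.toFun (((edges M).a e₀) + t • (((edges M).b e₀) - ((edges M).a e₀))) (tg s β'))| =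
      ∑ β', |wP (D.G C) s β' (h4.toFun (((edges M).a e₀) + t • (((edges M).b e₀) - ((edges M).a e₀))) (tg s β')) -
        wP (D.G C) s β' (h4.toFun (((edges M).a e₀) + t' • (((edges M).b e₀) - ((edges M).a e₀))) (tg s β'))| :=
    Finset.sum_congr rfl fun β _ => abs_sub_comm _ _
  have e3 : ∑ l ∈ Al, |h4.toFun (((edges M).a e₀) + t' • (((edges M).b e₀) - ((edges M).a e₀))) l - h4.toFun (((edges M).a e₀) + t • (((edges M).b e₀) - ((edges M).a e₀))) l| =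
      ∑ l ∈ Al, |h4.toFun (((edges M).a e₀) + t • (((edges M).b e₀) - ((edges M).a e₀))) l - h4.toFun (((edges M).a e₀) + t' • (((edges M).b e₀) - ((edges M).a e₀))) l| :=
    Finset.sum_congr rfl fun β _ => abs_sub_comm _ _
  rw [e2, e3, n2]
  have g3 := mul_le_mul_of_nonneg_left n1 (by positivity : 0 ≤ 8 * sk * a₂)
  have g4 := hR t'
  nlinarith

theorem zero_cost {g : ℝ → ℝ} {w₀ : ℝ} (hw0 : 0 ≤ w₀) {t : ℝ} (ht : t ∈ Icc (0:ℝ) 1)
    (hG : GAt (D.B C) (Xp C J₀) f w₀ (((edges M).a e₀), ((edges M).b e₀)) g t)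
    (Pr : PRes (D.B C) (Xp C J₀) (FlT (D.B C)) Sv (fun _ => 0) ((edges M).seg e₀) f5.toFun
      (((edges M).a e₀) + t • (((edges M).b e₀) - ((edges M).a e₀)))) {R : ℝ → ℝ} (hR : ∀ t', 0 ≤ R t') :
    ∀ᶠ t' in 𝓝[Icc 0 1] t, |g t - g t'| ≤ R t' +
      (w₀ + 8 * (sk * e₁ + εT) * ‖((edges M).b e₀) - ((edges M).a e₀)‖) * |t - t'| := by
  have k2 := H.e0
  have k3 := H.sk1
  filter_upwards [H.est hw0 ht hG (fun y => le_rfl) Pr] with t' g2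
  have g4 := hR t'
  have g5 : 0 ≤ sk * e₁ * ‖((edges M).b e₀) - ((edges M).a e₀)‖ * |t - t'| := by positivity
  nlinarith

/-- the boxes of round T which the edge meets -/
theorem met_near {b : TBx K} (hb : b ∈ pB C J₀) {x₀ : V} (hx₀ : x₀ ∈ (edges M).seg e₀)
    (hz : h.toFun x₀ ∈ (D.G C).TB false b) {x' : V} (hx' : x' ∈ (edges M).seg e₀) (k : Fin 3) :
    |h1.toFun x' k - h.toFun x₀ k| ≤ 4 * Vale.Agent.P073.H238.oT (D.G C) b + ω3T δ C b := by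
  have k1 := Vale.Agent.P073.H190.Num3.near_TB D C H.near hb ⟨_, mem_image_of_mem _ hx₀, hz⟩ x' hx'
  obtain ⟨i, hi, hei⟩ := Vale.Agent.P073.H190.Num3.exists_cell_seg (E := edges M) D C e₀
  have k2 := D.osc_T C hb hi (hei hx₀) (hei hx') hz
  have k3 := (abs_sub_le_norm (h1.toFun x') (h.toFun x') k).trans k1
  have k4 := (abs_sub_le_norm (h.toFun x₀) (h.toFun x') k).trans k2
  have k5 := abs_le.1 k3
  have k6 := abs_le.1 k4
  rw [abs_le]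
  constructor <;> linarith

omit H in
/-- the distance to the ends of the boxes -/
theorem phi_ok {e : K.G} {u : ℝ}
    (hu1 : K.w (K.a e) (K.dir e) + (D.W C).wv (K.a e) / 2 - (D.G C).be (K.a e) / 8 ≤ u)
    (hu2 : u ≤ K.w (K.b e) (K.dir e) - (D.W C).wv (K.b e) / 2 + (D.G C).be (K.b e) / 8) :
    u ∉ Icc ((D.G C).tlo true (.inl e) (TBx.ax (.inl e)))
      ((D.G C).tlo true (.inl e) (TBx.ax (.inl e)) + 50 * ω3T δ C (.inl e)) ∧
    u ∉ Icc ((D.G C).thi true (.inl e) (TBx.ax (.inl e)) - 50 * ω3T δ C (.inl e))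
      ((D.G C).thi true (.inl e) (TBx.ax (.inl e))) := by
  obtain ⟨n1, n2, n3, n4, n5⟩ := Vale.Agent.P073.H190.Num3.num_inl D C e
  have n0 := D.ω3T_pos C (.inl e)
  have b1 := (D.G C).be_wv (K.a e)
  have b2 := (D.G C).be_wv (K.b e)
  have b3 := (D.G C).be_pos (K.a e)
  have b4 := (D.G C).be_pos (K.b e)
  have hu := (D.G C).uT_pos e
  have hlo : (D.G C).tlo true (.inl e) (K.dir e) = K.w (K.a e) (K.dir e) +
      (D.G C).be (K.a e) := by simp only [Geo.tlo, if_true]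
  have hhi : (D.G C).thi true (.inl e) (K.dir e) = K.w (K.b e) (K.dir e) -
      (D.G C).be (K.b e) := by simp only [Geo.thi, if_true]
  show u ∉ Icc ((D.G C).tlo true (.inl e) (K.dir e))
      ((D.G C).tlo true (.inl e) (K.dir e) + 50 * ω3T δ C (.inl e)) ∧
    u ∉ Icc ((D.G C).thi true (.inl e) (K.dir e) - 50 * ω3T δ C (.inl e))
      ((D.G C).thi true (.inl e) (K.dir e))
  rw [hlo, hhi]
  constructor
  · rintro ⟨-, k2⟩
    linarith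
  · rintro ⟨k1, -⟩
    linarith

/-- **positions near the boxes of round T, off the plates** -/
theorem pos_C {x' : V} (hx' : x' ∈ (edges M).seg e₀) {b : TBx K} (hb : b ∈ pB C J₀)
    {x₀ : V} (hx₀ : x₀ ∈ (edges M).seg e₀) (hz : h.toFun x₀ ∈ (D.G C).TB false b) :
    ((∃ i ∈ pW C J₀, h1.toFun x' ∈ interior (Zv (D.W C) i)) ∧ ∀ e, h1.toFun x' ∉ (D.B C).E e) ∨
    ∃ e, b = .inl e ∧ e ∈ pG C J₀ ∧ h1.toFun x' ∈ (D.B C).E e ∧
      (h1.toFun x' ∈ interior ((D.B C).E e) ∨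
        ∃ i ∈ pW C J₀, h1.toFun x' ∈ interior (Zv (D.W C) i)) ∧
      ∀ k, k ≠ K.dir e → |h1.toFun x' k - K.w (K.a e) k| ≤ 3 / 2 * (D.G C).lam e := by
  have hnear := fun k => H.met_near hb hx₀ hz hx' k
  rcases b with e | p
  · obtain ⟨n1, n2, n3, n4, n5⟩ := Vale.Agent.P073.H190.Num3.num_inl D C e
    have n0 := D.ω3T_pos C (.inl e)
    have hu := (D.G C).uT_pos e
    have heq : Vale.Agent.P073.H238.oT (D.G C) (.inl e) = (D.G C).oG e := rfl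
    rw [heq] at hnear
    have hG := inl_mem_pB.1 hb
    have hwa : K.a e ∈ pW C J₀ := pW_of_pG hG (Or.inl rfl)
    have hwb : K.b e ∈ pW C J₀ := pW_of_pG hG (Or.inr rfl)
    obtain ⟨k1, k2, k3, k4⟩ := near_inl (y := h1.toFun x') hz
      (m := 4 * (D.G C).oG e + ω3T δ C (.inl e)) (by linarith) hnear
    rcases tube_E (D.G C) k1 k2 k3 k4 with ⟨g1, g2⟩ | ⟨g1, g2⟩
    · left
      refine ⟨?_, g2⟩
      rcases g1 with g1 | g1
      · exact ⟨_, hwa, g1⟩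
      · exact ⟨_, hwb, g1⟩
    · right
      refine ⟨e, rfl, hG, g1, ?_, k2⟩
      rcases g2 with g2 | g2 | g2
      · exact Or.inl g2
      · exact Or.inr ⟨_, hwa, g2⟩
      · exact Or.inr ⟨_, hwb, g2⟩
  · left
    have n1 := D.ω3T_oT C (.inr p)
    have n0 := D.ω3T_pos C (.inr p)
    have n2 : Vale.Agent.P073.H238.oT (D.G C) (.inr p) = (D.G C).oW p.i := rfl
    rw [n2] at n1 hnear
    have n3 := (D.G C).oW_be p.i
    have hbe := (D.G C).be_pos p.i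
    obtain ⟨g1, g2⟩ := near_inr (y := h1.toFun x') hz
      (m := 4 * (D.G C).oW p.i + ω3T δ C (.inr p)) (by linarith) hnear
    exact ⟨⟨p.i, pW_of_pS (inr_mem_pB.1 hb) (hang_mem p), g1⟩, g2⟩

end EIn

end P073.H228.EP
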