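import Vale.Agent.P073.H228.EdgeP5E

/-!
# P073, block H228, [EDGE-P], part 5f: `CtlAt3` at every parameter of an edge
-/

open Set Metric Topology Filter
open scoped ENNReal

set_option linter.unusedSectionVars false

namespace P073.H228.EP

open P073 P073.Net P073.PA691 P073.H142 P073.H345 P073.H236 P073.H579 P073.H429 P073.H880
  P073.H936 P073.H936.K3
open Vale.Agent.P073.St (V)
open Vale.Agent.P073.H471 Vale.Agent.P073.H267 Vale.Agent.P073.H267.Geo
open Vale.Agent.P073.H233 (PSet Xp)
open Vale.Agent.P073.H193 (LAtC Edges edges)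
open Vale.Agent.P073.H228 (GAt)
open Vale.Agent.P073.H73 (Mesh onSeg)
open Vale.Agent.P073.H926 Vale.Agent.P073.H926.KIn3
open Vale.Agent.P073.H190.Tvp (wP near_PK CtlAt3 ArcP)
open P073.H190 (PT2)
open P073.H880.RP (thinL)
open P073.Croft (onS)

variable {c₀ n δ : ℝ} {j : ℕ} {Ω Λ : Set V} {v w : V} {ρ : V → ℝ} {M : Mesh Ω} {h : ConHomeo Ω Λ}
  {J₀ J : Set (ℕ × (Fin 3 → ℤ))} {P Z : Set M.ι} {K : BoxCx Λ w}
  {D : KIn3 c₀ n j δ v w ρ M h J₀ J P Z} {C : Cells ρ w K} {e₀ : (edges M).ε}
    {h1 h2 h3 h4 f5 : ConHomeo Ω Λ} {f : V → V}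
    {L : PLev (D.G C)} {c : K.S → Bool → ℝ} {c0 : ∀ s β, 0 < c s β} {c1 : ∀ s β, c s β ≤ L.c s β}
    {F : Bool → BFam 3 (D.dat C).S₀ Λ} {T T₂ : Bool → ConHomeo Λ Λ} {κ : Bool → V → V}
    {γ : ℝ → ℝ} {cT : ℝ} {μw : Bool → (D.dat C).S₀ → ℝ} {Xw : K.S → Bool → Set (ℝ × ℝ)}
    {dκ dD ηD dσ : K.S → ℝ} {Sv : K.G → Set ℝ} {Lc m : ℝ} {q₁ : K.S → ℝ} {e₁ sk εT : ℝ}

/-- the fattened windows are closed -/
theorem isClosed_Fat {Xw : K.S → Bool → Set (ℝ × ℝ)} {s : K.S} {β : Bool}
    (hf : (Xw s β).Finite) (r : ℝ) : IsClosed (Fat Xw s β r) := by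
  have e : Fat Xw s β r = ⋃ p ∈ Xw s β, Icc (p.1 - r) (p.2 + r) := by
    ext t
    simp only [Fat, mem_iUnion, exists_prop]
    rfl
  rw [e]
  exact hf.isClosed_biUnion fun p _ => isClosed_Icc

namespace EIn

variable
    (H : EIn D C e₀ h1 h2 h3 h4 f5 f L c c0 c1 F T T₂ κ γ cT μw Xw dκ dD ηD dσ Sv Lc m q₁ e₁ sk εT)


include H

/-- **positions near the boxes of round T, in a plate, far from its flat** -/
theorem pos_B {t : ℝ} (ht : t ∈ Icc (0:ℝ) 1) {s : K.S} (hs : s ∈ (D.dat C).S₀)
    (hZ : onS h2.toFun ((edges M).a e₀) ((edges M).b e₀) (γ t) ∈ PK (D.G C) s)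
    (hn : onS h2.toFun ((edges M).a e₀) ((edges M).b e₀) (γ t) ∉ interior ((D.G C).PB (7 / 8) s))
    (hZq : onS h2.toFun ((edges M).a e₀) ((edges M).b e₀) (γ t) = onS h1.toFun ((edges M).a e₀) ((edges M).b e₀) (γ t))
    {b : TBx K} {x₀ : V} (hx₀ : x₀ ∈ (edges M).seg e₀)
    (hz : h.toFun x₀ ∈ (D.G C).TB false b) :
    ((∃ i ∈ pW C J₀, f5.toFun (((edges M).a e₀) + t • (((edges M).b e₀) - ((edges M).a e₀))) ∈ interior (Zv (D.W C) i)) ∧
      ∀ e, f5.toFun (((edges M).a e₀) + t • (((edges M).b e₀) - ((edges M).a e₀))) ∉ (D.B C).E e) ∨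
    ∃ e, b = .inl e ∧ K.edge e ⊆ K.sq s ∧ f5.toFun (((edges M).a e₀) + t • (((edges M).b e₀) - ((edges M).a e₀))) ∈ (D.B C).E e ∧
      (f5.toFun (((edges M).a e₀) + t • (((edges M).b e₀) - ((edges M).a e₀))) ∈ interior ((D.B C).E e) ∨
        ∃ i ∈ pW C J₀, f5.toFun (((edges M).a e₀) + t • (((edges M).b e₀) - ((edges M).a e₀))) ∈ interior (Zv (D.W C) i)) ∧
      (∀ k, k ≠ K.dir e → |f5.toFun (((edges M).a e₀) + t • (((edges M).b e₀) - ((edges M).a e₀))) k - K.w (K.a e) k| ≤
        3 / 2 * (D.G C).lam e) ∧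
      ∀ β, K.dir e ≠ tg s β →
        onS h1.toFun ((edges M).a e₀) ((edges M).b e₀) (γ t) (tg s β) < K.slo s (tg s β) + (D.G C).a s ∨
        K.shi s (tg s β) - (D.G C).a s < onS h1.toFun ((edges M).a e₀) ((edges M).b e₀) (γ t) (tg s β) := by
  have hγ : γ t ∈ Icc (0:ℝ) 1 := H.arc.lift.maps ht
  have g1 := H.mv5 ht hs hZ hn
  have k1 := H.κ0 s
  have k2 := H.D0 s
  have k3 := H.η0 s
  have k4 := H.σ0 s
  rw [hZq] at g1 hZ
  obtain ⟨g2, g3⟩ := g1.at hZ (by positivity) (by positivity)
  have hq : h1.toFun (((edges M).a e₀) + γ t • (((edges M).b e₀) - ((edges M).a e₀))) ∈ PK (D.G C) s := hZ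
  have g4 := (Vale.Agent.P073.H190.Num3.at_PK3 D C H.near hs (H.pt_mem hγ) hq hx₀).1
  rcases zone_B (q := onS h1.toFun ((edges M).a e₀) ((edges M).b e₀) (γ t)) (y := f5.toFun (((edges M).a e₀) + t • (((edges M).b e₀) - ((edges M).a e₀)))) hZ g4 hz g2
    (fun β => (g3 β).1) (d := 2 * dκ s + 2 * dD s + dσ s)
    (fun β => by have := (g3 β).2.1; linarith) (H.small s hs) with ⟨⟨i, hi, g5⟩, g6⟩ |
      ⟨e, he, hes, -, g5, g6, g7, g8⟩
  · exact Or.inl ⟨⟨i, pW_of_pS hs hi, g5⟩, g6⟩
  · refine Or.inr ⟨e, he, hes, g5, ?_, g7, g8⟩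
    rcases g6 with g6 | ⟨i, hi, g6⟩
    · exact Or.inl g6
    · exact Or.inr ⟨i, pW_of_pS hs hi, g6⟩

/-- **the local theorem** -/
theorem ctl_at {φ : ℝ → ℝ} (hφ : ∀ u, (∀ b ∈ pB C J₀,
      (h.toFun '' (edges M).seg e₀ ∩ (D.G C).TB false b).Nonempty →
        u ∉ Icc ((D.G C).tlo true b b.ax) ((D.G C).tlo true b b.ax + 50 * ω3T δ C b) ∧
        u ∉ Icc ((D.G C).thi true b b.ax - 50 * ω3T δ C b) ((D.G C).thi true b b.ax)) →
        ∀ᶠ u' in 𝓝 u, φ u' - φ u = u' - u)
    {I : Finset (Fin 3)} (hI : ∀ l, (∀ b ∈ pB C J₀,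
      (h.toFun '' (edges M).seg e₀ ∩ (D.G C).TB false b).Nonempty → b.ax = l) → l ∈ I)
    {κw : (D.dat C).S₀ → ℝ} (hκw : ∀ s : (D.dat C).S₀, 8 * sk * q₁ s.1 ≤ κw s) {ι : ℝ}
    (hι : 0 ≤ ι) {g : ℝ → ℝ} {w₀ : ℝ} (hw0 : 0 ≤ w₀) {t : ℝ} (ht : t ∈ Icc (0:ℝ) 1)
    (hG : GAt (D.B C) (Xp C J₀) f w₀ (((edges M).a e₀), ((edges M).b e₀)) g t) :
    CtlAt3 (D.G C) F μw κw (fun s : (D.dat C).S₀ => (D.dat C).PE (D.G C) s.1)
      (onS h2.toFun ((edges M).a e₀) ((edges M).b e₀)) (onS h1.toFun ((edges M).a e₀) ((edges M).b e₀)) (onS h3.toFun ((edges M).a e₀) ((edges M).b e₀)) γ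
      (ArcP.H T₂ (onS h3.toFun ((edges M).a e₀) ((edges M).b e₀))) (8 * sk * Lc) (8 * sk * m) ι
      (w₀ + 8 * (sk * e₁ + εT) * ‖((edges M).b e₀) - ((edges M).a e₀)‖) I
      (fun l r => 8 * sk * φ (onS h1.toFun ((edges M).a e₀) ((edges M).b e₀) r l)) g t := by
  have hγ : γ t ∈ Icc (0:ℝ) 1 := H.arc.lift.maps ht
  have hx := H.pt_mem ht
  have hxγ := H.pt_mem hγ
  have hsk := H.sk1
  have hLc := H.Lc0
  have hm := H.m0
  have he1 := H.e0
  have hR : ∀ t', 0 ≤ ∑ i ∈ I, |8 * sk * φ (onS h1.toFun ((edges M).a e₀) ((edges M).b e₀) (γ t) i) -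
      8 * sk * φ (onS h1.toFun ((edges M).a e₀) ((edges M).b e₀) (γ t') i)| := fun t' =>
    Finset.sum_nonneg fun _ _ => abs_nonneg _
  have hgt : Tendsto γ (𝓝[Icc 0 1] t) (𝓝[Icc 0 1] (γ t)) :=
    tendsto_nhdsWithin_of_tendsto_nhds_of_eventually_within _ (H.arc.lift.cg t ht)
      (eventually_nhdsWithin_of_forall fun t' ht' => H.arc.lift.maps ht')
  have hHnn : ∀ t', 0 ≤ ∑ l, |ArcP.H T₂ (onS h3.toFun ((edges M).a e₀) ((edges M).b e₀)) t l -
      ArcP.H T₂ (onS h3.toFun ((edges M).a e₀) ((edges M).b e₀)) t' l| := fun t' =>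
    Finset.sum_nonneg fun _ _ => abs_nonneg _
  by_cases hA : ∃ s : (D.dat C).S₀, onS h2.toFun ((edges M).a e₀) ((edges M).b e₀) (γ t) ∈ interior ((D.G C).PB (7 / 8) s.1)
  · -- inside a plate
    obtain ⟨s, hs⟩ := hA
    left
    refine ⟨s, hs, ?_⟩
    have k1 := H.κ0 s.1
    have k2 := H.D0 s.1
    have k3 := H.η0 s.1
    have g1 := H.mv4 ht
    have hZ : onS h2.toFun ((edges M).a e₀) ((edges M).b e₀) (γ t) ∈ PK (D.G C) s.1 :=
      PB_sub_PK (by norm_num) s.1 (interior_subset hs)
    have g2 := g1.int_fwd (by positivity) (by positivity) hs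
    have g3 : h4.toFun (((edges M).a e₀) + t • (((edges M).b e₀) - ((edges M).a e₀))) ∈ PK (D.G C) s.1 :=
      PB_sub_PK (by norm_num) s.1 (interior_subset g2)
    have g4 := H.po.pk _ hx s.1 s.2 g3
    have g5 := H.po.low _ hx s.1 s.2 g3 (mem_int_PB.1 g2).2
    have Pr := pres_PK (X := Xp C J₀) (Sv := Sv) (A := (edges M).seg e₀)
      (x := ((edges M).a e₀) + t • (((edges M).b e₀) - ((edges M).a e₀))) (f5 := f5.toFun)
      (cst := fun y => Lc * ∑ β', |wP (D.G C) s.1 β' (h4.toFun y (tg s.1 β')) -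
        wP (D.G C) s.1 β' (h4.toFun (((edges M).a e₀) + t • (((edges M).b e₀) - ((edges M).a e₀))) (tg s.1 β'))| +
        (0:ℝ) * ∑ l ∈ (∅ : Finset (Fin 3)), |h4.toFun y l - h4.toFun (((edges M).a e₀) + t • (((edges M).b e₀) - ((edges M).a e₀))) l| +
        (0:ℝ) * ‖h4.toFun y - h4.toFun (((edges M).a e₀) + t • (((edges M).b e₀) - ((edges M).a e₀)))‖ +
        e₁ * ‖y - (((edges M).a e₀) + t • (((edges M).b e₀) - ((edges M).a e₀)))‖)
      (fun e he => pG_of_pS s.2 he) s.2 (fun i hi => pW_of_pS s.2 hi) (H.cont5 ht) g4 g5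
      fun β => by
        filter_upwards [H.po.win_in _ hx s.1 s.2 g2 β] with y hy
        rw [zero_mul, zero_mul, add_zero, add_zero]
        exact hy
    have g6 := H.plate_cost hw0 ht hG le_rfl le_rfl Pr hR
    filter_upwards [g6] with t' g7
    have g8 := mul_nonneg hι (hHnn t')
    simp only [mul_zero, zero_mul, add_zero] at g7
    linarith
  push Not at hA
  by_cases hB : ∃ s : (D.dat C).S₀, onS h2.toFun ((edges M).a e₀) ((edges M).b e₀) (γ t) ∈ PK (D.G C) s.1
  · -- in a plate, far from the flat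
    obtain ⟨s, hZ⟩ := hB
    have hn := hA s
    have hU : ∀ s' : (D.dat C).S₀, onS h2.toFun ((edges M).a e₀) ((edges M).b e₀) (γ t) ∉ (D.dat C).PE (D.G C) s'.1 :=
      fun s' h' => hA s' (H.arc.full s' h')
    have hfade := H.arc.fade (γ t) hγ hU
    have hZq : onS h2.toFun ((edges M).a e₀) ((edges M).b e₀) (γ t) = onS h1.toFun ((edges M).a e₀) ((edges M).b e₀) (γ t) :=
      hfade.self_of_nhdsWithin hγ
    have k1 := H.κ0 s.1
    have k2 := H.D0 s.1
    have k3 := H.η0 s.1
    have k4 := H.σ0 s.1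
    have k5 := H.q0 s.1
    have k6 := hκw s
    have g1 := H.mv4 ht
    have h4K : h4.toFun (((edges M).a e₀) + t • (((edges M).b e₀) - ((edges M).a e₀))) ∈ PK (D.G C) s.1 := g1.pk' hZ
    have h4n : h4.toFun (((edges M).a e₀) + t • (((edges M).b e₀) - ((edges M).a e₀))) ∉ interior ((D.G C).PB (7 / 8) s.1) := fun hi =>
      hn (g1.int_back (by positivity) (by positivity) hi)
    have h5K := H.po.pk _ hx s.1 s.2 h4K
    have hqK : onS h1.toFun ((edges M).a e₀) ((edges M).b e₀) (γ t) ∈ PK (D.G C) s.1 := hZq ▸ hZ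
    have hqc : ContinuousWithinAt (onS h1.toFun ((edges M).a e₀) ((edges M).b e₀)) (Icc 0 1) (γ t) := by
      have e1 : ContinuousOn (onS h1.toFun ((edges M).a e₀) ((edges M).b e₀)) (Icc 0 1) :=
        h1.cont.comp (Continuous.continuousOn (by fun_prop)) fun r hr => H.pt_Ω hr
      exact e1 _ hγ
    have hqco : ∀ l, Tendsto (fun r => onS h1.toFun ((edges M).a e₀) ((edges M).b e₀) r l) (𝓝[Icc 0 1] (γ t))
        (𝓝 (onS h1.toFun ((edges M).a e₀) ((edges M).b e₀) (γ t) l)) := fun l =>
      ((continuous_apply l).tendsto _).comp hqc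
    by_cases hmet : ∃ b ∈ pB C J₀, (h.toFun '' (edges M).seg e₀ ∩ (D.G C).TB false b).Nonempty
    · obtain ⟨b, hb, _, ⟨x₀, hx₀, rfl⟩, hz⟩ := hmet
      rcases H.pos_B ht s.2 hZ hn hZq hx₀ hz with ⟨g2, g3⟩ | ⟨e, rfl, hes, g2, g3, g4, g5⟩
      · right; right
        filter_upwards [H.zero_cost hw0 ht hG (pres_dead (X := Xp C J₀) g2 g3) hR] with t' g6
          using g6
      · -- all boxes which the edge meets are the box at `e`
        have hall : ∀ b' ∈ pB C J₀,
            (h.toFun '' (edges M).seg e₀ ∩ (D.G C).TB false b').Nonempty → b' = .inl e := by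
          rintro b' hb' ⟨_, ⟨x₀', hx₀', rfl⟩, hz'⟩
          rcases H.pos_B ht s.2 hZ hn hZq hx₀' hz' with ⟨-, g6⟩ | ⟨e', rfl, -, g6, -⟩
          · exact absurd g2 (g6 e)
          · rw [E_unique g2 g6]
        have heG : e ∈ (Xp C J₀).e := pG_of_pS s.2 hes
        have hfl : ∀ i, i ≠ K.dir e → FlT (D.B C) e i (f5.toFun (((edges M).a e₀) + t • (((edges M).b e₀) - ((edges M).a e₀))) i) :=
          fun i hi => fl_lat (D.G C) (g4 i hi)
        have hne : K.dir e ≠ K.nrm s.1 := (nrm_ne_dir hes).symm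
        have hβ₀ : tg s.1 (bt s.1 (K.dir e)) = K.dir e := tg_bt s.1 hne
        have m5 := H.mv5 ht s.2 hZ hn
        obtain ⟨-, g6⟩ := m5.at hZ (by positivity) (by positivity)
        have g7 := g6 (bt s.1 (K.dir e))
        rw [hβ₀] at g7
        obtain ⟨-, g8, g9⟩ := g7
        have m3 := H.mv3 ht
        by_cases hF : onS h1.toFun ((edges M).a e₀) ((edges M).b e₀) (γ t) (K.dir e) ∈ Fat Xw s.1 (bt s.1 (K.dir e))
            (dκ s.1 + dκ s.1)
        · -- over a window
          right; right
          have g10 := g9 (dκ s.1 + dκ s.1) (by positivity) (by rw [hZq]; exact hF)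
          have Pr : PRes (D.B C) (Xp C J₀) (FlT (D.B C)) Sv (fun _ => 0) ((edges M).seg e₀)
              f5.toFun (((edges M).a e₀) + t • (((edges M).b e₀) - ((edges M).a e₀))) := by
            refine Or.inr ⟨e, heG, g2, ?_, hfl⟩
            refine H.sv s.1 s.2 e hes (bt s.1 (K.dir e)) hβ₀ ?_
            exact Fat.mono (by linarith) g10
          filter_upwards [H.zero_cost hw0 ht hG Pr hR] with t' g6 using g6
        · -- off the windows
          right; left
          refine ⟨s, hZ, hU, ∅, Or.inr ?_, ?_, ?_⟩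
          · obtain ⟨-, g10⟩ := m3.at hZ (by positivity) (by positivity)
            have hYK : onS h3.toFun ((edges M).a e₀) ((edges M).b e₀) t ∈ PK (D.G C) s.1 := m3.pk' hZ
            have hYc : ∀ l, Tendsto (fun r => onS h3.toFun ((edges M).a e₀) ((edges M).b e₀) r l) (𝓝[Icc 0 1] t)
                (𝓝 (onS h3.toFun ((edges M).a e₀) ((edges M).b e₀) t l)) := fun l =>
              ((continuous_apply l).tendsto _).comp (H.arc.lift.cY t ht)
            rw [eventually_all]
            intro β
            by_cases hβ : tg s.1 β = K.dir e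
            · have hβe : β = bt s.1 (K.dir e) := by
                rw [← hβ, bt_tg]
              have g11 : onS h3.toFun ((edges M).a e₀) ((edges M).b e₀) t (tg s.1 β) ∉ Fat Xw s.1 β 0 := by
                intro hin
                refine hF ?_
                have g12 := Fat.add (η := dκ s.1 + dκ s.1)
                  (t' := onS h1.toFun ((edges M).a e₀) ((edges M).b e₀) (γ t) (tg s.1 β)) hin (by
                  have g13 := (g10 β).2.1
                  rw [hZq, abs_sub_comm] at g13
                  exact g13)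
                rw [hβ] at g12
                rw [← hβe]
                exact Fat.mono (by linarith) g12
              filter_upwards [(hYc (tg s.1 β)).eventually
                ((isClosed_Fat (H.fin s.1 β) 0).isOpen_compl.mem_nhds g11)] with t' g12
              exact H.hμ β s _ g12
            · have g11 := g5 β (Ne.symm hβ)
              have g12 : onS h3.toFun ((edges M).a e₀) ((edges M).b e₀) t (tg s.1 β) = onS h1.toFun ((edges M).a e₀) ((edges M).b e₀) (γ t) (tg s.1 β) := by
                rcases (g10 β).1 with g13 | ⟨g13, -⟩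
                · rw [g13, hZq]
                · rw [hZq] at g13
                  rcases g11 with g11 | g11
                  · exact absurd g13.1 (not_le.2 g11)
                  · exact absurd g13.2 (not_le.2 g11)
              rw [← g12] at g11
              have hal : ((F β).B s).al = K.slo s.1 (tg s.1 β) + (D.G C).a s.1 :=
                (H.pt2.B β s).al
              have hbe : ((F β).B s).be = K.shi s.1 (tg s.1 β) - (D.G C).a s.1 :=
                (H.pt2.B β s).be
              have g13 : ∀ᶠ t' in 𝓝[Icc 0 1] t, onS h3.toFun ((edges M).a e₀) ((edges M).b e₀) t' (tg s.1 β) ≤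
                  ((F β).B s).al ∨ ((F β).B s).be ≤ onS h3.toFun ((edges M).a e₀) ((edges M).b e₀) t' (tg s.1 β) := by
                rcases g11 with g11 | g11
                · filter_upwards [(hYc (tg s.1 β)).eventually (gt_mem_nhds g11)] with t' g14
                  left; rw [hal]; exact g14.le
                · filter_upwards [(hYc (tg s.1 β)).eventually (lt_mem_nhds g11)] with t' g14
                  right; rw [hbe]; exact g14.le
              filter_upwards [g13] with t' g14
              rw [(F β).σ_out g14, sub_self, abs_zero]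
              exact H.pt2.μ0 β s
          · have hwin := H.po.win _ hx s.1 s.2 h4K (bt s.1 (K.dir e))
            have Pr := pres_E (X := Xp C J₀) (Sv := Sv) (A := (edges M).seg e₀)
              (x := ((edges M).a e₀) + t • (((edges M).b e₀) - ((edges M).a e₀))) (f5 := f5.toFun)
              (cst := fun y => Lc * ∑ β', |wP (D.G C) s.1 β' (h4.toFun y (tg s.1 β')) -
                wP (D.G C) s.1 β' (h4.toFun (((edges M).a e₀) + t • (((edges M).b e₀) - ((edges M).a e₀))) (tg s.1 β'))| +
                (0:ℝ) * ∑ l ∈ (∅ : Finset (Fin 3)), |h4.toFun y l -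
                  h4.toFun (((edges M).a e₀) + t • (((edges M).b e₀) - ((edges M).a e₀))) l| +
                q₁ s.1 * ‖h4.toFun y - h4.toFun (((edges M).a e₀) + t • (((edges M).b e₀) - ((edges M).a e₀)))‖ +
                e₁ * ‖y - (((edges M).a e₀) + t • (((edges M).b e₀) - ((edges M).a e₀)))‖) heG g2 g3 hfl (by
                  have g10 := ev_win (β := bt s.1 (K.dir e)) (H.cont5 ht) hwin (by
                    rw [hβ₀]
                    exact win_of_PK_E h5K g2)
                  rw [hβ₀] at g10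
                  filter_upwards [g10] with y hy
                  rw [zero_mul, add_zero]
                  exact hy)
            have g10 := H.plate_cost hw0 ht hG le_rfl k5 Pr hR
            filter_upwards [g10] with t' g11
            have g12 := mul_nonneg hι (hHnn t')
            have g13 := mul_le_mul_of_nonneg_right k6 (hHnn t')
            simp only [mul_zero, add_zero, Finset.sum_empty] at g11 ⊢
            rw [add_mul]
            linarith
          · -- the old coordinates
            have g10 : K.w (K.a e) (K.dir e) + (D.W C).wv (K.a e) / 2 - (D.G C).be (K.a e) / 8 ≤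
                onS h1.toFun ((edges M).a e₀) ((edges M).b e₀) (γ t) (K.dir e) ∧ onS h1.toFun ((edges M).a e₀) ((edges M).b e₀) (γ t) (K.dir e) ≤
                K.w (K.b e) (K.dir e) - (D.W C).wv (K.b e) / 2 + (D.G C).be (K.b e) / 8 := by
              have g11 := g2.1
              have g12 := H.small s.1 s.2 _ (hes (TM.wa_mem K e))
              have g13 := H.small s.1 s.2 _ (hes (TM.wb_mem K e))
              rw [hZq] at g8
              have g14 := abs_le.1 g8
              constructor <;> linarith [g11.1, g11.2, g14.1, g14.2]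
            have g11 := hφ (onS h1.toFun ((edges M).a e₀) ((edges M).b e₀) (γ t) (K.dir e)) fun b' hb' hm' => by
              rw [hall b' hb' hm']
              exact phi_ok g10.1 g10.2
            have hIe : K.dir e ∈ I := hI _ fun b' hb' hm' => by
              rw [hall b' hb' hm']
              rfl
            have g12 : ∀ᶠ r in 𝓝[Icc 0 1] (γ t), |onS h1.toFun ((edges M).a e₀) ((edges M).b e₀) (γ t) (K.dir e) -
                onS h1.toFun ((edges M).a e₀) ((edges M).b e₀) r (K.dir e)| ≤ ∑ i ∈ I,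
                |8 * sk * φ (onS h1.toFun ((edges M).a e₀) ((edges M).b e₀) (γ t) i) -
                  8 * sk * φ (onS h1.toFun ((edges M).a e₀) ((edges M).b e₀) r i)| := by
              filter_upwards [(hqco (K.dir e)).eventually g11] with r g13
              have g14 : |8 * sk * φ (onS h1.toFun ((edges M).a e₀) ((edges M).b e₀) (γ t) (K.dir e)) -
                  8 * sk * φ (onS h1.toFun ((edges M).a e₀) ((edges M).b e₀) r (K.dir e))| ≤ ∑ i ∈ I,
                |8 * sk * φ (onS h1.toFun ((edges M).a e₀) ((edges M).b e₀) (γ t) i) -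
                  8 * sk * φ (onS h1.toFun ((edges M).a e₀) ((edges M).b e₀) r i)| :=
                Finset.single_le_sum (f := fun i => |8 * sk * φ (onS h1.toFun ((edges M).a e₀) ((edges M).b e₀) (γ t) i) -
                  8 * sk * φ (onS h1.toFun ((edges M).a e₀) ((edges M).b e₀) r i)|) (fun _ _ => abs_nonneg _) hIe
              refine le_trans ?_ g14
              rw [← mul_sub, abs_mul, abs_of_nonneg (by positivity : 0 ≤ 8 * sk),
                abs_sub_comm (φ _), g13, abs_sub_comm]
              have := abs_nonneg (onS h1.toFun ((edges M).a e₀) ((edges M).b e₀) r (K.dir e) -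
                onS h1.toFun ((edges M).a e₀) ((edges M).b e₀) (γ t) (K.dir e))
              nlinarith
            have g13 : ∀ᶠ r in 𝓝[Icc 0 1] (γ t), ∀ β,
                |wP (D.G C) s.1 β (onS h1.toFun ((edges M).a e₀) ((edges M).b e₀) (γ t) (tg s.1 β)) -
                  wP (D.G C) s.1 β (onS h1.toFun ((edges M).a e₀) ((edges M).b e₀) r (tg s.1 β))| ≤ ∑ i ∈ I,
                |8 * sk * φ (onS h1.toFun ((edges M).a e₀) ((edges M).b e₀) (γ t) i) -
                  8 * sk * φ (onS h1.toFun ((edges M).a e₀) ((edges M).b e₀) r i)| := by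
              rw [eventually_all]
              intro β
              by_cases hβ : tg s.1 β = K.dir e
              · filter_upwards [g12] with r g14
                rw [← hβ] at g14
                exact (abs_clamp_le _ _ _ _).trans g14
              · have g14 := g5 β (Ne.symm hβ)
                have hab : K.slo s.1 (tg s.1 β) + (D.G C).a s.1 ≤
                    K.shi s.1 (tg s.1 β) - (D.G C).a s.1 := by
                  have hal : ((F β).B s).al = K.slo s.1 (tg s.1 β) + (D.G C).a s.1 :=
                    (H.pt2.B β s).al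
                  have hbe : ((F β).B s).be = K.shi s.1 (tg s.1 β) - (D.G C).a s.1 :=
                    (H.pt2.B β s).be
                  rw [← hal, ← hbe]
                  exact ((F β).B s).al_lt_be.le
                rcases g14 with g14 | g14
                · filter_upwards [(hqco (tg s.1 β)).eventually (gt_mem_nhds g14)] with r g15
                  unfold wP
                  rw [clamp_le hab g14.le, clamp_le hab g15.le, sub_self, abs_zero]
                  exact Finset.sum_nonneg fun _ _ => abs_nonneg _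
                · filter_upwards [(hqco (tg s.1 β)).eventually (lt_mem_nhds g14)] with r g15
                  unfold wP
                  rw [clamp_ge hab g14.le, clamp_ge hab g15.le, sub_self, abs_zero]
                  exact Finset.sum_nonneg fun _ _ => abs_nonneg _
            filter_upwards [g13] with r g14
            exact ⟨g14, fun l hl => absurd hl (Finset.notMem_empty l)⟩
    · -- no box of round T
      push Not at hmet
      have hmet' : ∀ b ∈ pB C J₀,
          ¬ (h.toFun '' (edges M).seg e₀ ∩ (D.G C).TB false b).Nonempty := fun b hb => by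
        rw [not_nonempty_iff_eq_empty]; exact hmet b hb
      have hIu : ∀ l, l ∈ I := fun l => hI l fun b hb hm => absurd hm (hmet' b hb)
      have hφu : ∀ u, ∀ᶠ u' in 𝓝 u, φ u' - φ u = u' - u := fun u =>
        hφ u fun b hb hm => absurd hm (hmet' b hb)
      have g2 : ∀ᶠ r in 𝓝[Icc 0 1] (γ t), ∀ l, |onS h1.toFun ((edges M).a e₀) ((edges M).b e₀) (γ t) l -
          onS h1.toFun ((edges M).a e₀) ((edges M).b e₀) r l| ≤ ∑ i ∈ I, |8 * sk * φ (onS h1.toFun ((edges M).a e₀) ((edges M).b e₀) (γ t) i) -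
            8 * sk * φ (onS h1.toFun ((edges M).a e₀) ((edges M).b e₀) r i)| := by
        rw [eventually_all]
        intro l
        filter_upwards [(hqco l).eventually (hφu _)] with r g13
        have g14 : |8 * sk * φ (onS h1.toFun ((edges M).a e₀) ((edges M).b e₀) (γ t) l) -
            8 * sk * φ (onS h1.toFun ((edges M).a e₀) ((edges M).b e₀) r l)| ≤ ∑ i ∈ I,
          |8 * sk * φ (onS h1.toFun ((edges M).a e₀) ((edges M).b e₀) (γ t) i) -
            8 * sk * φ (onS h1.toFun ((edges M).a e₀) ((edges M).b e₀) r i)| :=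
          Finset.single_le_sum (f := fun i => |8 * sk * φ (onS h1.toFun ((edges M).a e₀) ((edges M).b e₀) (γ t) i) -
            8 * sk * φ (onS h1.toFun ((edges M).a e₀) ((edges M).b e₀) r i)|) (fun _ _ => abs_nonneg _) (hIu l)
        refine le_trans ?_ g14
        rw [← mul_sub, abs_mul, abs_of_nonneg (by positivity : 0 ≤ 8 * sk),
          abs_sub_comm (φ _), g13, abs_sub_comm]
        have := abs_nonneg (onS h1.toFun ((edges M).a e₀) ((edges M).b e₀) r l - onS h1.toFun ((edges M).a e₀) ((edges M).b e₀) (γ t) l)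
        nlinarith
      right; left
      refine ⟨s, hZ, hU, Finset.univ, Or.inl rfl, ?_, ?_⟩
      · have Pr := pres_all (B := D.B C) (X := Xp C J₀) (Sv := Sv) (A := (edges M).seg e₀)
          (x := ((edges M).a e₀) + t • (((edges M).b e₀) - ((edges M).a e₀))) (f5 := f5.toFun)
          (cst := fun y => Lc * ∑ β', |wP (D.G C) s.1 β' (h4.toFun y (tg s.1 β')) -
            wP (D.G C) s.1 β' (h4.toFun (((edges M).a e₀) + t • (((edges M).b e₀) - ((edges M).a e₀))) (tg s.1 β'))| +
            m * ∑ l ∈ (Finset.univ : Finset (Fin 3)), |h4.toFun y l -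
              h4.toFun (((edges M).a e₀) + t • (((edges M).b e₀) - ((edges M).a e₀))) l| +
            q₁ s.1 * ‖h4.toFun y - h4.toFun (((edges M).a e₀) + t • (((edges M).b e₀) - ((edges M).a e₀)))‖ +
            e₁ * ‖y - (((edges M).a e₀) + t • (((edges M).b e₀) - ((edges M).a e₀)))‖)
          (Eventually.of_forall fun y => by positivity) (by
            filter_upwards [H.po.far _ hx s.1 s.2 h4K h4n] with y hy l
            refine (hy l).trans ?_
            have g3 : |h4.toFun y l - h4.toFun (((edges M).a e₀) + t • (((edges M).b e₀) - ((edges M).a e₀))) l| ≤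
                ∑ l ∈ (Finset.univ : Finset (Fin 3)), |h4.toFun y l -
                  h4.toFun (((edges M).a e₀) + t • (((edges M).b e₀) - ((edges M).a e₀))) l| :=
              Finset.single_le_sum (f := fun l => |h4.toFun y l -
                h4.toFun (((edges M).a e₀) + t • (((edges M).b e₀) - ((edges M).a e₀))) l|) (fun _ _ => abs_nonneg _) (Finset.mem_univ l)
            have g4 := mul_le_mul_of_nonneg_left g3 hm
            have g5 : 0 ≤ Lc * ∑ β', |wP (D.G C) s.1 β' (h4.toFun y (tg s.1 β')) -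
              wP (D.G C) s.1 β' (h4.toFun (((edges M).a e₀) + t • (((edges M).b e₀) - ((edges M).a e₀))) (tg s.1 β'))| := by positivity
            have g6 : 0 ≤ e₁ * ‖y - (((edges M).a e₀) + t • (((edges M).b e₀) - ((edges M).a e₀)))‖ := by positivity
            linarith)
        have g10 := H.plate_cost hw0 ht hG hm k5 Pr hR
        filter_upwards [g10] with t' g11
        have g12 := mul_nonneg hι (hHnn t')
        have g13 := mul_le_mul_of_nonneg_right k6 (hHnn t')
        rw [add_mul]
        linarith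
      · filter_upwards [g2] with r g3
        exact ⟨fun β => (abs_clamp_le _ _ _ _).trans (g3 _), fun l _ => g3 l⟩
  · -- off the plates
    push Not at hB
    right; right
    have hU : ∀ s' : (D.dat C).S₀, onS h2.toFun ((edges M).a e₀) ((edges M).b e₀) (γ t) ∉ (D.dat C).PE (D.G C) s'.1 :=
      fun s' h' => hA s' (H.arc.full s' h')
    have hfade := H.arc.fade (γ t) hγ hU
    have hY0 : ∀ s : (D.dat C).S₀, onS h3.toFun ((edges M).a e₀) ((edges M).b e₀) t ∉ PK (D.G C) s.1 := fun s hs =>
      hB s ((H.arc.mem_PK ht s.1).2 hs)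
    -- the positions
    have hh4 : ∀ t' ∈ Icc (0:ℝ) 1, (∀ s : (D.dat C).S₀, onS h3.toFun ((edges M).a e₀) ((edges M).b e₀) t' ∉ PK (D.G C) s.1) →
        h4.toFun (((edges M).a e₀) + t' • (((edges M).b e₀) - ((edges M).a e₀))) = onS h2.toFun ((edges M).a e₀) ((edges M).b e₀) (γ t') := by
      intro t' ht' hY
      have e1 : h4.toFun (((edges M).a e₀) + t' • (((edges M).b e₀) - ((edges M).a e₀))) = onS h3.toFun ((edges M).a e₀) ((edges M).b e₀) t' := by
        rw [H.map4 _ (H.pt_mem ht')]
        exact Vale.Agent.P073.H190.Tvp.P2.map_off H.pt2 hY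
      have e2 := H.arc.lift.eq t' ht'
      have e3 : κ false (onS h3.toFun ((edges M).a e₀) ((edges M).b e₀) t') = onS h3.toFun ((edges M).a e₀) ((edges M).b e₀) t' :=
        (H.arc.isQ false).off _ fun s' hs' => hY s' (PLev.mem_bxK.1 hs').1
      have e4 : κ true (onS h3.toFun ((edges M).a e₀) ((edges M).b e₀) t') = onS h3.toFun ((edges M).a e₀) ((edges M).b e₀) t' :=
        (H.arc.isQ true).off _ fun s' hs' => hY s' (PLev.mem_bxK.1 hs').1
      change κ true (κ false (onS h3.toFun ((edges M).a e₀) ((edges M).b e₀) t')) = onS h2.toFun ((edges M).a e₀) ((edges M).b e₀) (γ t') at e2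
      rw [e3, e4] at e2
      rw [e1, e2]
    have h40 : ∀ s ∈ (D.dat C).S₀, h4.toFun (((edges M).a e₀) + t • (((edges M).b e₀) - ((edges M).a e₀))) ∉ PK (D.G C) s := by
      intro s hs hK
      rw [hh4 t ht hY0] at hK
      exact hB ⟨s, hs⟩ hK
    have hfin : ∀ᶠ t' in 𝓝[Icc 0 1] t, f5.toFun (((edges M).a e₀) + t' • (((edges M).b e₀) - ((edges M).a e₀))) =
        onS h1.toFun ((edges M).a e₀) ((edges M).b e₀) (γ t') := by
      have g1 := (tendsto_seg (((edges M).a e₀), ((edges M).b e₀)) (r := t)).eventually (H.po.off _ hx h40)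
      filter_upwards [g1, H.arc.none ht hY0, hgt.eventually hfade, self_mem_nhdsWithin]
        with t' g2 g3 g4 g5
      have g6 := hh4 t' g5 g3
      rw [g4] at g6
      exact g2.trans g6
    have hfin0 : f5.toFun (((edges M).a e₀) + t • (((edges M).b e₀) - ((edges M).a e₀))) = onS h1.toFun ((edges M).a e₀) ((edges M).b e₀) (γ t) :=
      hfin.self_of_nhdsWithin ht
    have hqc : ContinuousWithinAt (onS h1.toFun ((edges M).a e₀) ((edges M).b e₀)) (Icc 0 1) (γ t) := by
      have e1 : ContinuousOn (onS h1.toFun ((edges M).a e₀) ((edges M).b e₀)) (Icc 0 1) :=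
        h1.cont.comp (Continuous.continuousOn (by fun_prop)) fun r hr => H.pt_Ω hr
      exact e1 _ hγ
    have hqco : ∀ l, Tendsto (fun r => onS h1.toFun ((edges M).a e₀) ((edges M).b e₀) (γ r) l) (𝓝[Icc 0 1] t)
        (𝓝 (onS h1.toFun ((edges M).a e₀) ((edges M).b e₀) (γ t) l)) := fun l =>
      (((continuous_apply l).tendsto _).comp hqc).comp hgt
    have hee : ∀ t', 0 ≤ 8 * (sk * e₁) * ‖((edges M).b e₀) - ((edges M).a e₀)‖ * |t - t'| := fun t' => by positivity
    have step : ∀ l, l ∈ I → (∀ᶠ u' in 𝓝 (onS h1.toFun ((edges M).a e₀) ((edges M).b e₀) (γ t) l),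
        φ u' - φ (onS h1.toFun ((edges M).a e₀) ((edges M).b e₀) (γ t) l) = u' - onS h1.toFun ((edges M).a e₀) ((edges M).b e₀) (γ t) l) →
        ∀ᶠ t' in 𝓝[Icc 0 1] t, 8 * sk * |f5.toFun (((edges M).a e₀) + t' • (((edges M).b e₀) - ((edges M).a e₀))) l -
          f5.toFun (((edges M).a e₀) + t • (((edges M).b e₀) - ((edges M).a e₀))) l| ≤ |8 * sk * φ (onS h1.toFun ((edges M).a e₀) ((edges M).b e₀) (γ t) l) -
            8 * sk * φ (onS h1.toFun ((edges M).a e₀) ((edges M).b e₀) (γ t') l)| := by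
      intro l hl g1
      filter_upwards [hfin, (hqco l).eventually g1] with t' g2 g3
      rw [g2, hfin0, ← mul_sub, abs_mul, abs_of_nonneg (by positivity : 0 ≤ 8 * sk),
        abs_sub_comm (φ _), g3]
    by_cases hmet : ∃ b ∈ pB C J₀, (h.toFun '' (edges M).seg e₀ ∩ (D.G C).TB false b).Nonempty
    · obtain ⟨b, hb, _, ⟨x₀, hx₀, rfl⟩, hz⟩ := hmet
      rcases H.pos_C hxγ hb hx₀ hz with ⟨g2, g3⟩ | ⟨e, rfl, heG, g2, g3, g4⟩
      · have g2' : ∃ i ∈ (Xp C J₀).w, f5.toFun (((edges M).a e₀) + t • (((edges M).b e₀) - ((edges M).a e₀))) ∈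
            interior (Zv (D.W C) i) := by rw [hfin0]; exact g2
        have g3' : ∀ e, f5.toFun (((edges M).a e₀) + t • (((edges M).b e₀) - ((edges M).a e₀))) ∉ (D.B C).E e := by rw [hfin0]; exact g3
        filter_upwards [H.zero_cost hw0 ht hG (pres_dead (X := Xp C J₀) g2' g3') hR] with t' g6
          using g6
      · have hall : ∀ b' ∈ pB C J₀,
            (h.toFun '' (edges M).seg e₀ ∩ (D.G C).TB false b').Nonempty → b' = .inl e := by
          rintro b' hb' ⟨_, ⟨x₀', hx₀', rfl⟩, hz'⟩
          rcases H.pos_C hxγ hb' hx₀' hz' with ⟨-, g6⟩ | ⟨e', rfl, -, g6, -⟩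
          · exact absurd g2 (g6 e)
          · rw [E_unique g2 g6]
        have hbea := (D.G C).be_pos (K.a e)
        have hbeb := (D.G C).be_pos (K.b e)
        have g10 := g2.1
        have g11 := hφ (onS h1.toFun ((edges M).a e₀) ((edges M).b e₀) (γ t) (K.dir e)) fun b' hb' hm' => by
          rw [hall b' hb' hm']
          refine phi_ok ?_ ?_
          · exact le_trans (by linarith) g10.1
          · exact g10.2.trans (by linarith)
        have hIe : K.dir e ∈ I := hI _ fun b' hb' hm' => by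
          rw [hall b' hb' hm']
          rfl
        have Pr := pres_E (B := D.B C) (X := Xp C J₀) (Sv := Sv) (A := (edges M).seg e₀)
          (x := ((edges M).a e₀) + t • (((edges M).b e₀) - ((edges M).a e₀))) (f5 := f5.toFun)
          (cst := fun y => |f5.toFun y (K.dir e) - f5.toFun (((edges M).a e₀) + t • (((edges M).b e₀) - ((edges M).a e₀))) (K.dir e)|)
          heG (by rw [hfin0]; exact g2) (by rw [hfin0]; exact g3)
          (by rw [hfin0]; exact fun i hi => fl_lat (D.G C) (g4 i hi))
          (Eventually.of_forall fun y => le_rfl)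
        filter_upwards [H.est hw0 ht hG (fun y => abs_nonneg _) Pr, step _ hIe g11] with t' g12 g13
        have g14 : |8 * sk * φ (onS h1.toFun ((edges M).a e₀) ((edges M).b e₀) (γ t) (K.dir e)) -
            8 * sk * φ (onS h1.toFun ((edges M).a e₀) ((edges M).b e₀) (γ t') (K.dir e))| ≤ ∑ i ∈ I,
          |8 * sk * φ (onS h1.toFun ((edges M).a e₀) ((edges M).b e₀) (γ t) i) -
            8 * sk * φ (onS h1.toFun ((edges M).a e₀) ((edges M).b e₀) (γ t') i)| :=
          Finset.single_le_sum (f := fun i => |8 * sk * φ (onS h1.toFun ((edges M).a e₀) ((edges M).b e₀) (γ t) i) -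
            8 * sk * φ (onS h1.toFun ((edges M).a e₀) ((edges M).b e₀) (γ t') i)|) (fun _ _ => abs_nonneg _) hIe
        have g15 := hee t'
        nlinarith
    · push Not at hmet
      have hmet' : ∀ b ∈ pB C J₀,
          ¬ (h.toFun '' (edges M).seg e₀ ∩ (D.G C).TB false b).Nonempty := fun b hb => by
        rw [not_nonempty_iff_eq_empty]; exact hmet b hb
      have hIu : ∀ l, l ∈ I := fun l => hI l fun b hb hm => absurd hm (hmet' b hb)
      have hφu : ∀ u, ∀ᶠ u' in 𝓝 u, φ u' - φ u = u' - u := fun u =>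
        hφ u fun b hb hm => absurd hm (hmet' b hb)
      have Pr := pres_all (B := D.B C) (X := Xp C J₀) (Sv := Sv) (A := (edges M).seg e₀)
        (x := ((edges M).a e₀) + t • (((edges M).b e₀) - ((edges M).a e₀))) (f5 := f5.toFun)
        (cst := fun y => ∑ l, |f5.toFun y l - f5.toFun (((edges M).a e₀) + t • (((edges M).b e₀) - ((edges M).a e₀))) l|)
        (Eventually.of_forall fun y => Finset.sum_nonneg fun _ _ => abs_nonneg _)
        (Eventually.of_forall fun y l => Finset.single_le_sum
          (f := fun l => |f5.toFun y l - f5.toFun (((edges M).a e₀) + t • (((edges M).b e₀) - ((edges M).a e₀))) l|)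
          (fun _ _ => abs_nonneg _) (Finset.mem_univ l))
      have g11 : ∀ᶠ t' in 𝓝[Icc 0 1] t, ∀ l, 8 * sk * |f5.toFun (((edges M).a e₀) + t' • (((edges M).b e₀) - ((edges M).a e₀))) l -
          f5.toFun (((edges M).a e₀) + t • (((edges M).b e₀) - ((edges M).a e₀))) l| ≤ |8 * sk * φ (onS h1.toFun ((edges M).a e₀) ((edges M).b e₀) (γ t) l) -
            8 * sk * φ (onS h1.toFun ((edges M).a e₀) ((edges M).b e₀) (γ t') l)| := by
        rw [eventually_all]
        intro l
        exact step l (hIu l) (hφu _)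
      filter_upwards [H.est hw0 ht hG (fun y => Finset.sum_nonneg fun _ _ => abs_nonneg _) Pr,
        g11] with t' g12 g13
      have g14 : 8 * sk * ∑ l, |f5.toFun (((edges M).a e₀) + t' • (((edges M).b e₀) - ((edges M).a e₀))) l -
          f5.toFun (((edges M).a e₀) + t • (((edges M).b e₀) - ((edges M).a e₀))) l| ≤ ∑ i ∈ I,
          |8 * sk * φ (onS h1.toFun ((edges M).a e₀) ((edges M).b e₀) (γ t) i) -
            8 * sk * φ (onS h1.toFun ((edges M).a e₀) ((edges M).b e₀) (γ t') i)| := by
        have e1 : I = Finset.univ := Finset.eq_univ_of_forall hIu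
        rw [e1, Finset.mul_sum]
        exact Finset.sum_le_sum fun l _ => g13 l
      have g15 := hee t'
      nlinarith

end EIn

end P073.H228.EP
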