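import Vale.Agent.P073.H228.EdgeP5F
import Vale.Agent.P073.H581.EdRow5
import Vale.Agent.P073.H581.T5e
import Vale.Agent.P073.H805.Marks2

/-!
# P073, block H228, [EDGE-P], part 5g: the local theorem over the stages, `LocGen`
-/

open Set Metric Topology Filter
open scoped ENNReal

set_option linter.unusedSectionVars false

namespace Vale.Agent.P073.Top880

open _root_.P073 _root_.P073.Net _root_.P073.PA691 _root_.P073.H236 _root_.P073.H579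
open _root_.P073.H142
open _root_.P073.H345 (PK tg bt tg_bt bt_tg tg_ne PLev)
open _root_.P073.H880.RP
open _root_.P073.H228.EP
open Vale.Agent.P073.St (V)
open Vale.Agent.P073.H471 Vale.Agent.P073.H267
open Vale.Agent.P073.H73 (Mesh onSeg)
open Vale.Agent.P073.H193 (Edges Cyc edges LAtC)
open Vale.Agent.P073.H228 (GAt)
open Vale.Agent.P073.H926
open Vale.Agent.P073.H238.K3
open Vale.Agent.P073.H267.K3
open Vale.Agent.P073.H687 (Marks wnd)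
open Vale.Agent.P073.H190.Tvp
open Vale.Agent.P073.H233 (Xp PSet)
open _root_.P073.H155 (winE mem_winE)
open _root_.P073.Croft (levs onS cross)

variable {c₀ n δ : ℝ} {j : ℕ} {Ω Λ : Set V} {v w : V} {ρ : V → ℝ} {M : Mesh Ω} {h : ConHomeo Ω Λ}
  {J₀ J : Set (ℕ × (Fin 3 → ℤ))} {P Z : Set M.ι} {K : BoxCx Λ w}
  {D : KIn3 c₀ n j δ v w ρ M h J₀ J P Z} {C : Cells ρ w K} {C₀ μT : ℝ}
  {X : S1 D C C₀ μT} {Y₂ : S2 X} {Ys : Set M.κ} {sc : Sharp}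

/-- the windows, with their ends -/
def xwE (Y₂ : S2 X) (s : K.S) (β : Bool) : Set (ℝ × ℝ) :=
  {p | ∃ q ∈ Y₂.Q s β, p = (q - Y₂.R s, q + Y₂.R s)}

theorem xwE_fin (Y₂ : S2 X) (s : K.S) (β : Bool) : (xwE Y₂ s β).Finite := by
  have h1 : xwE Y₂ s β = (fun q => (q - Y₂.R s, q + Y₂.R s)) '' (Y₂.Q s β : Set ℝ) := by
    ext p
    constructor
    · rintro ⟨q, hq, rfl⟩; exact ⟨q, hq, rfl⟩
    · rintro ⟨q, hq, rfl⟩; exact ⟨q, hq, rfl⟩
  rw [h1]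
  exact (Y₂.Q s β).finite_toSet.image _

/-- off the windows -/
theorem notMem_wnd (Y₂ : S2 X) {s : K.S} {β : Bool} {t : ℝ} (ht : t ∉ Fat (xwE Y₂) s β 0) :
    t ∉ wnd Y₂.R Y₂.Q s β := by
  intro h1
  unfold wnd at h1
  obtain ⟨q, hq, h2⟩ := mem_iUnion₂.1 h1
  exact ht ⟨_, ⟨q, hq, rfl⟩, by simpa using h2.1.le, by simpa using h2.2.le⟩

/-- the ends of the windows are off the windows -/
theorem ends_wnd (Y₂ : S2 X) {s : K.S} {β : Bool} {p : ℝ × ℝ} (hp : p ∈ xwE Y₂ s β) :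
    p.1 ∉ wnd Y₂.R Y₂.Q s β ∧ p.2 ∉ wnd Y₂.R Y₂.Q s β := by
  obtain ⟨q, hq, rfl⟩ := hp
  have hR : 0 ≤ Y₂.R s := (Y₂.J0 s).trans (Y₂.JR s)
  unfold wnd
  constructor
  · intro h1
    obtain ⟨q', hq', h2, h3⟩ := mem_iUnion₂.1 h1
    dsimp only at h2 h3
    by_cases h4 : q = q'
    · subst h4; exact lt_irrefl _ h2
    · rcases le_abs.1 (Y₂.marks.sep s β q hq q' hq' h4) with h5 | h5 <;> linarith
  · intro h1
    obtain ⟨q', hq', h2, h3⟩ := mem_iUnion₂.1 h1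
    dsimp only at h2 h3
    by_cases h4 : q = q'
    · subst h4; exact lt_irrefl _ h3
    · rcases le_abs.1 (Y₂.marks.sep s β q hq q' hq' h4) with h5 | h5 <;> linarith

/-- **the data of the local theorem over the stages** -/
theorem ein (Y₃ : S3 Y₂ Ys sc) {e : (edges M).ε} {f5 : ConHomeo Ω Λ} {f : V → V}
    {γ : ℝ → ℝ} {c₁ : ℝ}
    (hγ : ArcP Y₂.L (D.dat C).S₀ Y₃.c Y₃.c0 Y₃.c1 Y₃.F Y₃.T3 Y₃.κ
      (fun s => (D.dat C).PE (D.G C) s.1)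
      (onS Y₂.h2.toFun ((edges M).a e) ((edges M).b e))
      (onS X.h1.toFun ((edges M).a e) ((edges M).b e))
      (onS Y₃.h3.toFun ((edges M).a e) ((edges M).b e)) γ c₁)
    {η : K.G → ℝ} (hη : EtaOk (J₀ := J₀) (C := C) Y₂ η)
    (hJ : ∀ s, Y₂.J s = 2048 * ω3S δ C s) (hm : ∀ s, Y₂.muP s ≤ 2048 * ω3S δ C s) {w' : ℝ}
    (hw' : 0 ≤ w')
    (po : PO (D.G C) (D.dat C).S₀ (xwE Y₂) (fun s => Y₂.muP s) (fun s => Y₂.muP s) f5.toFun
      Y₃.h4.toFun ((edges M).seg e) 3 3 (fun s => 10 * Y₂.muP s / (D.B C).τ s) w')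
    (tok : ∀ x ∈ (edges M).seg e, ∀ cst : V → ℝ, (∀ y, 0 ≤ cst y) →
      PRes (D.B C) (Xp C J₀) (FlT (D.B C)) (SvW Y₂ η) cst ((edges M).seg e) f5.toFun x →
      LAtC (D.B C) (Xp C J₀) (fun y => 4 * cst y + w' * ‖y - x‖) ((edges M).seg e) f x) :
    EIn D C e X.h1 Y₂.h2 Y₃.h3 Y₃.h4 f5 f Y₂.L Y₃.c Y₃.c0 Y₃.c1 Y₃.F Y₃.T3 Y₃.T2 Y₃.κ γ c₁
      (fun _ s => Y₂.muP s.1) (xwE Y₂) (fun s => Y₂.muP s) (fun s => Y₂.muP s + Y₂.J s)
      (fun s => Y₂.muP s) (fun s => Y₂.muP s) (SvW Y₂ η) 3 3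
      (fun s => 10 * Y₂.muP s / (D.B C).τ s) w' 4 w' where
  near := fun x hx q hq => X.out.near3 x hx q hq
  arc := hγ
  pt2 := Y₃.pt2
  map4 := fun x hx => Y₃.map4 x ((edges M).seg_sub_Ω e hx)
  cκ := fun β s => by
    have h1 : Y₃.c s.1 β ≤ Y₂.dP s.1 / 8 := Y₃.c1 s.1 β
    have h2 := Y₂.Lw.δμ s.1
    have h3 := Y₂.Lw.δ0 s.1
    linarith
  hD := fun β s => le_of_eq (F3W_D ..)
  hw := fun β s p hp => by
    obtain ⟨h1, h2⟩ := ends_wnd Y₂ hp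
    exact ⟨F3W_disp_out Y₂.Lw β s h1, F3W_disp_out Y₂.Lw β s h2⟩
  ho := fun β s t ht => F3W_disp_out Y₂.Lw β s (notMem_wnd Y₂ ht)
  hμ := fun β s t ht => F3W_disp_out Y₂.Lw β s (notMem_wnd Y₂ ht)
  fin := xwE_fin Y₂
  κ0 := fun s => (Y₂.muP0 s).le
  D0 := fun s => add_nonneg (Y₂.muP0 s).le (Y₂.J0 s)
  η0 := fun s => (Y₂.muP0 s).le
  σ0 := fun s => (Y₂.muP0 s).le
  po := po
  tok := tok
  sv := fun s hs e' he' β hβ t ht => by
    obtain ⟨p, ⟨q, hq, rfl⟩, h1, h2⟩ := ht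
    have he1 : e' ∈ pG C J₀ := pG_of_pS hs he'
    have h3 := hη.mu e' he1 s he'
    have h4 := hη.pos e' he1
    refine ⟨(q - Y₂.R s, q + Y₂.R s), mem_winE.2 ⟨s, he', q, ?_, rfl⟩, ?_, ?_⟩
    · rw [← hβ, bt_tg]; exact hq
    · dsimp only at h1 ⊢
      linarith
    · dsimp only at h2 ⊢
      linarith
  small := fun s hs i hi => by
    have h1 := D.ω3S_be C hi
    have h2 := D.ω3S_pos C s
    have h3 := hm s
    have h4 := hJ s
    linarith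
  Lc0 := by norm_num
  m0 := by norm_num
  q0 := fun s => by
    have := (Y₂.muP0 s).le
    have := (D.B C).τ_pos s
    positivity
  e0 := hw'
  sk1 := by norm_num
  εT0 := hw'

variable (D C) in
/-- **functions for one edge** -/
theorem exists_phiI (e : (edges M).ε) : ∃ (φ : ℝ → ℝ) (I : Finset (Fin 3)),
    PhiOk D C e I (fun _ => φ) ∧
    (∀ u, (∀ b ∈ pB C J₀,
      (h.toFun '' (edges M).seg e ∩ (D.G C).TB false b).Nonempty →
        u ∉ Icc ((D.G C).tlo true b b.ax) ((D.G C).tlo true b b.ax + 50 * ω3T δ C b) ∧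
        u ∉ Icc ((D.G C).thi true b b.ax - 50 * ω3T δ C b) ((D.G C).thi true b b.ax)) →
        ∀ᶠ u' in 𝓝 u, φ u' - φ u = u' - u) ∧
    ∀ l, (∀ b ∈ pB C J₀, (h.toFun '' (edges M).seg e ∩ (D.G C).TB false b).Nonempty →
      b.ax = l) → l ∈ I := by
  classical
  set T : Set (TBx K) := {b | b ∈ pB C J₀ ∧
    (h.toFun '' (edges M).seg e ∩ (D.G C).TB false b).Nonempty} with hT
  have hfin : T.Finite := (_root_.Vale.Agent.P073.H581.fin_boxes (G := D.G C) h e).subset fun b hb => hb.2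
  set S : Set ℝ := ⋃ b ∈ T,
    (Icc ((D.G C).tlo true b b.ax) ((D.G C).tlo true b b.ax + 50 * ω3T δ C b) ∪
      Icc ((D.G C).thi true b b.ax - 50 * ω3T δ C b) ((D.G C).thi true b b.ax)) with hS
  have hSc : IsClosed S := hfin.isClosed_biUnion fun b _ => isClosed_Icc.union isClosed_Icc
  obtain ⟨φ, h1, h2, h3⟩ := exists_phi hSc
  refine ⟨φ, Finset.univ.filter fun l => ∀ b ∈ T, b.ax = l, ⟨fun l hl b hb hm => ?_,
    fun _ _ => h1, fun l hl b hb hm => ?_⟩, fun u hu => h3 u fun hu' => ?_, fun l hl => ?_⟩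
  · exact (Finset.mem_filter.1 hl).2 b ⟨hb, hm⟩
  · have hω := D.ω3T_pos C b
    have h4 : Icc ((D.G C).tlo true b b.ax) ((D.G C).tlo true b b.ax + 50 * ω3T δ C b) ⊆ S :=
      fun t ht => mem_iUnion₂.2 ⟨b, ⟨hb, hm⟩, Or.inl ht⟩
    have h5 : Icc ((D.G C).thi true b b.ax - 50 * ω3T δ C b) ((D.G C).thi true b b.ax) ⊆ S :=
      fun t ht => mem_iUnion₂.2 ⟨b, ⟨hb, hm⟩, Or.inr ht⟩
    refine ⟨fun s hs => h2 _ _ h4 s hs, fun s hs => ?_⟩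
    have h6 := h2 _ _ h5 s hs
    have h7 := h2 _ _ h5 ((D.G C).thi true b b.ax) ⟨by linarith, le_rfl⟩
    exact h6.trans h7.symm
  · obtain ⟨b, hb, h4⟩ := mem_iUnion₂.1 hu'
    rcases h4 with h4 | h4
    · exact (hu b hb.1 hb.2).1 h4
    · exact (hu b hb.1 hb.2).2 h4
  · exact Finset.mem_filter.2 ⟨Finset.mem_univ _, fun b hb => hl b hb.1 hb.2⟩

/-- **the local theorem over the stages** -/
theorem locG_of (Y₃ : S3 Y₂ Ys sc) {e : (edges M).ε} {f5 : ConHomeo Ω Λ} {f : V → V}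
    {η : K.G → ℝ} (hη : EtaOk (J₀ := J₀) (C := C) Y₂ η)
    (hJ : ∀ s, Y₂.J s = 2048 * ω3S δ C s) (hm : ∀ s, Y₂.muP s ≤ 2048 * ω3S δ C s) {w' w₁ : ℝ}
    (hw' : 0 ≤ w') (hw₁ : 0 ≤ w₁)
    (po : PO (D.G C) (D.dat C).S₀ (xwE Y₂) (fun s => Y₂.muP s) (fun s => Y₂.muP s) f5.toFun
      Y₃.h4.toFun ((edges M).seg e) 3 3 (fun s => 10 * Y₂.muP s / (D.B C).τ s) w')
    (tok : ∀ x ∈ (edges M).seg e, ∀ cst : V → ℝ, (∀ y, 0 ≤ cst y) →
      PRes (D.B C) (Xp C J₀) (FlT (D.B C)) (SvW Y₂ η) cst ((edges M).seg e) f5.toFun x →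
      LAtC (D.B C) (Xp C J₀) (fun y => 4 * cst y + w' * ‖y - x‖) ((edges M).seg e) f x) :
    LocG Y₃ 96 96 32 w' w₁ f e := by
  intro γ c₁ hγ
  refine ⟨w₁ + 8 * (4 * w' + w') * ‖(edges M).b e - (edges M).a e‖, by positivity, ?_, ?_⟩
  · have h1 : 0 ≤ w' * ‖(edges M).b e - (edges M).a e‖ := by positivity
    nlinarith
  intro G hG
  obtain ⟨φ, I, hφ, h1, h2⟩ := exists_phiI D C e
  refine ⟨I, fun _ => φ, hφ, fun t ht => ?_⟩
  have key := (ein Y₃ hγ hη hJ hm hw' po tok).ctl_at (φ := φ) h1 (I := I) h2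
    (κw := fun s => 4096 * Y₂.muP s.1 / (D.B C).τ s.1) (fun s => ?_) (ι := 0) le_rfl
    (g := G) hw₁ ht (hG t ht)
  · have e1 : (8 * 4 * 3 : ℝ) = 96 := by norm_num
    have e2 : (fun (l : Fin 3) r => 8 * 4 * φ (onS X.h1.toFun ((edges M).a e)
        ((edges M).b e) r l)) = fun l r => 32 * φ (onS X.h1.toFun ((edges M).a e)
        ((edges M).b e) r l) := by norm_num
    rw [e1, e2] at key
    exact key
  · have h3 := (Y₂.muP0 s.1).le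
    have h4 := (D.B C).τ_pos s.1
    have h5 : 0 ≤ Y₂.muP s.1 / (D.B C).τ s.1 := by positivity
    have e3 : 8 * 4 * (10 * Y₂.muP s.1 / (D.B C).τ s.1) =
      320 * (Y₂.muP s.1 / (D.B C).τ s.1) := by ring
    have e4 : 4096 * Y₂.muP s.1 / (D.B C).τ s.1 = 4096 * (Y₂.muP s.1 / (D.B C).τ s.1) := by
      ring
    rw [e3, e4]
    linarith

/-- **the local theorem of the edges**, for both maps -/
theorem locGen (C₀ : ℝ) : LocGen C₀ 96 96 32 := by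
  intro c₀ n δ j Ω Λ v w ρ M h J₀ J P Z K D C Ys p μ r ν sc _
  refine ⟨Slots.one, ?_⟩
  intro N X Y₂ Y₃ Y₄ Y₅ h5 _ η hη e _ w' w₁ hw' hw₁ hL
  exact ⟨locG_of Y₃ hη h5.J h5.muJ hw'.le hw₁.le (hL.po _) hL.tok,
    locG_of Y₃ hη h5.J h5.muJ hw'.le hw₁.le (hL.poq _) hL.tokq⟩

/-- **the local theorem in slot form** -/
theorem locAll (C₀ : ℝ) : ∃ A A' c : ℝ, 0 ≤ A ∧ 0 ≤ A' ∧ 0 ≤ c ∧ LocAll C₀ A A' c :=
  ⟨96, 96, 32, by norm_num, by norm_num, by norm_num, locAll_of (locGen C₀)⟩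

end Vale.Agent.P073.Top880
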