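import Vale.Agent.P073.H228.NearDefs

/-!
# P073, H228, [NEAR], part 1: positions and boundary data
-/

set_option linter.unusedSectionVars false

open Set Metric Topology Filter

namespace P073.H228

open P073.H31 P073.H579 P073.H155 P073.H237 Gon

variable {E : Type*} [NormedAddCommGroup E] [NormedSpace ℝ E]

/-! ### the boundary of the unit square -/

theorem ed_mem (e : Fin 4) {t : ℝ} (ht : t ∈ Icc (0:ℝ) 1) : ed e t ∈ bR := by
  obtain ⟨h0, h1⟩ := ht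
  fin_cases e <;> simp [ed, bR, Rct, h0, h1]

theorem exists_ed {x : ℝ × ℝ} (hx : x ∈ bR) : ∃ e t, t ∈ Icc (0:ℝ) 1 ∧ ed e t = x := by
  obtain ⟨⟨h1, h2⟩, h3⟩ := hx
  rcases h3 with h | h | h | h
  · exact ⟨3, x.2, h2, Prod.ext h.symm rfl⟩
  · exact ⟨1, x.2, h2, Prod.ext h.symm rfl⟩
  · exact ⟨0, x.1, h1, Prod.ext rfl h.symm⟩
  · exact ⟨2, x.1, h1, Prod.ext rfl h.symm⟩

theorem tpBL_mem_Icc (e : Fin 4) {t : ℝ} (ht : t ∈ Icc (0:ℝ) 1) : tpBL e t ∈ Icc (0:ℝ) 1 := by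
  obtain ⟨h0, h1⟩ := ht
  fin_cases e <;> simp only [tpBL] <;> constructor <;> linarith

theorem exists_tp {mu a : ℝ} (hmu : 0 ≤ mu) (ha : a ∈ Icc (mu / 4) (1 - mu / 4)) :
    ∃ e t, t ∈ Icc (0:ℝ) 1 ∧ tpBL e t = a ∧ ((e = 0 ∨ e = 3) → mu ≤ t) := by
  obtain ⟨h0, h1⟩ := ha
  by_cases c1 : a ≤ 1 / 4
  · refine ⟨0, 4 * a, ⟨by linarith, by linarith⟩, ?_, fun _ => by linarith⟩
    show 4 * a / 4 = a
    ring
  by_cases c2 : a ≤ 1 / 2
  · refine ⟨1, 4 * a - 1, ⟨by linarith, by linarith⟩, ?_, fun h => ?_⟩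
    · show (1 + (4 * a - 1)) / 4 = a
      ring
    · exfalso; revert h; decide
  by_cases c3 : a ≤ 3 / 4
  · refine ⟨2, 3 - 4 * a, ⟨by linarith, by linarith⟩, ?_, fun h => ?_⟩
    · show (3 - (3 - 4 * a)) / 4 = a
      ring
    · exfalso; revert h; decide
  · refine ⟨3, 4 - 4 * a, ⟨by linarith, by linarith⟩, ?_, fun _ => by linarith⟩
    show (4 - (4 - 4 * a)) / 4 = a
    ring

section par

variable {v : ℕ → E} {C : Set E} {P : ConHomeo Rct C}

theorem bR_sub : bR ⊆ Rct := fun _ h => h.1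

theorem Par.mapsTo (hP : Par v P) : MapsTo P.toFun bR (bd 4 v) := by
  intro x hx
  obtain ⟨e, t, ht, rfl⟩ := exists_ed hx
  rw [hP e t ht]
  obtain ⟨h0, h1⟩ := tpBL_mem_Icc e ht
  exact mem_image_of_mem _ ⟨by linarith, by push_cast; linarith⟩

theorem Par.surj (hP : Par v P) {y : E} (hy : y ∈ bd 4 v) : ∃ x ∈ bR, P.toFun x = y := by
  obtain ⟨T, ⟨h0, h1⟩, rfl⟩ := hy
  push_cast at h1
  obtain ⟨e, t, ht, h2, -⟩ := exists_tp (mu := 0) le_rfl (a := T / 4)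
    ⟨by linarith, by linarith⟩
  refine ⟨ed e t, ed_mem e ht, ?_⟩
  rw [hP e t ht, h2]
  congr 1
  ring

theorem Par.image (hP : Par v P) : P.toFun '' bR = bd 4 v := by
  ext y
  constructor
  · rintro ⟨x, hx, rfl⟩; exact hP.mapsTo hx
  · intro hy; exact hP.surj hy

theorem kinv_mem {κ : ConHomeo Rct Rct} (h : κ.toFun '' bR = bR) {x : ℝ × ℝ} (hx : x ∈ bR) :
    κ.invFun x ∈ bR := by
  rw [← h] at hx
  obtain ⟨y, hy, rfl⟩ := hx
  rw [κ.left_inv (bR_sub hy)]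
  exact hy

theorem kinv_image {κ : ConHomeo Rct Rct} (h : κ.toFun '' bR = bR) : κ.invFun '' bR = bR := by
  ext x
  constructor
  · rintro ⟨y, hy, rfl⟩; exact kinv_mem h hy
  · intro hx
    refine ⟨κ.toFun x, ?_, κ.left_inv (bR_sub hx)⟩
    rw [← h]; exact mem_image_of_mem _ hx

variable {π : E → E} {mu K : ℝ} {κ : ConHomeo Rct Rct}

/-- the parametrisation on the top side -/
theorem gam_top (hP : Par v P) (hκ : ChartBL mu K κ) (hmu : 0 < mu) (hmu1 : mu < 1 / 4) {a : ℝ}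
    (ha : a ∈ Icc (mu / 4) (1 - mu / 4)) : gam π P κ (a, 1) = π (cv 4 v (4 * a)) := by
  obtain ⟨e, t, ht, h1, h2⟩ := exists_tp hmu.le ha
  have h3 := hκ.top e t ht h2
  rw [h1] at h3
  unfold gam
  rw [← h3, κ.left_inv (bR_sub (ed_mem e ht)), hP e t ht, h1]

/-- the point of the top side over a boundary point -/
theorem eq_top (hP : Par v P) (hκ : ChartBL mu K κ) (hmu : 0 < mu) (hmu1 : mu < 1 / 4) {T : ℝ}
    (hT : T ∈ Icc mu (4 - mu)) {y : ℝ × ℝ} (hy : y ∈ bR)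
    (h : cv 4 v T = P.toFun (κ.invFun y)) : y = (T / 4, 1) := by
  obtain ⟨e, t, ht, h1, h2⟩ := exists_tp hmu.le (a := T / 4) (mu := mu)
    ⟨by linarith [hT.1], by linarith [hT.2]⟩
  have h3 := hκ.top e t ht h2
  rw [h1] at h3
  have h4 : P.toFun (ed e t) = P.toFun (κ.invFun y) := by
    rw [hP e t ht, h1, ← h]
    congr 1
    ring
  have h5 : ed e t = κ.invFun y := by
    have a1 := congrArg P.invFun h4
    rwa [P.left_inv (bR_sub (ed_mem e ht)), P.left_inv (κ.mapsTo_inv (bR_sub hy))] at a1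
  rw [← h3, h5, κ.right_inv (bR_sub hy)]

end par

/-! ### positions -/

section pos

variable {X : Finset E} {mu : ℝ} {S2 S3 : E → ℝ}

theorem mem_XE {i : ℕ} {x : E} : x ∈ XE X S2 i ↔ x ∈ X ∧ (i : ℝ) < S2 x ∧ S2 x < i + 1 := by
  classical
  unfold XE
  rw [Finset.mem_filter]

theorem rkE_lt {i : ℕ} {x : E} (hx : x ∈ XE X S2 i) : rkE X S2 i x < (XE X S2 i).card := by
  classical
  unfold rkE
  refine Finset.card_lt_card (Finset.filter_ssubset.2 ⟨x, hx, ?_⟩)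
  simp

theorem rkE_lt_rkE {i : ℕ} {x y : E} (hx : x ∈ XE X S2 i) (h : S2 x < S2 y) :
    rkE X S2 i x < rkE X S2 i y := by
  classical
  unfold rkE
  refine Finset.card_lt_card (Finset.ssubset_iff_of_subset ?_ |>.2 ⟨x, ?_, ?_⟩)
  · intro z hz
    rw [Finset.mem_filter] at hz ⊢
    exact ⟨hz.1, hz.2.trans h⟩
  · exact Finset.mem_filter.2 ⟨hx, h⟩
  · intro h1
    exact lt_irrefl _ (Finset.mem_filter.1 h1).2

theorem XE_unique {i j : ℕ} {x : E} (hi : x ∈ XE X S2 i) (hj : x ∈ XE X S2 j) : i = j := by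
  obtain ⟨-, h1, h2⟩ := mem_XE.1 hi
  obtain ⟨-, h3, h4⟩ := mem_XE.1 hj
  have h5 : (i : ℝ) < j + 1 := by linarith
  have h6 : (j : ℝ) < i + 1 := by linarith
  have h7 : i < j + 1 := by exact_mod_cast h5
  have h8 : j < i + 1 := by exact_mod_cast h6
  omega

/-- position and width of the fibre of a crossing point -/
theorem SlotPos.bounds (H : SlotPos X mu S2 S3) (hmu1 : mu < 1 / 4) {i : ℕ}
    (hi : i < 4) {x : E} (hx : x ∈ XE X S2 i) :
    (i : ℝ) + mu < S2 x - (S3 x - S2 x) ∧ S2 x < S3 x ∧ S3 x + (S3 x - S2 x) < i + 1 - mu := by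
  have h2 := H.s2 i hi x hx
  have h3 := H.s3 i hi x hx
  have hN : (0:ℝ) < (XE X S2 i).card := by
    exact_mod_cast (Nat.zero_le _).trans_lt (rkE_lt hx)
  have hr : (rkE X S2 i x : ℝ) + 1 ≤ (XE X S2 i).card := by exact_mod_cast rkE_lt hx
  have hr0 : (0:ℝ) ≤ rkE X S2 i x := Nat.cast_nonneg _
  have hm : 0 < 1 - 2 * mu := by linarith
  set N : ℝ := ((XE X S2 i).card : ℝ)
  set r : ℝ := (rkE X S2 i x : ℝ)
  have e1 : S3 x - S2 x = (1 - 2 * mu) * (1 / 4) / N := by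
    rw [h2, h3]; field_simp; ring
  have e2 : S2 x - (S3 x - S2 x) = i + (mu + (1 - 2 * mu) * (r + 1 / 8) / N) := by
    rw [e1, h2]; field_simp; ring
  have e3 : S3 x + (S3 x - S2 x) = i + (mu + (1 - 2 * mu) * (r + 7 / 8) / N) := by
    rw [e1, h3]; field_simp; ring
  have p1 : 0 < (1 - 2 * mu) * (r + 1 / 8) / N := by positivity
  have p2 : 0 < (1 - 2 * mu) * (1 / 4) / N := by positivity
  have p3 : (1 - 2 * mu) * (r + 7 / 8) / N < 1 - 2 * mu := by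
    rw [div_lt_iff₀ hN]
    exact mul_lt_mul_of_pos_left (by linarith) hm
  refine ⟨by rw [e2]; linarith, by linarith, by rw [e3]; linarith⟩

/-- the doubled fibres are disjoint -/
theorem SlotPos.sep (H : SlotPos X mu S2 S3) (hmu : 0 < mu) (hmu1 : mu < 1 / 4) {x y : E}
    (hx : x ∈ X) (hy : y ∈ X) (h : S2 x < S2 y) :
    S3 x + (S3 x - S2 x) < S2 y - (S3 y - S2 y) := by
  obtain ⟨i, hi, hxi⟩ := H.ex x hx
  obtain ⟨j, hj, hyj⟩ := H.ex y hy
  obtain ⟨a1, a2, a3⟩ := H.bounds hmu1 hi hxi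
  obtain ⟨b1, b2, b3⟩ := H.bounds hmu1 hj hyj
  obtain ⟨-, c1, c2⟩ := mem_XE.1 hxi
  obtain ⟨-, d1, d2⟩ := mem_XE.1 hyj
  have hij : i ≤ j := by
    have h1 : (i : ℝ) < j + 1 := by linarith
    have h2 : i < j + 1 := by exact_mod_cast h1
    omega
  rcases hij.lt_or_eq with h1 | h1
  · have h2 : (i : ℝ) + 1 ≤ j := by exact_mod_cast h1
    linarith
  · subst h1
    have h2 := H.s2 i hi x hxi
    have h3 := H.s3 i hi x hxi
    have h4 := H.s2 i hi y hyj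
    have h5 := H.s3 i hi y hyj
    have hN : (0:ℝ) < (XE X S2 i).card := by
      exact_mod_cast (Nat.zero_le _).trans_lt (rkE_lt hxi)
    have hr : (rkE X S2 i x : ℝ) + 1 ≤ rkE X S2 i y := by exact_mod_cast rkE_lt_rkE hxi h
    have hm : 0 < 1 - 2 * mu := by linarith
    set N : ℝ := ((XE X S2 i).card : ℝ)
    set r : ℝ := (rkE X S2 i x : ℝ)
    set r' : ℝ := (rkE X S2 i y : ℝ)
    have e3 : S3 x + (S3 x - S2 x) = i + (mu + (1 - 2 * mu) * (r + 7 / 8) / N) := by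
      rw [h2, h3]; field_simp; ring
    have e2 : S2 y - (S3 y - S2 y) = i + (mu + (1 - 2 * mu) * (r' + 1 / 8) / N) := by
      rw [h4, h5]; field_simp; ring
    rw [e3, e2]
    have p : (1 - 2 * mu) * (r + 7 / 8) / N < (1 - 2 * mu) * (r' + 1 / 8) / N := by
      rw [div_lt_div_iff_of_pos_right hN]
      exact mul_lt_mul_of_pos_left (by linarith) hm
    linarith

end pos

/-- **the boundary data** -/
theorem bdData {A : Type*} {C : Set E} {v : ℕ → E} {S : A → Set E} {X : Finset E}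
    {S2 S3 : E → ℝ} {π : E → E} {mu K : ℝ} {κ : ConHomeo Rct Rct} {P : ConHomeo Rct C}
    (hSX : ∀ x, (∃ α, x ∈ S α ∩ bd 4 v) ↔ x ∈ X) (hC : Clp 4 v X S2 S3 π)
    (hmu : 0 < mu) (hmu1 : mu < 1 / 4) (H : SlotPos X mu S2 S3) (hP : Par v P)
    (hκ : ChartBL mu K κ) :
    BdData (bd 4 v) S (gam π P κ) (fun x => S2 x / 4) (fun x => S3 x / 4) := by
  have hb : ∀ x ∈ X, mu < S2 x ∧ S2 x < S3 x ∧ S3 x < 4 - mu := by
    intro x hx
    obtain ⟨i, hi, hxi⟩ := H.ex x hx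
    obtain ⟨a1, a2, a3⟩ := H.bounds hmu1 hi hxi
    have hi3 : (i : ℝ) ≤ 3 := by exact_mod_cast Nat.lt_succ_iff.1 hi
    have hi0 : (0:ℝ) ≤ i := Nat.cast_nonneg _
    refine ⟨by linarith, a2, by linarith⟩
  have hbX : ∀ {α x}, x ∈ S α ∩ bd 4 v → x ∈ X := fun {α x} hx => (hSX x).1 ⟨α, hx⟩
  have m1 : MapsTo κ.invFun bR bR := fun x hx => kinv_mem hκ.bd hx
  have m2 : MapsTo (fun x => P.toFun (κ.invFun x)) bR (bd 4 v) := fun x hx => hP.mapsTo (m1 hx)
  have k1 : ConicalOn κ.invFun bR := κ.symm.conical.mono conBall_Rct.conicalSet_bdry bR_sub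
  have c1 : ContinuousOn κ.invFun bR := κ.cont_inv.mono bR_sub
  have k2 : ConicalOn (fun x => P.toFun (κ.invFun x)) bR :=
    P.conical.comp k1 (fun x hx => bR_sub (m1 hx)) c1
  have c2 : ContinuousOn (fun x => P.toFun (κ.invFun x)) bR :=
    P.cont.comp c1 (fun x hx => bR_sub (m1 hx))
  refine ⟨?_, ?_, ?_, ?_, ?_, ?_, ?_, ?_⟩
  · exact hC.cont.comp c2 m2
  · exact hC.con.comp k2 m2 c2
  · show (fun x => π (P.toFun (κ.invFun x))) '' bR = bd 4 v
    have e1 : (fun x => π (P.toFun (κ.invFun x))) '' bR = π '' (P.toFun '' (κ.invFun '' bR)) := by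
      rw [image_image, image_image]
    rw [e1, kinv_image hκ.bd, hP.image]
    exact hC.im
  · intro α x hx
    obtain ⟨a1, a2, a3⟩ := hb x (hbX hx)
    refine ⟨by linarith, by linarith, by linarith⟩
  · intro α x hx a ha
    obtain ⟨a1, a2, a3⟩ := hb x (hbX hx)
    have b1 : S2 x / 4 ≤ a := ha.1
    have b2 : a ≤ S3 x / 4 := ha.2
    rw [gam_top hP hκ hmu hmu1 ⟨by linarith, by linarith⟩]
    exact hC.const x (hbX hx) _ ⟨by linarith, by linarith⟩
  · intro y hy z hz h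
    rcases hC.inj _ (m2 hy) _ (m2 hz) h with h1 | ⟨x, hx, ⟨T, hT, hTy⟩, ⟨T', hT', hTz⟩⟩
    · left
      have h2 := congrArg P.invFun h1
      simp only [P.left_inv (bR_sub (m1 hy)), P.left_inv (bR_sub (m1 hz))] at h2
      have h3 := congrArg κ.toFun h2
      rwa [κ.right_inv (bR_sub hy), κ.right_inv (bR_sub hz)] at h3
    · right
      obtain ⟨a1, a2, a3⟩ := hb x hx
      obtain ⟨α, hα⟩ := (hSX x).2 hx
      have e1 := eq_top hP hκ hmu hmu1 (T := T) ⟨by linarith [hT.1], by linarith [hT.2]⟩ hy hTy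
      have e2 := eq_top hP hκ hmu hmu1 (T := T') ⟨by linarith [hT'.1], by linarith [hT'.2]⟩ hz hTz
      refine ⟨α, x, hα, ?_, ?_⟩
      · rw [e1]
        exact ⟨⟨by simp only; linarith [hT.1], by simp only; linarith [hT.2]⟩, rfl⟩
      · rw [e2]
        exact ⟨⟨by simp only; linarith [hT'.1], by simp only; linarith [hT'.2]⟩, rfl⟩
  · intro α x hx y hy h
    have h' : S2 x / 4 < S2 y / 4 := h
    have := H.sep hmu hmu1 (hbX hx) (hbX hy) (by linarith)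
    show S2 x / 4 + 2 * (S3 x / 4 - S2 x / 4) ≤ S3 y / 4 - 2 * (S3 y / 4 - S2 y / 4)
    linarith
  · intro α β _ _ x hx y hy h
    have h' : S2 x / 4 < S2 y / 4 := h
    have h1 := H.sep hmu hmu1 (hbX hx) (hbX hy) (by linarith)
    obtain ⟨a1, a2, a3⟩ := hb x (hbX hx)
    obtain ⟨b1, b2, b3⟩ := hb y (hbX hy)
    show S3 x / 4 + (S3 x / 4 - S2 x / 4) < S2 y / 4 ∧ S3 x / 4 + (S3 y / 4 - S2 y / 4) < S2 y / 4
    constructor <;> linarith

end P073.H228
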