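import Vale.Agent.P073.H228.Near1

/-!
# P073, H228, [NEAR], part 2: arcs with one end on a side; unlinked arcs
-/

set_option linter.unusedSectionVars false

open Set Metric Topology Filter

namespace P073.H228

open P073.H31 P073.H579 P073.H155 P073.H237 Gon

variable {E : Type*} [NormedAddCommGroup E] [NormedSpace ℝ E]

/-- two disjoint arcs are not linked -/
theorem not_lnk_of_disj {k : ℕ} {A : ℕ → ArcD} {col : ℕ → Bool} {C B : Set E} {fn : ℕ → E → ℝ}
    {γ : ℝ × ℝ → E} (H : Pat k A col C B fn γ) {i j : ℕ} (hi : i < k) (hj : j < k) (hij : i ≠ j)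
    (hd : Disjoint (Sa C fn i) (Sa C fn j)) : ¬ Lnk (A i) (A j) := by
  have key : ∀ i j, i < k → j < k → i ≠ j → Disjoint (Sa C fn i) (Sa C fn j) →
      ¬ ((A i).p < (A j).p ∧ (A j).p < (A i).q ∧ (A i).q < (A j).q) := by
    rintro i j hi hj hij hd ⟨h1, h2, h3⟩
    have gi := H.pos.good i hi
    have gj := H.pos.good j hj
    obtain ⟨d1, d2, d3⟩ := H.pos.disj i hi j hj hij
    obtain ⟨d1', d2', d3'⟩ := H.pos.disj j hj i hi hij.symm
    have mj : (((A j).p, 1) : ℝ × ℝ) ∈ IL (A j) := ⟨⟨le_rfl, by linarith [gj.w0]⟩, rfl⟩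
    have a1 : (A i).p + (A i).w < (A j).p := by
      by_contra hcon
      exact Set.disjoint_left.1 d1
        (⟨⟨h1.le, not_lt.1 hcon⟩, rfl⟩ : (((A j).p, 1) : ℝ × ℝ) ∈ IL (A i)) mj
    have a2 : (A j).p < (A i).q - (A i).w' := by
      by_contra hcon
      exact Set.disjoint_left.1 d3' mj
        (⟨⟨not_lt.1 hcon, h2.le⟩, rfl⟩ : (((A j).p, 1) : ℝ × ℝ) ∈ IR (A i))
    have s1 := H.pos_in i hi _ a1 a2
    have s2 := H.neg_out i hi ((A j).q, 1)
      ⟨⟨⟨by linarith [gj.p0, gj.pltq], gj.q1.le⟩, zero_le_one, le_rfl⟩, Or.inr (Or.inr (Or.inr rfl))⟩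
      (fun _ => Or.inr h3)
    have m1 : γ ((A j).p, 1) ∈ Sa C fn j := by
      refine ⟨H.hC.1 ?_, H.zp j hj⟩
      rw [← H.γi]
      exact mem_image_of_mem _ ⟨⟨⟨gj.p0.le, by linarith [gj.q1, gj.pltq]⟩, zero_le_one, le_rfl⟩,
        Or.inr (Or.inr (Or.inr rfl))⟩
    have m2 : γ ((A j).q, 1) ∈ Sa C fn j := by
      refine ⟨H.hC.1 ?_, H.zq j hj⟩
      rw [← H.γi]
      exact mem_image_of_mem _ ⟨⟨⟨by linarith [gj.p0, gj.pltq], gj.q1.le⟩, zero_le_one, le_rfl⟩,
        Or.inr (Or.inr (Or.inr rfl))⟩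
    have hpre : IsPreconnected (Sa C fn j) := by
      obtain ⟨-, φ, -⟩ := H.hS j hj
      have h1 : Sa C fn j = φ.symm.toFun '' closedBall 0 1 := φ.symm.image_eq.symm
      rw [h1]
      exact (convex_closedBall _ _).isPreconnected.image _ φ.symm.cont
    have hcont : ContinuousOn (fn i) (Sa C fn j) := (H.hfn i hi).mono fun x hx => hx.1
    have h4 : (0:ℝ) ∈ fn i '' Sa C fn j :=
      (hpre.image _ hcont).ordConnected.out (mem_image_of_mem _ m2) (mem_image_of_mem _ m1)
        ⟨s2.le, s1.le⟩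
    obtain ⟨x, hx, hx0⟩ := h4
    exact Set.disjoint_left.1 hd ⟨hx.1, hx0⟩ hx
  rintro (h | h)
  · exact key i j hi hj hij hd h
  · exact key j i hj hi hij.symm hd.symm h

/-! ### the vertices -/

section vertices

variable {v : ℕ → E} {C : Set E} {P : ConHomeo Rct C} {π : E → E} {mu K : ℝ}
  {κ : ConHomeo Rct Rct}

theorem cv_nat (n : ℕ) (v : ℕ → E) {i : ℕ} (hi : i ≤ n) : cv n v i = v i := by
  have key : ∀ j ≤ i, ∑ l ∈ Finset.range j, cl1 ((i:ℝ) - l) • (v (l + 1) - v l) = v j - v 0 := by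
    intro j
    induction j with
    | zero => intro _; simp
    | succ j ih =>
      intro hj
      rw [Finset.sum_range_succ, ih (by omega), cl1_eq_one (by
        have : (j:ℝ) + 1 ≤ i := by exact_mod_cast hj
        linarith), one_smul]
      abel
  unfold cv
  have h1 : ∑ l ∈ Finset.range n, cl1 ((i:ℝ) - l) • (v (l + 1) - v l) =
      ∑ l ∈ Finset.range i, cl1 ((i:ℝ) - l) • (v (l + 1) - v l) := by
    symm
    refine Finset.sum_subset (Finset.range_mono hi) fun l _ hl => ?_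
    rw [Finset.mem_range, not_lt] at hl
    have : (i:ℝ) ≤ l := by exact_mod_cast hl
    rw [cl1_eq_zero (by linarith), zero_smul]
  rw [h1, key i le_rfl]
  abel

/-- the ends of the edges -/
theorem Par.ends (hP : Par v P) (e : Fin 4) :
    (P.toFun (ed e 0) = v e ∧ P.toFun (ed e 1) = v (e + 1)) ∨
      (P.toFun (ed e 0) = v (e + 1) ∧ P.toFun (ed e 1) = v e) := by
  have h0 := hP e 0 ⟨le_rfl, zero_le_one⟩
  have h1 := hP e 1 ⟨zero_le_one, le_rfl⟩
  have c0 := cv_nat 4 v (i := 0) (by norm_num)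
  have c1 := cv_nat 4 v (i := 1) (by norm_num)
  have c2 := cv_nat 4 v (i := 2) (by norm_num)
  have c3 := cv_nat 4 v (i := 3) (by norm_num)
  have c4 := cv_nat 4 v (i := 4) (by norm_num)
  push_cast at c0 c1 c2 c3 c4
  fin_cases e
  · left
    constructor
    · rw [h0]; simp only [tpBL]; norm_num; exact c0
    · rw [h1]; simp only [tpBL]; norm_num; exact c1
  · left
    constructor
    · rw [h0]; simp only [tpBL]; norm_num; exact c1
    · rw [h1]; simp only [tpBL]; norm_num; exact c2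
  · right
    constructor
    · rw [h0]; simp only [tpBL]; norm_num; exact c3
    · rw [h1]; simp only [tpBL]; norm_num; exact c2
  · right
    constructor
    · rw [h0]; simp only [tpBL]; norm_num; exact c4
    · rw [h1]; simp only [tpBL]; norm_num; exact c3

/-- every vertex is a value of the parametrisation -/
theorem exists_vertex (hP : Par v P) (hκ : ChartBL mu K κ) (hmu : 0 < mu) (hmu1 : mu < 1 / 4)
    (hπ : ∀ i ≤ 4, π (v i) = v i) (hclo : v 4 = v 0) {i : ℕ} (hi : i ≤ 4) :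
    ∃ z ∈ bR, gam π P κ z = v i ∧
      ((0 < i ∧ i < 4 ∧ z = ((i : ℝ) / 4, 1)) ∨
        ((i = 0 ∨ i = 4) ∧ (z.2 = 1 → z.1 < mu / 4 ∨ 1 - mu / 4 < z.1))) := by
  by_cases h : 0 < i ∧ i < 4
  · have a0 : (1:ℝ) ≤ i := by exact_mod_cast h.1
    have a1 : (i:ℝ) ≤ 3 := by exact_mod_cast Nat.lt_succ_iff.1 h.2
    refine ⟨((i:ℝ) / 4, 1), top_mem (by linarith) (by linarith), ?_, Or.inl ⟨h.1, h.2, rfl⟩⟩
    rw [gam_top hP hκ hmu hmu1 ⟨by linarith, by linarith⟩]
    have e1 : 4 * ((i:ℝ) / 4) = i := by ring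
    rw [e1, cv_nat 4 v hi, hπ i hi]
  · have hi' : i = 0 ∨ i = 4 := by omega
    have hv : v i = v 0 := by rcases hi' with h | h <;> rw [h]; exact hclo
    have hm0 : ((0, 0) : ℝ × ℝ) ∈ bR := zero_mem
    refine ⟨κ.toFun (0, 0), ?_, ?_, Or.inr ⟨hi', fun h2 => ?_⟩⟩
    · rw [← hκ.bd]; exact mem_image_of_mem _ hm0
    · unfold gam
      rw [κ.left_inv (bR_sub hm0)]
      have e1 : P.toFun (0, 0) = v 0 := by
        have h3 := hP 0 0 ⟨le_rfl, zero_le_one⟩
        have c0 := cv_nat 4 v (i := 0) (by norm_num)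
        push_cast at c0
        simp only [ed, tpBL] at h3
        norm_num at h3
        rw [h3, c0]
      rw [e1, hπ 0 (by norm_num), hv]
    · by_contra hcon
      push Not at hcon
      obtain ⟨e, t, ht, h3, h4⟩ := exists_tp hmu.le (a := (κ.toFun (0, 0)).1) (mu := mu)
        ⟨by linarith [hcon.1], by linarith [hcon.2]⟩
      have h5 := hκ.top e t ht h4
      rw [h3] at h5
      have h6 : κ.toFun (ed e t) = κ.toFun (0, 0) := by
        rw [h5]; exact Prod.ext rfl h2.symm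
      have h7 := κ.injOn (bR_sub (ed_mem e ht)) (bR_sub hm0) h6
      revert h4 h7
      fin_cases e <;> simp [ed] <;> intro _ h8 <;> linarith

variable {A : Type*} {S : A → Set E} {X : Finset E} {S2 S3 : E → ℝ} {col : A → Bool}

/-- the sign of the defining function of an arc at the vertices -/
theorem sign_vertex (h : ArcPat C (bd 4 v) S col)
    (D : BdData (bd 4 v) S (gam π P κ) (fun x => S2 x / 4) (fun x => S3 x / 4))
    (hP : Par v P) (hκ : ChartBL mu K κ) (hmu : 0 < mu) (hmu1 : mu < 1 / 4)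
    (hπ : ∀ i ≤ 4, π (v i) = v i) (hclo : v 4 = v 0) {α : A} {x y : E}
    (hx : x ∈ S α ∩ bd 4 v) (hy : y ∈ S α ∩ bd 4 v) (hxy : S2 x < S2 y)
    (he : S α ∩ bd 4 v = {x, y}) {f : E → ℝ} (hf : IsFn C (bd 4 v) S (gam π P κ (0, 0)) α f)
    (bx : mu < S2 x) (by' : S3 y < 4 - mu) {i : ℕ} (hi : i ≤ 4) :
    (S3 x < i → (i : ℝ) < S2 y → 0 < f (v i)) ∧ ((i : ℝ) < S2 x ∨ S3 y < i → f (v i) < 0) := by
  obtain ⟨s1, s2⟩ := fn_signs h D hx hy (by show S2 x / 4 < S2 y / 4; linarith) he hf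
  have px := D.pos α x hx
  have py := D.pos α y hy
  obtain ⟨z, hz, hzv, hc⟩ := exists_vertex hP hκ hmu hmu1 hπ hclo hi
  rcases hc with ⟨h0, h4, hz'⟩ | ⟨h0, h1⟩
  · constructor
    · intro h1 h2
      have := s1 ((i:ℝ) / 4) (by show S3 x / 4 < _; linarith) (by show _ < S2 y / 4; linarith)
      rwa [← hz', hzv] at this
    · intro h1
      have := s2 z hz fun _ => by
        rw [hz']
        rcases h1 with h1 | h1
        · left; show (i:ℝ) / 4 < S2 x / 4; linarith
        · right; show S3 y / 4 < (i:ℝ) / 4; linarith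
      rwa [hzv] at this
  · constructor
    · intro h2 h3
      exfalso
      have p1 : 0 < S2 x / 4 := px.1
      have p2 : S2 x / 4 < S3 x / 4 := px.2.1
      have p3 : S3 y / 4 < 1 := py.2.2
      have p4 : S2 y / 4 < S3 y / 4 := py.2.1
      rcases h0 with h | h
      · rw [h] at h2; push_cast at h2; linarith
      · rw [h] at h3; push_cast at h3; linarith
    · intro _
      have := s2 z hz fun h2 => by
        rcases h1 h2 with h3 | h3
        · left; show z.1 < S2 x / 4; linarith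
        · right; show S3 y / 4 < z.1; linarith
      rwa [hzv] at this

/-- opposite signs at the ends of a side: exactly one end of the arc lies on this side -/
theorem one_side {f : E → ℝ} {x y : E} (hxy : S2 x < S2 y)
    (hs : ∀ i ≤ 4, (S3 x < (i:ℕ) → ((i:ℕ) : ℝ) < S2 y → 0 < f (v i)) ∧
      (((i:ℕ) : ℝ) < S2 x ∨ S3 y < (i:ℕ) → f (v i) < 0))
    {a b e : ℕ} (ha : (a : ℝ) < S2 x) (ha' : S3 x < a + 1) (hb : (b : ℝ) < S2 y)
    (hb' : S3 y < b + 1) (hx23 : S2 x < S3 x) (hy23 : S2 y < S3 y) (he : e < 4)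
    (hp : f (v e) * f (v (e + 1)) < 0) : (a = e ∧ b ≠ e) ∨ (a ≠ e ∧ b = e) := by
  have hab : a ≤ b := by
    have h1 : (a : ℝ) < b + 1 := by linarith
    have h2 : a < b + 1 := by exact_mod_cast h1
    omega
  obtain ⟨p1, n1⟩ := hs e (by omega)
  obtain ⟨p2, n2⟩ := hs (e + 1) (by omega)
  push_cast at p2 n2
  have neg : f (v e) < 0 → f (v (e + 1)) < 0 → False := fun h1 h2 => by
    have := mul_pos_of_neg_of_neg h1 h2; linarith
  have pos : 0 < f (v e) → 0 < f (v (e + 1)) → False := fun h1 h2 => by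
    have := mul_pos h1 h2; linarith
  by_cases h1 : a = e
  · by_cases h2 : b = e
    · exfalso
      subst h1; subst h2
      exact neg (n1 (Or.inl ha)) (n2 (Or.inr hb'))
    · exact Or.inl ⟨h1, h2⟩
  · by_cases h2 : b = e
    · exact Or.inr ⟨h1, h2⟩
    · exfalso
      rcases Nat.lt_or_gt_of_ne h1 with h3 | h3
      · -- a < e
        have h3' : (a : ℝ) + 1 ≤ e := by exact_mod_cast h3
        rcases Nat.lt_or_gt_of_ne h2 with h4 | h4
        · have h4' : (b : ℝ) + 1 ≤ e := by exact_mod_cast h4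
          exact neg (n1 (Or.inr (by linarith))) (n2 (Or.inr (by linarith)))
        · have h4' : (e : ℝ) + 1 ≤ b := by exact_mod_cast h4
          exact pos (p1 (by linarith) (by linarith)) (p2 (by linarith) (by linarith))
      · have h3' : (e : ℝ) + 1 ≤ a := by exact_mod_cast h3
        exact neg (n1 (Or.inl (by linarith))) (n2 (Or.inl (by linarith)))

end vertices

/-- **a level between the values at two points off the levels is crossed**: some arc of this level
separates the two points -/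
theorem exists_sep {m n : ℕ} {C : Set E} {h : E → Fin m → ℝ} {L : Fin m → Finset ℝ}
    {fn : ℕ → E → ℝ} {cd : ℕ → Fin m} {lev ε : ℕ → ℝ} {k : Fin m → ℝ → ℝ} {lo hi : Fin m → ℝ → ℝ}
    (hF : FaceIn n C h (fun j => (L j : Set ℝ)) fn cd lev ε)
    (hI : ∀ j, Ins1 (k j) (L j : Set ℝ) (lo j) (hi j)) (hpre : IsPreconnected (preQ k h C))
    {p q : E} (hp : p ∈ C) (hq : q ∈ C) (hpL : ∀ j, h p j ∉ L j) (hqL : ∀ j, h q j ∉ L j)
    {j : Fin m} {c : ℝ} (hc : c ∈ L j) (h1 : h p j < c) (h2 : c < h q j) :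
    ∃ i < n, cd i = j ∧ lev i = c ∧ fn i p * fn i q < 0 := by
  have hsurj : ∀ x : E, ∃ y : Fin m → ℝ, prodK k y = h x := by
    intro x
    choose y hy using fun j => (hI j).surj (h x j)
    exact ⟨y, funext hy⟩
  obtain ⟨y, hy⟩ := hsurj p
  obtain ⟨y', hy'⟩ := hsurj q
  have my : y ∈ preQ k h C := by
    show prodK k y ∈ h '' C
    rw [hy]; exact mem_image_of_mem _ hp
  have my' : y' ∈ preQ k h C := by
    show prodK k y' ∈ h '' C
    rw [hy']; exact mem_image_of_mem _ hq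
  have py : hF.pt k y = p := hF.pt_eq hp hy.symm
  have py' : hF.pt k y' = q := hF.pt_eq hq hy'.symm
  have hle := FaceIn.abs_rho_le hF hI hpre j hc my my'
  have hlt := (hI j).lt c hc
  have e1 : rho (lo j) (hi j) c (y j) = 0 := by
    refine rho_of_le ((hI j).lt_lo hc ?_).le
    have : k j (y j) = h p j := congrFun hy j
    rw [this]; exact h1
  have e2 : rho (lo j) (hi j) c (y' j) = hi j c - lo j c := by
    refine rho_of_ge ((hI j).hi_lt hc ?_).le hlt.le
    have : k j (y' j) = h q j := congrFun hy' j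
    rw [this]; exact h2
  rw [e1, e2, zero_sub, abs_neg, abs_of_pos (by linarith)] at hle
  have hpos : 0 < ∑ i ∈ (Finset.range n).filter (fun i => cd i = j ∧ lev i = c),
      FaceIn.len lo hi cd lev i * |hF.zz lo hi k i y - hF.zz lo hi k i y'| := by linarith
  obtain ⟨i, hi', hne⟩ := Finset.exists_ne_zero_of_sum_ne_zero hpos.ne'
  rw [Finset.mem_filter, Finset.mem_range] at hi'
  refine ⟨i, hi'.1, hi'.2.1, hi'.2.2, ?_⟩
  have hzz : hF.zz lo hi k i y ≠ hF.zz lo hi k i y' := by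
    intro h3
    rw [h3, sub_self, abs_zero, mul_zero] at hne
    exact hne rfl
  have nz : ∀ x ∈ C, (∀ j, h x j ∉ L j) → fn i x ≠ 0 := by
    intro x hx hxL h3
    have h4 := hF.on i hi'.1 x hx h3
    exact hxL _ (h4 ▸ hF.mem i hi'.1)
  rcases lt_or_gt_of_ne (nz p hp hpL) with h3 | h3 <;> rcases lt_or_gt_of_ne (nz q hq hqL) with h4 | h4
  · exfalso
    apply hzz
    rw [hF.zz_neg (by rw [py]; exact h3), hF.zz_neg (by rw [py']; exact h4)]
  · exact mul_neg_of_neg_of_pos h3 h4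
  · exact mul_neg_of_pos_of_neg h3 h4
  · exfalso
    apply hzz
    rw [hF.zz_pos (by rw [py]; exact h3), hF.zz_pos (by rw [py']; exact h4)]

end P073.H228
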