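import Vale.Agent.P073.H228.Near2

/-!
# P073, H228, [NEAR], part 3: the ends of the arcs
-/

set_option linter.unusedSectionVars false

open Set Metric Topology Filter

namespace P073.H228

open P073.H31 P073.H579 P073.H155 P073.H237 Gon

variable {E : Type*} [NormedAddCommGroup E] [NormedSpace ℝ E]

/-- the side of a crossing point -/
noncomputable def sd (S2 : E → ℝ) (x : E) : Fin 4 :=
  if S2 x < 1 then 0 else if S2 x < 2 then 1 else if S2 x < 3 then 2 else 3

/-- the lower end of the interval in the parameter of the edge -/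
def loE (e : Fin 4) (a b : ℝ) : ℝ :=
  match e with
  | 0 => a
  | 1 => a - 1
  | 2 => 3 - b
  | 3 => 4 - b

/-- the upper end of the interval in the parameter of the edge -/
def hiE (e : Fin 4) (a b : ℝ) : ℝ :=
  match e with
  | 0 => b
  | 1 => b - 1
  | 2 => 3 - a
  | 3 => 4 - a

theorem hiE_sub_loE (e : Fin 4) (a b : ℝ) : hiE e a b - loE e a b = b - a := by
  fin_cases e <;> simp [hiE, loE]

theorem tp_min (e : Fin 4) {a b : ℝ} (h : a ≤ b) :
    min (tpBL e (loE e a b)) (tpBL e (hiE e a b)) = a / 4 := by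
  fin_cases e
  · show min (a / 4) (b / 4) = a / 4
    exact min_eq_left (by linarith)
  · show min ((1 + (a - 1)) / 4) ((1 + (b - 1)) / 4) = a / 4
    rw [min_eq_left (by linarith)]; ring
  · show min ((3 - (3 - b)) / 4) ((3 - (3 - a)) / 4) = a / 4
    rw [min_eq_right (by linarith)]; ring
  · show min ((4 - (4 - b)) / 4) ((4 - (4 - a)) / 4) = a / 4
    rw [min_eq_right (by linarith)]; ring

theorem tp_max (e : Fin 4) {a b : ℝ} (h : a ≤ b) :
    max (tpBL e (loE e a b)) (tpBL e (hiE e a b)) = b / 4 := by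
  fin_cases e
  · show max (a / 4) (b / 4) = b / 4
    exact max_eq_right (by linarith)
  · show max ((1 + (a - 1)) / 4) ((1 + (b - 1)) / 4) = b / 4
    rw [max_eq_right (by linarith)]; ring
  · show max ((3 - (3 - b)) / 4) ((3 - (3 - a)) / 4) = b / 4
    rw [max_eq_left (by linarith)]; ring
  · show max ((4 - (4 - b)) / 4) ((4 - (4 - a)) / 4) = b / 4
    rw [max_eq_left (by linarith)]; ring

section

variable {X : Finset E} {mu : ℝ} {S2 S3 : E → ℝ}

theorem sd_of_mem {i : ℕ} (hi : i < 4) {x : E} (hx : x ∈ XE X S2 i) : (sd S2 x : ℕ) = i := by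
  obtain ⟨-, h1, h2⟩ := mem_XE.1 hx
  unfold sd
  interval_cases i
  · push_cast at h1 h2
    rw [if_pos (by linarith)]; rfl
  · push_cast at h1 h2
    rw [if_neg (by linarith), if_pos (by linarith)]; rfl
  · push_cast at h1 h2
    rw [if_neg (by linarith), if_neg (by linarith), if_pos (by linarith)]; rfl
  · push_cast at h1 h2
    rw [if_neg (by linarith), if_neg (by linarith), if_neg (by linarith)]; rfl

theorem SlotPos.mem_sd (H : SlotPos X mu S2 S3) {x : E} (hx : x ∈ X) :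
    x ∈ XE X S2 (sd S2 x : ℕ) := by
  obtain ⟨i, hi, hxi⟩ := H.ex x hx
  rw [sd_of_mem hi hxi]; exact hxi

theorem SlotPos.mem_XE_iff (H : SlotPos X mu S2 S3) {x : E} {e : Fin 4} :
    x ∈ XE X S2 (e : ℕ) ↔ x ∈ X ∧ sd S2 x = e := by
  constructor
  · intro h
    exact ⟨(mem_XE.1 h).1, Fin.ext (sd_of_mem e.2 h)⟩
  · rintro ⟨h1, h2⟩
    rw [← h2]; exact H.mem_sd h1

/-- the rank from above -/
theorem SlotPos.card_gt (H : SlotPos X mu S2 S3) {i : ℕ} {x : E} (hx : x ∈ XE X S2 i) :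
    (((XE X S2 i).filter fun y => S2 x < S2 y).card) + 1 + rkE X S2 i x = (XE X S2 i).card := by
  classical
  unfold rkE
  have h1 : XE X S2 i = ((XE X S2 i).filter fun y => S2 x < S2 y) ∪ ({x} ∪
      (XE X S2 i).filter fun y => S2 y < S2 x) := by
    ext y
    simp only [Finset.mem_union, Finset.mem_filter, Finset.mem_singleton]
    constructor
    · intro hy
      rcases lt_trichotomy (S2 x) (S2 y) with h | h | h
      · exact Or.inl ⟨hy, h⟩
      · exact Or.inr (Or.inl (H.inj y (mem_XE.1 hy).1 x (mem_XE.1 hx).1 h.symm))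
      · exact Or.inr (Or.inr ⟨hy, h⟩)
    · rintro (h | h | h)
      · exact h.1
      · rw [h]; exact hx
      · exact h.1
  conv_rhs => rw [h1]
  rw [Finset.card_union_of_disjoint, Finset.card_union_of_disjoint, Finset.card_singleton]
  · rw [add_assoc]
  · rw [Finset.disjoint_singleton_left, Finset.mem_filter]
    exact fun h => lt_irrefl _ h.2
  · rw [Finset.disjoint_left]
    intro y hy
    rw [Finset.mem_filter] at hy
    rw [Finset.mem_union, Finset.mem_singleton, Finset.mem_filter]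
    rintro (h | h)
    · rw [h] at hy; exact lt_irrefl _ hy.2
    · exact lt_asymm hy.2 h.2

end

/-- the ends of the arcs -/
noncomputable def mkEnds (S2 S3 : E → ℝ) (n : ℕ) (typ : ℕ → Bool) (pt : ℕ → Bool → E) : Ends where
  n := n
  typ := typ
  e := fun i s => sd S2 (pt i s)
  lo := fun i s => loE (sd S2 (pt i s)) (S2 (pt i s)) (S3 (pt i s))
  hi := fun i s => hiE (sd S2 (pt i s)) (S2 (pt i s)) (S3 (pt i s))

/-- the end points of the arcs, numbered -/
structure PtOK (X : Finset E) (S2 : E → ℝ) (n : ℕ) (pt : ℕ → Bool → E) : Prop where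
  mem : ∀ i < n, ∀ s, pt i s ∈ X
  inj : ∀ i < n, ∀ s, ∀ j < n, ∀ s', pt i s = pt j s' → (i, s) = (j, s')
  surj : ∀ x ∈ X, ∃ i < n, ∃ s, pt i s = x
  ord : ∀ i < n, S2 (pt i false) < S2 (pt i true)

section

variable {X : Finset E} {mu : ℝ} {S2 S3 : E → ℝ} {n : ℕ} {typ : ℕ → Bool} {pt : ℕ → Bool → E}

/-- counting of the ends -/
theorem PtOK.card (H : PtOK X S2 n pt) (Q : E → Prop) [DecidablePred Q]
    [DecidablePred fun y : ℕ × Bool => Q (pt y.1 y.2)] :
    ((Finset.range n ×ˢ (Finset.univ : Finset Bool)).filter fun y => Q (pt y.1 y.2)).card =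
      (X.filter Q).card := by
  refine Finset.card_bij (fun y _ => pt y.1 y.2) ?_ ?_ ?_
  · intro y hy
    rw [Finset.mem_filter, Finset.mem_product, Finset.mem_range] at hy
    exact Finset.mem_filter.2 ⟨H.mem _ hy.1.1 _, hy.2⟩
  · intro y hy z hz h
    rw [Finset.mem_filter, Finset.mem_product, Finset.mem_range] at hy hz
    exact H.inj _ hy.1.1 _ _ hz.1.1 _ h
  · intro x hx
    rw [Finset.mem_filter] at hx
    obtain ⟨i, hi, s, hs⟩ := H.surj x hx.1
    refine ⟨(i, s), ?_, hs⟩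
    rw [Finset.mem_filter, Finset.mem_product, Finset.mem_range]
    exact ⟨⟨hi, Finset.mem_univ _⟩, by rw [hs]; exact hx.2⟩

theorem mkEnds_arc (HS : SlotPos X mu S2 S3) (hmu1 : mu < 1 / 4) (H : PtOK X S2 n pt) (w : ℝ)
    {i : ℕ} (hi : i < n) :
    (mkEnds S2 S3 n typ pt).arc w i = ⟨S2 (pt i false) / 4, S3 (pt i true) / 4,
      (S3 (pt i false) - S2 (pt i false)) / 4, (S3 (pt i true) - S2 (pt i true)) / 4, w⟩ := by
  have h1 : ∀ s, S2 (pt i s) ≤ S3 (pt i s) := fun s => by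
    obtain ⟨j, hj, hx⟩ := HS.ex _ (H.mem i hi s)
    exact (HS.bounds hmu1 hj hx).2.1.le
  have h2 : ∀ s, (mkEnds S2 S3 n typ pt).tl i s = S2 (pt i s) / 4 := fun s => tp_min _ (h1 s)
  have h3 : ∀ s, (mkEnds S2 S3 n typ pt).tr i s = S3 (pt i s) / 4 := fun s => tp_max _ (h1 s)
  unfold Ends.arc
  rw [h2, h3, h2, h3, sub_div, sub_div]

theorem mkEnds_tl (HS : SlotPos X mu S2 S3) (hmu1 : mu < 1 / 4) (H : PtOK X S2 n pt)
    {i : ℕ} (hi : i < n) (s : Bool) : (mkEnds S2 S3 n typ pt).tl i s = S2 (pt i s) / 4 ∧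
      (mkEnds S2 S3 n typ pt).tr i s = S3 (pt i s) / 4 := by
  have h1 : S2 (pt i s) ≤ S3 (pt i s) := by
    obtain ⟨j, hj, hx⟩ := HS.ex _ (H.mem i hi s)
    exact (HS.bounds hmu1 hj hx).2.1.le
  exact ⟨tp_min _ h1, tp_max _ h1⟩

/-- number of ends on a side -/
theorem mkEnds_on (HS : SlotPos X mu S2 S3) (H : PtOK X S2 n pt) (e : Fin 4) :
    ((mkEnds S2 S3 n typ pt).on e).card = (XE X S2 (e : ℕ)).card := by
  classical
  have h1 : XE X S2 (e : ℕ) = X.filter fun x => sd S2 x = e := by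
    ext x
    rw [HS.mem_XE_iff, Finset.mem_filter]
  rw [h1, ← H.card fun x => sd S2 x = e]
  unfold Ends.on mkEnds
  congr 1

/-- the rank of an end -/
theorem mkEnds_rk (HS : SlotPos X mu S2 S3) (hmu : 0 < mu) (hmu1 : mu < 1 / 4)
    (H : PtOK X S2 n pt) {i : ℕ} (hi : i < n) (s : Bool) :
    ((mkEnds S2 S3 n typ pt).rk i s : ℝ) = if (sd S2 (pt i s) = 0 ∨ sd S2 (pt i s) = 1) then
      (rkE X S2 (sd S2 (pt i s) : ℕ) (pt i s) : ℝ)
      else (XE X S2 (sd S2 (pt i s) : ℕ)).card - 1 - rkE X S2 (sd S2 (pt i s) : ℕ) (pt i s) := by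
  classical
  set x := pt i s with hx
  have hxX : x ∈ X := H.mem i hi s
  set e := sd S2 x with he
  have hxe : x ∈ XE X S2 (e : ℕ) := HS.mem_sd hxX
  -- the rank as a number of crossing points
  have h1 : (mkEnds S2 S3 n typ pt).rk i s = ((XE X S2 (e : ℕ)).filter fun y =>
      loE e (S2 y) (S3 y) < loE e (S2 x) (S3 x)).card := by
    have h2 : (XE X S2 (e : ℕ)).filter (fun y => loE e (S2 y) (S3 y) < loE e (S2 x) (S3 x)) =
        X.filter fun y => sd S2 y = e ∧ loE (sd S2 y) (S2 y) (S3 y) < loE e (S2 x) (S3 x) := by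
      ext y
      rw [Finset.mem_filter, Finset.mem_filter, HS.mem_XE_iff]
      constructor
      · rintro ⟨⟨a1, a2⟩, a3⟩
        exact ⟨a1, a2, by rw [a2]; exact a3⟩
      · rintro ⟨a1, a2, a3⟩
        rw [a2] at a3
        exact ⟨⟨a1, a2⟩, a3⟩
    rw [h2, ← H.card fun y => sd S2 y = e ∧ loE (sd S2 y) (S2 y) (S3 y) < loE e (S2 x) (S3 x)]
    unfold Ends.rk Ends.on
    rw [Finset.filter_filter]
    rfl
  have hlt : ∀ y ∈ XE X S2 (e : ℕ), (S3 x < S3 y ↔ S2 x < S2 y) := by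
    intro y hy
    have hyX := (mem_XE.1 hy).1
    constructor
    · intro h
      by_contra hcon
      rcases (not_lt.1 hcon).lt_or_eq with h3 | h3
      · have h4 := HS.sep hmu hmu1 hyX hxX h3
        have h5 := HS.bounds hmu1 e.2 hy
        have h6 := HS.bounds hmu1 e.2 hxe
        linarith
      · have := HS.inj y hyX x hxX h3
        rw [this] at h
        exact lt_irrefl _ h
    · intro h
      have h4 := HS.sep hmu hmu1 hxX hyX h
      have h5 := HS.bounds hmu1 e.2 hy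
      have h6 := HS.bounds hmu1 e.2 hxe
      linarith
  have hlow : ∀ e : Fin 4, (e = 0 ∨ e = 1) → ∀ y : E,
      (loE e (S2 y) (S3 y) < loE e (S2 x) (S3 x) ↔ S2 y < S2 x) := by
    rintro e (h | h) y <;> subst h
    · rfl
    · show S2 y - 1 < S2 x - 1 ↔ _
      constructor <;> intro h <;> linarith
  have hup : ∀ e : Fin 4, ¬ (e = 0 ∨ e = 1) → ∀ y : E,
      (loE e (S2 y) (S3 y) < loE e (S2 x) (S3 x) ↔ S3 x < S3 y) := by
    intro e h y
    fin_cases e
    · exact absurd (Or.inl rfl) h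
    · exact absurd (Or.inr rfl) h
    · show 3 - S3 y < 3 - S3 x ↔ _
      constructor <;> intro h <;> linarith
    · show 4 - S3 y < 4 - S3 x ↔ _
      constructor <;> intro h <;> linarith
  split_ifs with hc
  · rw [h1]
    unfold rkE
    norm_cast
    congr 1
    refine Finset.filter_congr fun y _ => hlow e hc y
  · have h3 : ((XE X S2 (e : ℕ)).filter fun y => loE e (S2 y) (S3 y) < loE e (S2 x) (S3 x)) =
        (XE X S2 (e : ℕ)).filter fun y => S2 x < S2 y :=
      Finset.filter_congr fun y hy => (hup e hc y).trans (hlt y hy)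
    have h4 := HS.card_gt hxe
    rw [h1, h3]
    have h5 : ((((XE X S2 (e : ℕ)).filter fun y => S2 x < S2 y).card : ℝ) + 1 +
        rkE X S2 (e : ℕ) x) = (XE X S2 (e : ℕ)).card := by exact_mod_cast h4
    linarith

theorem cell_aux (e : Fin 4) {a b mu N r : ℝ} (hN : 0 < N)
    (h2 : a = ((e : ℕ) : ℝ) + (mu + (1 - 2 * mu) * (r + 3 / 8) / N))
    (h3 : b = ((e : ℕ) : ℝ) + (mu + (1 - 2 * mu) * (r + 5 / 8) / N)) :
    loE e a b = mu + (1 - 2 * mu) * ((if (e = 0 ∨ e = 1) then r else N - 1 - r) + 3 / 8) / N ∧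
    hiE e a b = mu + (1 - 2 * mu) * ((if (e = 0 ∨ e = 1) then r else N - 1 - r) + 5 / 8) / N := by
  constructor
  · fin_cases e
    · have e1 : ((0 : Fin 4) = 0 ∨ (0 : Fin 4) = 1) := Or.inl rfl
      show a = mu + (1 - 2 * mu) * ((if ((0 : Fin 4) = 0 ∨ (0 : Fin 4) = 1) then r
        else N - 1 - r) + 3 / 8) / N
      rw [if_pos e1, h2]; push_cast; ring
    · have e1 : ((1 : Fin 4) = 0 ∨ (1 : Fin 4) = 1) := Or.inr rfl
      show a - 1 = mu + (1 - 2 * mu) * ((if ((1 : Fin 4) = 0 ∨ (1 : Fin 4) = 1) then r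
        else N - 1 - r) + 3 / 8) / N
      rw [if_pos e1, h2]; push_cast; ring
    · have e1 : ¬ ((2 : Fin 4) = 0 ∨ (2 : Fin 4) = 1) := by decide
      show 3 - b = mu + (1 - 2 * mu) * ((if ((2 : Fin 4) = 0 ∨ (2 : Fin 4) = 1) then r
        else N - 1 - r) + 3 / 8) / N
      rw [if_neg e1, h3]; push_cast; field_simp; ring
    · have e1 : ¬ ((3 : Fin 4) = 0 ∨ (3 : Fin 4) = 1) := by decide
      show 4 - b = mu + (1 - 2 * mu) * ((if ((3 : Fin 4) = 0 ∨ (3 : Fin 4) = 1) then r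
        else N - 1 - r) + 3 / 8) / N
      rw [if_neg e1, h3]; push_cast; field_simp; ring
  · fin_cases e
    · have e1 : ((0 : Fin 4) = 0 ∨ (0 : Fin 4) = 1) := Or.inl rfl
      show b = mu + (1 - 2 * mu) * ((if ((0 : Fin 4) = 0 ∨ (0 : Fin 4) = 1) then r
        else N - 1 - r) + 5 / 8) / N
      rw [if_pos e1, h3]; push_cast; ring
    · have e1 : ((1 : Fin 4) = 0 ∨ (1 : Fin 4) = 1) := Or.inr rfl
      show b - 1 = mu + (1 - 2 * mu) * ((if ((1 : Fin 4) = 0 ∨ (1 : Fin 4) = 1) then r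
        else N - 1 - r) + 5 / 8) / N
      rw [if_pos e1, h3]; push_cast; ring
    · have e1 : ¬ ((2 : Fin 4) = 0 ∨ (2 : Fin 4) = 1) := by decide
      show 3 - a = mu + (1 - 2 * mu) * ((if ((2 : Fin 4) = 0 ∨ (2 : Fin 4) = 1) then r
        else N - 1 - r) + 5 / 8) / N
      rw [if_neg e1, h2]; push_cast; field_simp; ring
    · have e1 : ¬ ((3 : Fin 4) = 0 ∨ (3 : Fin 4) = 1) := by decide
      show 4 - a = mu + (1 - 2 * mu) * ((if ((3 : Fin 4) = 0 ∨ (3 : Fin 4) = 1) then r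
        else N - 1 - r) + 5 / 8) / N
      rw [if_neg e1, h2]; push_cast; field_simp; ring

/-- **the cells** -/
theorem mkEnds_cell (HS : SlotPos X mu S2 S3) (hmu : 0 < mu) (hmu1 : mu < 1 / 4)
    (H : PtOK X S2 n pt) {i : ℕ} (hi : i < n) (s : Bool) :
    (mkEnds S2 S3 n typ pt).lo i s = mu + (1 - 2 * mu) * ((mkEnds S2 S3 n typ pt).rk i s + 3 / 8) /
      ((mkEnds S2 S3 n typ pt).on ((mkEnds S2 S3 n typ pt).e i s)).card ∧
    (mkEnds S2 S3 n typ pt).hi i s = mu + (1 - 2 * mu) * ((mkEnds S2 S3 n typ pt).rk i s + 5 / 8) /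
      ((mkEnds S2 S3 n typ pt).on ((mkEnds S2 S3 n typ pt).e i s)).card ∧
    0 < ((mkEnds S2 S3 n typ pt).on ((mkEnds S2 S3 n typ pt).e i s)).card := by
  have hr := mkEnds_rk (typ := typ) HS hmu hmu1 H hi s
  have hxX : pt i s ∈ X := H.mem i hi s
  have hxe : pt i s ∈ XE X S2 (sd S2 (pt i s) : ℕ) := HS.mem_sd hxX
  have hN' : 0 < (XE X S2 (sd S2 (pt i s) : ℕ)).card := (Nat.zero_le _).trans_lt (rkE_lt hxe)
  have hN : (0:ℝ) < (XE X S2 (sd S2 (pt i s) : ℕ)).card := by exact_mod_cast hN'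
  have key := cell_aux (sd S2 (pt i s)) hN (HS.s2 _ (sd S2 (pt i s)).2 _ hxe)
    (HS.s3 _ (sd S2 (pt i s)).2 _ hxe)
  rw [← hr] at key
  have e1 : (mkEnds S2 S3 n typ pt).e i s = sd S2 (pt i s) := rfl
  rw [mkEnds_on HS H, e1]
  exact ⟨key.1, key.2, hN'⟩

end

end P073.H228
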