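import Vale.Agent.P073.H228.Near3

/-!
# P073, H228, [NEAR], part 4: the theorem
-/

set_option linter.unusedSectionVars false

open Set Metric Topology Filter

namespace P073.H228

open P073.H31 P073.H579 P073.H155 P073.H237 Gon

variable {E : Type*} [NormedAddCommGroup E] [NormedSpace ℝ E]

theorem pos_congr {k : ℕ} {A A' : ℕ → ArcD} (H : Pos k A) (h : ∀ i < k, A' i = A i) :
    Pos k A' := by
  refine ⟨fun i hi => ?_, fun i hi j hj hij => ?_, fun j hj i hij a => ?_, fun j hj i hij => ?_⟩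
  · rw [h i hi]; exact H.good i hi
  · rw [h i hi, h j hj]; exact H.disj i hi j hj hij
  · rw [h j hj, h i (hij.trans hj)]; exact H.gap j hj i hij a
  · rw [h j hj, h i (hij.trans hj)]; exact H.ord j hj i hij

theorem pat_congr {k : ℕ} {A A' : ℕ → ArcD} {col : ℕ → Bool} {C B : Set E} {fn : ℕ → E → ℝ}
    {γ : ℝ × ℝ → E} (H : Pat k A col C B fn γ) (h : ∀ i < k, A' i = A i) :
    Pat k A' col C B fn γ where
  pos := pos_congr H.pos h
  hC := H.hC
  hfn := H.hfn
  hS := H.hS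
  γc := H.γc
  γk := H.γk
  γi := H.γi
  γf := fun x hx y hy hxy => by
    rcases H.γf x hx y hy hxy with h1 | ⟨i, hi, h1⟩
    · exact Or.inl h1
    · refine Or.inr ⟨i, hi, ?_⟩
      rw [h i hi]; exact h1
  γL := fun i hi => by rw [h i hi]; exact H.γL i hi
  γR := fun i hi => by rw [h i hi]; exact H.γR i hi
  zp := fun i hi => by rw [h i hi]; exact H.zp i hi
  zq := fun i hi => by rw [h i hi]; exact H.zq i hi
  pos_in := fun i hi => by rw [h i hi]; exact H.pos_in i hi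
  neg_out := fun i hi => by rw [h i hi]; exact H.neg_out i hi
  sub := H.sub
  dis := H.dis
  link := fun i hi j hj hij hne => by rw [h i hi, h j hj]; exact H.link i hi j hj hij hne

section

variable {A : Type*} {m : ℕ} {C : Set E} {v : ℕ → E} {h : E → Fin m → ℝ} {L : Fin m → Finset ℝ}
  {S : A → Set E} {cd : A → Fin m} {lev : A → ℝ} {col : A → Bool}

theorem lev_of (HF : FacePat C (bd 4 v) h (fun j => (L j : Set ℝ)) S cd lev col) {α : A} {x : E}
    (hx : x ∈ S α) : h x (cd α) = lev α := by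
  have h1 : x ∈ ⋃ (β) (_ : cd β = cd α ∧ lev β = lev α), S β :=
    mem_iUnion₂.2 ⟨α, ⟨rfl, rfl⟩, hx⟩
  rw [HF.eq (cd α) (lev α) (HF.mem α)] at h1
  exact h1.2

theorem mem_X_iff (HF : FacePat C (bd 4 v) h (fun j => (L j : Set ℝ)) S cd lev col)
    {X : Finset E} (hX : ∀ x, x ∈ X ↔ x ∈ bd 4 v ∧ ∃ j, h x j ∈ L j) (x : E) :
    (∃ α, x ∈ S α ∩ bd 4 v) ↔ x ∈ X := by
  rw [hX]
  constructor
  · rintro ⟨α, h1, h2⟩
    exact ⟨h2, cd α, by rw [lev_of HF h1]; exact HF.mem α⟩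
  · rintro ⟨h1, j, h2⟩
    have h3 : x ∈ ⋃ (α) (_ : cd α = j ∧ lev α = h x j), S α := by
      rw [HF.eq j (h x j) h2]
      exact ⟨HF.pat.hC.1 h1, rfl⟩
    obtain ⟨α, -, h4⟩ := mem_iUnion₂.1 h3
    exact ⟨α, h4, h1⟩

end

/-- **[NEAR]** -/
theorem exists_near {A : Type*} [Finite A] {m : ℕ} [Inhabited (Fin m)] {v : ℕ → E}
    {h : E → Fin m → ℝ} {k : Fin m → ℝ → ℝ} {L : Fin m → Finset ℝ} {lo hi : Fin m → ℝ → ℝ}
    {C : Set E} {S : A → Set E} {cd : A → Fin m} {lev : A → ℝ} {col : A → Bool}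
    (HF : FacePat C (bd 4 v) h (fun j => (L j : Set ℝ)) S cd lev col)
    (hdis : ∀ α β, α ≠ β → cd α = cd β → Disjoint (S α) (S β))
    (hinj : InjOn h C) (hc : ContinuousOn h C) (hk : ConicalOn h C) (H : HIn 4 v h k L lo hi)
    {j0 j1 : Fin m} (hj : j0 ≠ j1) (hcd : ∀ α, cd α = j0 ∨ cd α = j1)
    {X : Finset E} (hX : ∀ x, x ∈ X ↔ x ∈ bd 4 v ∧ ∃ j, h x j ∈ L j)
    {S2 S3 : E → ℝ} {π : E → E} (hClp : Clp 4 v X S2 S3 π) (hπ : ∀ i ≤ 4, π (v i) = v i)
    {mu : ℝ} (hmu : 0 < mu) (hmu1 : mu < 1 / 4) (HS : SlotPos X mu S2 S3)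
    {P : ConHomeo Rct C} (hP : Par v P) {K : ℝ} {κ : ConHomeo Rct Rct} (hκ : ChartBL mu K κ)
    {c ρ w : ℝ} (hc1 : c ≤ 1 / 4) (hw : 0 < w) (hN : NM h L X S2 P j0 j1 w ρ) :
    ∃ (Y : Ends) (ee : Fin Y.n ≃ A) (cq : ℕ → Bool) (fn : ℕ → E → ℝ),
      NearOut (C := C) v S cd j1 S2 S3 (gam π P κ) mu c ρ w Y ee cq fn := by
  classical
  have hSX := mem_X_iff HF hX
  have D := bdData hSX hClp hmu hmu1 HS hP hκ
  obtain ⟨n, ee, Aq, cq, fn, hPat, hprop⟩ := exists_pat HF.pat D (om := fun _ => w) fun _ => hw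
  choose hSa hcq hom hfn xL xR hxL hxR heq hlt hp hwL hq hwR using hprop
  -- the ends
  set pt : ℕ → Bool → E := fun i s => if hi : i < n then (if s then xR ⟨i, hi⟩ else xL ⟨i, hi⟩)
    else 0 with hpt
  have ptL : ∀ i : Fin n, pt i false = xL i := fun i => by simp [hpt]
  have ptR : ∀ i : Fin n, pt i true = xR i := fun i => by simp [hpt]
  have ptm : ∀ i : Fin n, ∀ s, pt i s ∈ S (ee i) ∩ bd 4 v := by
    intro i s
    cases s
    · rw [ptL]; exact hxL i
    · rw [ptR]; exact hxR i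
  have hlt' : ∀ i : Fin n, S2 (xL i) < S2 (xR i) := fun i => by
    have : S2 (xL i) / 4 < S2 (xR i) / 4 := hlt i
    linarith
  have hpo : PtOK X S2 n pt := by
    refine ⟨fun i hi s => (hSX _).1 ⟨_, ptm ⟨i, hi⟩ s⟩, fun i hi s j hj' s' hij => ?_,
      fun x hx => ?_, fun i hi => ?_⟩
    · have h1 := ptm ⟨i, hi⟩ s
      have h2 := ptm ⟨j, hj'⟩ s'
      have h3 : ee ⟨i, hi⟩ = ee ⟨j, hj'⟩ := by
        by_contra hne
        refine Set.disjoint_left.1 (HF.pat.off _ _ hne) ⟨h1.1, ?_⟩ h1.2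
        have : pt (⟨i, hi⟩ : Fin n) s = pt (⟨j, hj'⟩ : Fin n) s' := hij
        rw [this]; exact h2.1
      have h4 : i = j := congrArg Fin.val (ee.injective h3)
      subst h4
      have h5 := hlt' ⟨i, hi⟩
      have h6 := ptL ⟨i, hi⟩
      have h7 := ptR ⟨i, hi⟩
      simp only at h6 h7
      cases s <;> cases s'
      · rfl
      · exfalso; rw [h6, h7] at hij; rw [hij] at h5; exact lt_irrefl _ h5
      · exfalso; rw [h6, h7] at hij; rw [hij] at h5; exact lt_irrefl _ h5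
      · rfl
    · obtain ⟨α, hα⟩ := (hSX x).2 hx
      obtain ⟨i, rfl⟩ := ee.surjective α
      rw [heq i] at hα
      rcases hα with h1 | h1
      · exact ⟨i, i.2, false, by rw [ptL]; exact h1.symm⟩
      · exact ⟨i, i.2, true, by rw [ptR]; exact (mem_singleton_iff.1 h1).symm⟩
    · have := hlt' ⟨i, hi⟩
      rw [← ptL, ← ptR] at this
      exact this
  set typ : ℕ → Bool := fun i => if hi : i < n then decide (cd (ee ⟨i, hi⟩) = j1) else false
    with htyp
  have htyp' : ∀ i : Fin n, (typ i = true ↔ cd (ee i) = j1) := fun i => by simp [htyp]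
  set Y : Ends := mkEnds S2 S3 n typ pt with hY
  have harc : ∀ i < n, Y.arc w i = Aq i := by
    intro i hi
    have h1 := mkEnds_arc (typ := typ) HS hmu1 hpo w hi
    rw [← hY] at h1
    rw [h1]
    have a1 := hp ⟨i, hi⟩
    have a2 := hwL ⟨i, hi⟩
    have a3 := hq ⟨i, hi⟩
    have a4 := hwR ⟨i, hi⟩
    have a5 := hom ⟨i, hi⟩
    have b1 := ptL ⟨i, hi⟩
    have b2 := ptR ⟨i, hi⟩
    simp only at a1 a2 a3 a4 a5 b1 b2
    rw [b1, b2]
    have e1 : Aq i = ⟨(Aq i).p, (Aq i).q, (Aq i).w, (Aq i).w', (Aq i).om⟩ := rfl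
    rw [e1, a1, a2, a3, a4, a5, sub_div, sub_div]
  have hPat' : Pat Y.n (Y.arc w) cq C (bd 4 v) fn (gam π P κ) := pat_congr hPat harc
  have hcell := fun i (hi : i < n) s => mkEnds_cell (typ := typ) HS hmu hmu1 hpo hi s
  rw [← hY] at hcell
  have hm : 0 < 1 - 2 * mu := by linarith
  have hbd4 : ∀ {α x}, x ∈ S α ∩ bd 4 v → ∃ i < 4, x ∈ XE X S2 i ∧ (i : ℝ) < S2 x ∧
      S2 x < S3 x ∧ S3 x < i + 1 ∧ mu < S2 x ∧ S3 x < 4 - mu := by
    intro α x hx
    obtain ⟨i, hi, hxi⟩ := HS.ex x ((hSX x).1 ⟨α, hx⟩)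
    obtain ⟨a1, a2, a3⟩ := HS.bounds hmu1 hi hxi
    have hi3 : (i : ℝ) ≤ 3 := by exact_mod_cast Nat.lt_succ_iff.1 hi
    have hi0 : (0:ℝ) ≤ i := Nat.cast_nonneg _
    exact ⟨i, hi, hxi, by linarith, a2, by linarith, by linarith, by linarith⟩
  have hInjS3 : ∀ x ∈ X, ∀ y ∈ X, S3 x = S3 y → x = y := by
    intro x hx y hy hxy
    by_contra hne
    have hne2 : S2 x ≠ S2 y := fun h => hne (HS.inj x hx y hy h)
    obtain ⟨α, hα⟩ := (hSX x).2 hx
    obtain ⟨β, hβ⟩ := (hSX y).2 hy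
    obtain ⟨_, -, -, -, x1, -, -, -⟩ := hbd4 hα
    obtain ⟨_, -, -, -, y1, -, -, -⟩ := hbd4 hβ
    rcases lt_or_gt_of_ne hne2 with h1 | h1
    · have := HS.sep hmu hmu1 hx hy h1; linarith
    · have := HS.sep hmu hmu1 hy hx h1; linarith
  refine ⟨Y, ee, cq, fn, ⟨⟨?_, ?_, ?_, ?_, ?_, ?_⟩, ⟨?_, ?_⟩, hPat', htyp', hfn, ?_⟩⟩
  · -- ord
    intro i hi
    have h1 := (mkEnds_tl (typ := typ) HS hmu1 hpo hi false).2
    have h2 := (mkEnds_tl (typ := typ) HS hmu1 hpo hi true).1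
    rw [← hY] at h1 h2
    rw [h1, h2]
    have h3 := HS.sep hmu hmu1 (hpo.mem i hi false) (hpo.mem i hi true) (hpo.ord i hi)
    obtain ⟨_, -, -, -, x1, -, -, -⟩ := hbd4 (ptm ⟨i, hi⟩ false)
    obtain ⟨_, -, -, -, y1, -, -, -⟩ := hbd4 (ptm ⟨i, hi⟩ true)
    simp only at x1 y1
    linarith
  · -- cell
    intro i hi s
    obtain ⟨h1, h2, h3⟩ := hcell i hi s
    have hN0 : (0:ℝ) < (Y.on (Y.e i s)).card := by exact_mod_cast h3
    rw [h1, h2]
    set N : ℝ := ((Y.on (Y.e i s)).card : ℝ)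
    set r : ℝ := (Y.rk i s : ℝ)
    refine ⟨?_, ?_, ?_⟩
    · have : (1 - 2 * mu) * (r + c) / N ≤ (1 - 2 * mu) * (r + 3 / 8) / N := by
        rw [div_le_div_iff_of_pos_right hN0]
        exact mul_le_mul_of_nonneg_left (by linarith) hm.le
      linarith
    · have : (1 - 2 * mu) * (r + 5 / 8) / N ≤ (1 - 2 * mu) * (r + 1 - c) / N := by
        rw [div_le_div_iff_of_pos_right hN0]
        exact mul_le_mul_of_nonneg_left (by linarith) hm.le
      linarith
    · have : (1 - 2 * mu) * (r + 3 / 8) / N + c * (1 - 2 * mu) / N ≤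
          (1 - 2 * mu) * (r + 5 / 8) / N := by
        rw [← add_div, div_le_div_iff_of_pos_right hN0]
        nlinarith
      linarith
  · -- inj
    intro i hi s j hj' s' hne he hlo
    apply hne
    apply hpo.inj i hi s j hj' s'
    have he' : sd S2 (pt i s) = sd S2 (pt j s') := he
    have hlo' : loE (sd S2 (pt i s)) (S2 (pt i s)) (S3 (pt i s)) =
      loE (sd S2 (pt j s')) (S2 (pt j s')) (S3 (pt j s')) := hlo
    have mx := hpo.mem i hi s
    have my := hpo.mem j hj' s'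
    rw [← he'] at hlo'
    generalize sd S2 (pt i s) = e at hlo'
    fin_cases e
    · exact HS.inj _ mx _ my hlo'
    · have : S2 (pt i s) - 1 = S2 (pt j s') - 1 := hlo'
      exact HS.inj _ mx _ my (by linarith)
    · have : 3 - S3 (pt i s) = 3 - S3 (pt j s') := hlo'
      exact hInjS3 _ mx _ my (by linarith)
    · have : 4 - S3 (pt i s) = 4 - S3 (pt j s') := hlo'
      exact hInjS3 _ mx _ my (by linarith)
  · -- cnt
    intro e
    rw [hY, mkEnds_on HS hpo]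
    exact hN.cnt e e.2
  · -- one
    intro e
    obtain ⟨cd', lev', ε, hF, hcl⟩ := HF.exists_faceIn hdis hinj hc hk
      (D.γi ▸ mem_image_of_mem _ zero_mem) ee hfn
    obtain ⟨Pp, -, -⟩ := peelP (E := E) n n Aq cq C (bd 4 v) fn (gam π P κ) 1 le_rfl one_pos hPat
    have hRpre : IsPreconnected Rct :=
      ((convex_Icc (0:ℝ) 1).prod (convex_Icc (0:ℝ) 1)).isPreconnected
    have hpre : IsPreconnected (preQ k h C) := by
      have hFil : IsPreconnected (Fil n n C fn) := by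
        rw [← Pp.image_eq]; exact hRpre.image _ Pp.cont
      rw [← (FaceIn.xi hF H.hI).image_eq]
      exact hFil.image _ (FaceIn.xi hF H.hI).cont
    set j := jd j0 j1 (Ends.dir e) with hjd
    set p := P.toFun (ed e 0) with hpd
    set q := P.toFun (ed e 1) with hqd
    have hvC : ∀ i ≤ 4, v i ∈ bd 4 v := by
      intro i hi
      have h1 : (i : ℝ) ≤ 4 := by exact_mod_cast hi
      exact ⟨i, ⟨Nat.cast_nonneg _, by push_cast; exact h1⟩, cv_nat 4 v hi⟩
    have hBC : bd 4 v ⊆ C := HF.pat.hC.1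
    have he4 : (e : ℕ) < 4 := e.2
    have hends := hP.ends e
    have hmemp : p ∈ C ∧ (∀ j, h p j ∉ L j) ∧ q ∈ C ∧ ∀ j, h q j ∉ L j := by
      rcases hends with ⟨h1, h2⟩ | ⟨h1, h2⟩
      · rw [hpd, hqd, h1, h2]
        exact ⟨hBC (hvC _ (by omega)), H.hv _ (by omega), hBC (hvC _ (by omega)),
          H.hv _ (by omega)⟩
      · rw [hpd, hqd, h1, h2]
        exact ⟨hBC (hvC _ (by omega)), H.hv _ (by omega), hBC (hvC _ (by omega)),
          H.hv _ (by omega)⟩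
    obtain ⟨hpC, hpL, hqC, hqL⟩ := hmemp
    have hsub : ((L j).filter fun c => h p j < c ∧ c < h q j) ⊆ (Y.one e).image lev' := by
      intro c hc'
      rw [Finset.mem_filter] at hc'
      obtain ⟨i, hi, h1, h2, h3⟩ := exists_sep hF H.hI hpre hpC hqC hpL hqL hc'.1 hc'.2.1 hc'.2.2
      have hprod : fn i (v e) * fn i (v (e + 1)) < 0 := by
        rcases hends with ⟨g1, g2⟩ | ⟨g1, g2⟩
        · rw [hpd, hqd, g1, g2] at h3; exact h3
        · rw [hpd, hqd, g1, g2, mul_comm] at h3; exact h3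
      obtain ⟨a, ha4, hxa, a1, a2, a3, a4, -⟩ := hbd4 (hxL ⟨i, hi⟩)
      obtain ⟨b, hb4, hyb, b1, b2, b3, -, b5⟩ := hbd4 (hxR ⟨i, hi⟩)
      have hsg := fun (i' : ℕ) (hi' : i' ≤ 4) => sign_vertex HF.pat D hP hκ hmu hmu1 hπ H.gon.clo
        (hxL ⟨i, hi⟩) (hxR ⟨i, hi⟩) (hlt' ⟨i, hi⟩) (heq ⟨i, hi⟩) (hfn ⟨i, hi⟩) a4 b5 hi'
      have hone := one_side (hlt' ⟨i, hi⟩) hsg a1 a3 b1 b3 a2 b2 he4 hprod
      rw [Finset.mem_image]
      refine ⟨i, ?_, h2⟩
      have c1 := ptL ⟨i, hi⟩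
      have c2 := ptR ⟨i, hi⟩
      simp only at c1 c2
      have s1 : (Y.e i false : ℕ) = a := by
        show (sd S2 (pt i false) : ℕ) = a
        rw [c1]; exact sd_of_mem ha4 hxa
      have s2 : (Y.e i true : ℕ) = b := by
        show (sd S2 (pt i true) : ℕ) = b
        rw [c2]; exact sd_of_mem hb4 hyb
      unfold Ends.one
      rw [Finset.mem_filter, Finset.mem_range]
      refine ⟨hi, ?_, ?_⟩
      · have h4 := (hcl ⟨i, hi⟩).1
        simp only at h4
        rw [h1] at h4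
        have h5 := htyp' ⟨i, hi⟩
        simp only at h5
        show typ i = Ends.dir e
        cases hd : Ends.dir e
        · rw [hjd, hd] at h4
          by_contra hcon
          rw [Bool.not_eq_false] at hcon
          have h6 := h5.1 hcon
          rw [← h4] at h6
          exact hj h6
        · rw [hjd, hd] at h4
          exact h5.2 h4.symm
      · rcases hone with ⟨g1, g2⟩ | ⟨g1, g2⟩
        · exact Or.inl ⟨Fin.ext (s1.trans g1), fun h => g2 (s2.symm.trans (congrArg Fin.val h))⟩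
        · exact Or.inr ⟨fun h => g1 (s1.symm.trans (congrArg Fin.val h)), Fin.ext (s2.trans g2)⟩
    have hcard := (Finset.card_le_card hsub).trans Finset.card_image_le
    have h7 := hN.one e
    have h8 : w * (((L j).filter fun c => h p j < c ∧ c < h q j).card : ℝ) ≤
        w * ((Y.one e).card : ℝ) :=
      mul_le_mul_of_nonneg_left (by exact_mod_cast hcard) hw.le
    exact h7.trans h8
  · -- unl
    intro i hi j hj' hij htt
    refine not_lnk_of_disj hPat' hi hj' hij ?_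
    have e1 := hSa ⟨i, hi⟩
    have e2 := hSa ⟨j, hj'⟩
    simp only at e1 e2
    rw [e1, e2]
    refine hdis _ _ (fun h => hij (congrArg Fin.val (ee.injective h))) ?_
    have t1 := htyp' ⟨i, hi⟩
    have t2 := htyp' ⟨j, hj'⟩
    simp only at t1 t2
    have htt' : typ i = typ j := htt
    rcases hcd (ee ⟨i, hi⟩) with h1 | h1 <;> rcases hcd (ee ⟨j, hj'⟩) with h2 | h2
    · rw [h1, h2]
    · exfalso
      have h3 := t1.1 (htt'.trans (t2.2 h2))
      rw [h1] at h3; exact hj h3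
    · exfalso
      have h3 := t2.1 (htt'.symm.trans (t1.2 h1))
      rw [h2] at h3; exact hj h3
    · rw [h1, h2]
  · -- Dbl.lo
    intro i hi s
    obtain ⟨h1, h2, h3⟩ := hcell i hi s
    have hN0 : (0:ℝ) < (Y.on (Y.e i s)).card := by exact_mod_cast h3
    rw [h1, h2]
    set N : ℝ := ((Y.on (Y.e i s)).card : ℝ)
    set r : ℝ := (Y.rk i s : ℝ)
    have e1 : mu + (1 - 2 * mu) * (r + 3 / 8) / N - (mu + (1 - 2 * mu) * (r + 5 / 8) / N -
        (mu + (1 - 2 * mu) * (r + 3 / 8) / N)) = mu + (1 - 2 * mu) * (r + 1 / 8) / N := by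
      field_simp; ring
    rw [e1]
    have : (1 - 2 * mu) * r / N ≤ (1 - 2 * mu) * (r + 1 / 8) / N := by
      rw [div_le_div_iff_of_pos_right hN0]
      exact mul_le_mul_of_nonneg_left (by linarith) hm.le
    linarith
  · -- Dbl.hi
    intro i hi s
    obtain ⟨h1, h2, h3⟩ := hcell i hi s
    have hN0 : (0:ℝ) < (Y.on (Y.e i s)).card := by exact_mod_cast h3
    rw [h1, h2]
    set N : ℝ := ((Y.on (Y.e i s)).card : ℝ)
    set r : ℝ := (Y.rk i s : ℝ)
    have e1 : mu + (1 - 2 * mu) * (r + 5 / 8) / N + (mu + (1 - 2 * mu) * (r + 5 / 8) / N -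
        (mu + (1 - 2 * mu) * (r + 3 / 8) / N)) = mu + (1 - 2 * mu) * (r + 7 / 8) / N := by
      field_simp; ring
    rw [e1]
    have : (1 - 2 * mu) * (r + 7 / 8) / N ≤ (1 - 2 * mu) * (r + 1) / N := by
      rw [div_le_div_iff_of_pos_right hN0]
      exact mul_le_mul_of_nonneg_left (by linarith) hm.le
    linarith
  · -- ends
    intro i
    refine ⟨xL i, xR i, heq i, hlt' i, ?_⟩
    have h1 := mkEnds_arc (typ := typ) HS hmu1 hpo w i.2
    rw [← hY] at h1
    have b1 : pt (i : ℕ) false = xL i := ptL i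
    have b2 : pt (i : ℕ) true = xR i := ptR i
    rw [b1, b2] at h1
    exact h1

end P073.H228
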