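import Vale.Agent.P073.H228.Near4

/-!
# P073, H228, [NEAR], part 5: the collapse fixes the vertices
-/

set_option linter.unusedSectionVars false

open Set Metric Topology Filter

namespace P073.H228

open P073.H31 P073.H579 P073.H155 P073.H237 Gon

variable {E : Type*} [NormedAddCommGroup E] [NormedSpace ℝ E]

/-- a point of an edge in the parameter of the polygon -/
theorem seg_param {n : ℕ} {v : ℕ → E} {i : ℕ} (hi : i < n) {y : E} (hy : y ∈ seg v i) :
    ∃ T ∈ Icc (i:ℝ) (i + 1), cv n v T = y := by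
  unfold seg at hy
  rw [segment_eq_image_lineMap] at hy
  obtain ⟨s, hs, rfl⟩ := hy
  exact ⟨i + s, ⟨by linarith [hs.1], by linarith [hs.2]⟩, cv_add hi hs⟩

/-- a map which preserves the edges of a quadrilateral fixes the vertices -/
theorem fix_of_maps {v : ℕ → E} (g : Gon 4 v) {π : E → E}
    (hm : ∀ i < 4, MapsTo π (seg v i) (seg v i)) : ∀ i ≤ 4, π (v i) = v i := by
  have hl : ∀ i : ℕ, v i ∈ seg v i := fun i => left_mem_segment ℝ _ _
  have hr : ∀ i : ℕ, v (i + 1) ∈ seg v i := fun i => right_mem_segment ℝ _ _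
  have key : ∀ i : ℕ, i + 1 < 4 → π (v (i + 1)) = v (i + 1) := by
    intro i hi
    obtain ⟨T, hT, h1⟩ := seg_param (n := 4) (by omega : i < 4) (hm i (by omega) (hr i))
    obtain ⟨T', hT', h2⟩ := seg_param (n := 4) hi (hm (i + 1) hi (hl (i + 1)))
    push_cast at hT'
    have hi' : (i:ℝ) + 1 ≤ 3 := by exact_mod_cast (by omega : i + 1 ≤ 3)
    have hi0 : (0:ℝ) ≤ i := Nat.cast_nonneg _
    have mT : T ∈ Ico (0:ℝ) ((4:ℕ):ℝ) := ⟨by linarith [hT.1], by push_cast; linarith [hT.2]⟩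
    rcases eq_or_lt_of_le (show T' ≤ 4 by linarith [hT'.2]) with h3 | h3
    · -- then the point is `v 4 = v 0`
      exfalso
      have h4 : cv 4 v 0 = cv 4 v T := by
        rw [h1, ← h2, h3]
        have c0 := cv_nat 4 v (i := 0) (by norm_num)
        have c4 := cv_nat 4 v (i := 4) (by norm_num)
        push_cast at c0 c4
        rw [c0, c4, g.clo]
      have h5 := g.inj (⟨le_rfl, by norm_num⟩ : (0:ℝ) ∈ Ico (0:ℝ) ((4:ℕ):ℝ)) mT h4
      have h6 : (i:ℝ) ≤ 0 := by rw [h5]; exact hT.1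
      have h7 : (2:ℝ) ≤ i := by linarith [hT'.2]
      linarith
    · have mT' : T' ∈ Ico (0:ℝ) ((4:ℕ):ℝ) := ⟨by linarith [hT'.1], by push_cast; exact h3⟩
      have h4 := g.inj mT mT' (h1.trans h2.symm)
      have h5 : T = ((i + 1 : ℕ) : ℝ) := by
        push_cast
        exact le_antisymm hT.2 (by rw [h4]; linarith [hT'.1])
      rw [← h1, h5, cv_nat 4 v (by omega)]
  have key0 : π (v 0) = v 0 := by
    obtain ⟨T, hT, h1⟩ := seg_param (n := 4) (by omega : 0 < 4) (hm 0 (by omega) (hl 0))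
    have hv : v 0 ∈ seg v 3 := by rw [← g.clo]; exact hr 3
    obtain ⟨T', hT', h2⟩ := seg_param (n := 4) (by omega : 3 < 4) (hm 3 (by omega) hv)
    push_cast at hT hT'
    have mT : T ∈ Ico (0:ℝ) ((4:ℕ):ℝ) := ⟨hT.1, by push_cast; linarith [hT.2]⟩
    have c0 := cv_nat 4 v (i := 0) (by norm_num)
    have c4 := cv_nat 4 v (i := 4) (by norm_num)
    push_cast at c0 c4
    rcases eq_or_lt_of_le (show T' ≤ 4 by linarith [hT'.2]) with h3 | h3
    · rw [← h2, h3, c4, g.clo]
    · exfalso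
      have mT' : T' ∈ Ico (0:ℝ) ((4:ℕ):ℝ) := ⟨by linarith [hT'.1], by push_cast; exact h3⟩
      have h4 := g.inj mT mT' (h1.trans h2.symm)
      linarith [hT.2, hT'.1]
  intro i hi
  rcases i with _ | i
  · exact key0
  · by_cases h : i + 1 < 4
    · exact key i h
    · have h4 : i + 1 = 4 := by omega
      rw [h4, g.clo]; exact key0

/-- the collapse fixes the vertices -/
theorem colp_fix {m : ℕ} {v : ℕ → E} {h : E → Fin m → ℝ} {k : Fin m → ℝ → ℝ}
    {L : Fin m → Finset ℝ} {lo hi : Fin m → ℝ → ℝ} (H : HIn 4 v h k L lo hi)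
    {G : E → Fin m → ℝ} {π : E → E} (hπ : Colp h k L 4 v G π) : ∀ i ≤ 4, π (v i) = v i :=
  fix_of_maps H.gon hπ.maps

end P073.H228
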