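import Vale.Agent.P073.H237.SharpDefs2
import Vale.Agent.P073.H579.HFaceAbs

/-!
# P073, H228, SHARP2, **[NEAR]**: definitions

From the pattern of a square face with evenly spaced slots on its four sides to `Ends`, `Near`,
`Dbl` and `Pat` in the chart `BL`. The sides of the face are the edges `[v i, v (i+1)]`, `i < 4`, of
a polygon; side `i` is the edge `e = i` of the unit square, the parameter `T` of `cv 4 v` is four times
the position in the chart `BL`.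
-/

open Set Metric Topology Filter

namespace P073.H228

open P073.H31 P073.H579 P073.H155 P073.H237 Gon

variable {E : Type*} [NormedAddCommGroup E] [NormedSpace ℝ E]

/-- the crossing points on the side `i` -/
noncomputable def XE (X : Finset E) (S2 : E → ℝ) (i : ℕ) : Finset E := by
  classical exact X.filter fun x => (i : ℝ) < S2 x ∧ S2 x < i + 1

/-- the rank of a crossing point on the side `i` -/
noncomputable def rkE (X : Finset E) (S2 : E → ℝ) (i : ℕ) (x : E) : ℕ := by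
  classical exact ((XE X S2 i).filter fun y => S2 y < S2 x).card

/-- **even slots**: on every side the fibres are the middle quarters of equal cells in
`[mu, 1 - mu]` -/
structure SlotPos (X : Finset E) (mu : ℝ) (S2 S3 : E → ℝ) : Prop where
  ex : ∀ x ∈ X, ∃ i < 4, x ∈ XE X S2 i
  inj : ∀ x ∈ X, ∀ y ∈ X, S2 x = S2 y → x = y
  s2 : ∀ i < 4, ∀ x ∈ XE X S2 i,
    S2 x = i + (mu + (1 - 2 * mu) * (rkE X S2 i x + 3 / 8) / (XE X S2 i).card)
  s3 : ∀ i < 4, ∀ x ∈ XE X S2 i,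
    S3 x = i + (mu + (1 - 2 * mu) * (rkE X S2 i x + 5 / 8) / (XE X S2 i).card)

/-- `P` maps the unit square to the face `C`, such that the position in the chart `BL` is `T / 4` -/
def Par {C : Set E} (v : ℕ → E) (P : ConHomeo Rct C) : Prop :=
  ∀ e t, t ∈ Icc (0:ℝ) 1 → P.toFun (ed e t) = cv 4 v (4 * tpBL e t)

/-- the boundary parametrisation in the chart `κ` -/
noncomputable def gam {C : Set E} (π : E → E) (P : ConHomeo Rct C) (κ : ConHomeo Rct Rct)
    (x : ℝ × ℝ) : E := π (P.toFun (κ.invFun x))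

/-- the coordinate of the type `d` -/
def jd {m : ℕ} (j0 j1 : Fin m) (d : Bool) : Fin m := if d then j1 else j0

/-- the nearly monotone sides, in terms of `h` and the levels (`w` = weight / side length): few
crossing points, many levels between the end points -/
structure NM {m : ℕ} {C : Set E} (h : E → Fin m → ℝ) (L : Fin m → Finset ℝ) (X : Finset E)
    (S2 : E → ℝ) (P : ConHomeo Rct C) (j0 j1 : Fin m) (w ρ : ℝ) : Prop where
  cnt : ∀ i < 4, w * (XE X S2 i).card ≤ 1 + ρ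
  one : ∀ e : Fin 4, 1 - ρ ≤ w * ((L (jd j0 j1 (Ends.dir e))).filter fun c =>
    h (P.toFun (ed e 0)) (jd j0 j1 (Ends.dir e)) < c ∧
      c < h (P.toFun (ed e 1)) (jd j0 j1 (Ends.dir e))).card

/-- the output of [NEAR] -/
structure NearOut {A : Type*} {m : ℕ} {C : Set E} (v : ℕ → E) (S : A → Set E) (cd : A → Fin m)
    (j1 : Fin m) (S2 S3 : E → ℝ) (γ : ℝ × ℝ → E) (mu c ρ w : ℝ) (Y : Ends) (ee : Fin Y.n ≃ A)
    (cq : ℕ → Bool) (fn : ℕ → E → ℝ) : Prop where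
  near : Y.Near mu c ρ w
  dbl : Y.Dbl mu
  pat : Pat Y.n (Y.arc w) cq C (bd 4 v) fn γ
  typ : ∀ i : Fin Y.n, (Y.typ i = true ↔ cd (ee i) = j1)
  isfn : ∀ i : Fin Y.n, IsFn C (bd 4 v) S (γ (0, 0)) (ee i) (fn i)
  ends : ∀ i : Fin Y.n, ∃ x y, S (ee i) ∩ bd 4 v = {x, y} ∧ S2 x < S2 y ∧
    Y.arc w i = ⟨S2 x / 4, S3 y / 4, (S3 x - S2 x) / 4, (S3 y - S2 y) / 4, w⟩

/-- **[NEAR]** -/
def SpecNear (E : Type*) [NormedAddCommGroup E] [NormedSpace ℝ E] : Prop :=
  ∀ {m : ℕ} [Inhabited (Fin m)] {v : ℕ → E} {h : E → Fin m → ℝ} {k : Fin m → ℝ → ℝ}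
    {L : Fin m → Finset ℝ} {lo hi : Fin m → ℝ → ℝ} {A : Type} [Finite A] {C : Set E}
    {S : A → Set E} {cd : A → Fin m} {lev : A → ℝ} {col : A → Bool},
    FacePat C (bd 4 v) h (fun j => (L j : Set ℝ)) S cd lev col →
    (∀ α β, α ≠ β → cd α = cd β → Disjoint (S α) (S β)) →
    InjOn h C → ContinuousOn h C → ConicalOn h C → HIn 4 v h k L lo hi →
  ∀ {j0 j1 : Fin m}, j0 ≠ j1 → (∀ α, cd α = j0 ∨ cd α = j1) →
  ∀ {X : Finset E}, (∀ x, x ∈ X ↔ x ∈ bd 4 v ∧ ∃ j, h x j ∈ L j) →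
  ∀ {S2 S3 : E → ℝ} {π : E → E}, Clp 4 v X S2 S3 π →
  ∀ {mu : ℝ}, 0 < mu → mu < 1 / 4 → SlotPos X mu S2 S3 →
  ∀ {P : ConHomeo Rct C}, Par v P → ∀ {K : ℝ} {κ : ConHomeo Rct Rct}, ChartBL mu K κ →
  ∀ {c ρ w : ℝ}, 0 < c → c ≤ 1 / 4 → 0 < w → NM h L X S2 P j0 j1 w ρ →
    ∃ (Y : Ends) (ee : Fin Y.n ≃ A) (cq : ℕ → Bool) (fn : ℕ → E → ℝ),
      NearOut (C := C) v S cd j1 S2 S3 (gam π P κ) mu c ρ w Y ee cq fn

end P073.H228
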